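import Vale.Agent.P012.Select

open Finset

namespace P012Egypt

noncomputable section

lemma one_add_pow_le (y : ℝ) (hy : 0 ≤ y) (b : ℕ) (hby : 2 * (b : ℝ) * y ≤ 1) :
    (1 + y) ^ b ≤ 1 + 2 * (b : ℝ) * y := by
  induction b with
  | zero => simp
  | succ k ih =>
    have hk : 2 * (k : ℝ) * y ≤ 1 := by
      push_cast at hby
      nlinarith
    have h1 := ih hk
    push_cast at hby ⊢
    calc (1 + y) ^ (k + 1) = (1 + y) ^ k * (1 + y) := pow_succ _ _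
      _ ≤ (1 + 2 * (k : ℝ) * y) * (1 + y) := by gcongr
      _ ≤ 1 + 2 * ((k : ℝ) + 1) * y := by nlinarith

lemma sum_bound (B : Finset ℕ) (Y A G : ℕ) (hBY : ∀ q ∈ B, q ≤ Y) (hG : 0 < G) :
    ∑ J ∈ B.powerset.filter Finset.Nonempty, ((∏ q ∈ J, q : ℕ) : ℝ) ^ 3
        * ((A : ℝ) + 24 * (A : ℝ) ^ 2 / (G : ℝ) ^ J.card) ^ 4
      ≤ 8 * (A : ℝ) ^ 4 * (1 + (Y : ℝ) ^ 3) ^ B.card
        + 8 * 24 ^ 4 * (A : ℝ) ^ 8 * ((1 + (Y : ℝ) ^ 3 / (G : ℝ) ^ 4) ^ B.card - 1) := by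
  classical
  have hGr : (0 : ℝ) < G := by exact_mod_cast hG
  have hterm : ∀ J ∈ B.powerset.filter Finset.Nonempty,
      ((∏ q ∈ J, q : ℕ) : ℝ) ^ 3 * ((A : ℝ) + 24 * (A : ℝ) ^ 2 / (G : ℝ) ^ J.card) ^ 4
        ≤ 8 * (A : ℝ) ^ 4 * ((Y : ℝ) ^ 3) ^ J.card
          + 8 * 24 ^ 4 * (A : ℝ) ^ 8 * ((Y : ℝ) ^ 3 / (G : ℝ) ^ 4) ^ J.card := by
    intro J hJ
    have hJB : J ⊆ B := Finset.mem_powerset.mp (Finset.mem_filter.mp hJ).1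
    have h1 : ((∏ q ∈ J, q : ℕ) : ℝ) ≤ (Y : ℝ) ^ J.card := by
      have : ∏ q ∈ J, q ≤ Y ^ J.card :=
        Finset.prod_le_pow_card J _ Y (fun q hq => hBY q (hJB hq))
      exact_mod_cast this
    have h2 : ((∏ q ∈ J, q : ℕ) : ℝ) ^ 3 ≤ ((Y : ℝ) ^ 3) ^ J.card := by
      calc ((∏ q ∈ J, q : ℕ) : ℝ) ^ 3 ≤ ((Y : ℝ) ^ J.card) ^ 3 := by gcongr
        _ = ((Y : ℝ) ^ 3) ^ J.card := by rw [← pow_mul, ← pow_mul, mul_comm]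
    set a : ℝ := (A : ℝ) with ha
    have ha0 : 0 ≤ a := Nat.cast_nonneg _
    set g : ℝ := (G : ℝ) ^ J.card with hg
    have hg0 : 0 < g := by positivity
    set c : ℝ := 24 * a ^ 2 / g with hc
    have hc0 : 0 ≤ c := by positivity
    have h3 : (a + c) ^ 4 ≤ 8 * a ^ 4 + 8 * c ^ 4 := by
      have h4 : (a ^ 2 + c ^ 2) ^ 2 ≤ 2 * (a ^ 4 + c ^ 4) := by nlinarith [sq_nonneg (a ^ 2 - c ^ 2)]
      have h5 : (a + c) ^ 2 ≤ 2 * (a ^ 2 + c ^ 2) := by nlinarith [sq_nonneg (a - c)]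
      have h6 : ((a + c) ^ 2) ^ 2 ≤ (2 * (a ^ 2 + c ^ 2)) ^ 2 := by
        gcongr
      nlinarith
    have h7 : c ^ 4 = 24 ^ 4 * a ^ 8 / ((G : ℝ) ^ 4) ^ J.card := by
      rw [hc, hg, div_pow, mul_pow, ← pow_mul, ← pow_mul, ← pow_mul, mul_comm J.card 4]
    have hY0 : (0 : ℝ) ≤ ((Y : ℝ) ^ 3) ^ J.card := by positivity
    have hprod0 : (0 : ℝ) ≤ ((∏ q ∈ J, q : ℕ) : ℝ) ^ 3 := by positivity
    have h8 : 0 ≤ (a + c) ^ 4 := by positivity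
    calc ((∏ q ∈ J, q : ℕ) : ℝ) ^ 3 * (a + c) ^ 4
        ≤ ((Y : ℝ) ^ 3) ^ J.card * (8 * a ^ 4 + 8 * c ^ 4) := by gcongr
      _ = 8 * a ^ 4 * ((Y : ℝ) ^ 3) ^ J.card
          + 8 * 24 ^ 4 * a ^ 8 * ((Y : ℝ) ^ 3 / (G : ℝ) ^ 4) ^ J.card := by
        rw [h7, div_pow]
        field_simp
  refine (Finset.sum_le_sum hterm).trans ?_
  rw [Finset.sum_add_distrib, ← Finset.mul_sum, ← Finset.mul_sum]
  have hall : ∀ z : ℝ, ∑ J ∈ B.powerset, z ^ J.card = (1 + z) ^ B.card := by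
    intro z
    have := Finset.sum_pow_mul_eq_add_pow z 1 B
    simp only [one_pow, mul_one] at this
    rw [this, add_comm]
  have hfil : ∀ z : ℝ, ∑ J ∈ B.powerset.filter Finset.Nonempty, z ^ J.card
      = (1 + z) ^ B.card - 1 := by
    intro z
    rw [← hall z]
    have h1 : B.powerset.filter Finset.Nonempty = B.powerset.erase ∅ := by
      ext J
      simp only [Finset.mem_filter, Finset.mem_erase, Finset.nonempty_iff_ne_empty]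
      tauto
    rw [h1]
    have h2 := Finset.add_sum_erase B.powerset (fun J => z ^ J.card)
      (Finset.empty_mem_powerset B)
    simp only [Finset.card_empty, pow_zero] at h2
    linarith
  rw [hfil, hfil]
  have hA4 : (0 : ℝ) ≤ 8 * (A : ℝ) ^ 4 := by positivity
  have : (1 + (Y : ℝ) ^ 3) ^ B.card - 1 ≤ (1 + (Y : ℝ) ^ 3) ^ B.card := by linarith
  gcongr

/-- The batch covering theorem. -/
theorem batch (F : Fin 8 → Finset ℕ) (A G ω Lw b Y : ℕ) (Q : Finset ℕ)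
    (hF : ∀ i, (F i).card = A) (hb : 0 < b) (hLw : 0 < Lw) (hG : 0 < G)
    (hQ : ∀ q ∈ Q, q.Prime ∧ q ≤ Y)
    (hω : ∀ i, ∀ z ∈ F i, ∀ z' ∈ F i, z ≠ z' → (Q.filter (fun q => q ∣ gap (z, z'))).card ≤ ω)
    (hcard : b + Lw ≤ Q.card) (hGω : G * ω * b ≤ Lw)
    (hC1 : 16 * (1 + Y ^ 3) ^ b ≤ A ^ 4) (hC2 : 2 ^ 24 * b * Y ^ 3 ≤ G ^ 4) :
    ∃ B ⊆ Q, B.card = b ∧ ∀ t : ZMod (∏ q ∈ B, q), ∃ x₁ ∈ F 0, ∃ y₁ ∈ F 1, ∃ x₂ ∈ F 2, ∃ y₂ ∈ F 3,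
      ∃ x₃ ∈ F 4, ∃ y₃ ∈ F 5, ∃ x₄ ∈ F 6, ∃ y₄ ∈ F 7,
      (((x₁ * y₁ + x₂ * y₂ + x₃ * y₃ + x₄ * y₄ : ℕ)) : ZMod (∏ q ∈ B, q)) = t := by
  classical
  obtain ⟨B, hBQ, hBb, hB⟩ := select_batch F A G ω Lw b Q hF hb hLw hω hcard hGω
  refine ⟨B, hBQ, hBb, ?_⟩
  have hGr : (0 : ℝ) < G := by exact_mod_cast hG
  have hBprime : ∀ q ∈ B, q.Prime := fun q hq => (hQ q (hBQ hq)).1
  have hBY : ∀ q ∈ B, q ≤ Y := fun q hq => (hQ q (hBQ hq)).2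
  set U : ℕ → ℝ := fun j => (A : ℝ) + 24 * (A : ℝ) ^ 2 / (G : ℝ) ^ j with hUdef
  have hU0 : ∀ j, 0 ≤ U j := by
    intro j
    simp only [hUdef]
    positivity
  have hU : ∀ J ∈ B.powerset, J.Nonempty → ∀ i, (coll (∏ q ∈ J, q) (F i) : ℝ) ≤ U J.card := by
    intro J hJ _ i
    have h1 := coll_le (F i) J
    rw [hF i] at h1
    have h2 := hB J (Finset.mem_powerset.mp hJ) i
    have h3 : (off (F i) J : ℝ) * (G : ℝ) ^ J.card ≤ 24 * (A : ℝ) ^ 2 := by exact_mod_cast h2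
    have h4 : (off (F i) J : ℝ) ≤ 24 * (A : ℝ) ^ 2 / (G : ℝ) ^ J.card := by
      rw [le_div_iff₀ (by positivity)]
      exact h3
    have h5 : (coll (∏ q ∈ J, q) (F i) : ℝ) ≤ (A : ℝ) + (off (F i) J : ℝ) := by exact_mod_cast h1
    simp only [hUdef]
    linarith
  have hA1 : (1 : ℕ) ≤ A ^ 4 := by
    have : 1 ≤ (1 + Y ^ 3) ^ b := Nat.one_le_pow _ _ (by omega)
    omega
  have hApos : 0 < A := by
    rcases Nat.eq_zero_or_pos A with h | h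
    · subst h
      simp at hA1
    · exact h
  have hAr : (0 : ℝ) < A := by exact_mod_cast hApos
  refine cover_main B hBprime F U hU0 hU ?_
  have hprod : ∏ i, ((F i).card : ℝ) = (A : ℝ) ^ 8 := by
    simp [hF]
  rw [hprod]
  have h1 := sum_bound B Y A G hBY hG
  rw [hBb] at h1
  refine lt_of_le_of_lt h1 ?_
  have hC1r : 16 * (1 + (Y : ℝ) ^ 3) ^ b ≤ (A : ℝ) ^ 4 := by exact_mod_cast hC1
  have hC2r : (2 : ℝ) ^ 24 * b * (Y : ℝ) ^ 3 ≤ (G : ℝ) ^ 4 := by exact_mod_cast hC2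
  set y : ℝ := (Y : ℝ) ^ 3 / (G : ℝ) ^ 4 with hy
  have hy0 : 0 ≤ y := by positivity
  have hby : (2 : ℝ) ^ 24 * ((b : ℝ) * y) ≤ 1 := by
    have hG4 : (0 : ℝ) < (G : ℝ) ^ 4 := by positivity
    have : (b : ℝ) * y = (b : ℝ) * (Y : ℝ) ^ 3 / (G : ℝ) ^ 4 := by
      rw [hy]
      ring
    rw [this, ← mul_div_assoc, div_le_one hG4]
    linarith
  have hby0 : 0 ≤ (b : ℝ) * y := by positivity
  have hpow : (1 + y) ^ b ≤ 1 + 2 * (b : ℝ) * y :=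
    one_add_pow_le y hy0 b (by nlinarith)
  have hA8 : (A : ℝ) ^ 8 = (A : ℝ) ^ 4 * (A : ℝ) ^ 4 := by ring
  have hA4pos : (0 : ℝ) < (A : ℝ) ^ 4 := by positivity
  have hpart1 : 8 * (A : ℝ) ^ 4 * (1 + (Y : ℝ) ^ 3) ^ b ≤ (A : ℝ) ^ 8 / 2 := by
    rw [hA8]
    nlinarith
  have hA8pos : (0 : ℝ) < (A : ℝ) ^ 8 := by positivity
  have hpart2 : 8 * 24 ^ 4 * (A : ℝ) ^ 8 * ((1 + y) ^ b - 1) ≤ (A : ℝ) ^ 8 * (2654208 / 8388608) := by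
    have h3 : (1 + y) ^ b - 1 ≤ 2 / 2 ^ 24 := by
      have : 2 * ((b : ℝ) * y) ≤ 2 / 2 ^ 24 := by
        rw [le_div_iff₀ (by positivity)]
        nlinarith
      nlinarith
    have h4 : 8 * 24 ^ 4 * (A : ℝ) ^ 8 * ((1 + y) ^ b - 1)
        ≤ 8 * 24 ^ 4 * (A : ℝ) ^ 8 * (2 / 2 ^ 24) := by gcongr
    refine h4.trans (le_of_eq ?_)
    norm_num
    ring
  nlinarith

end

end P012Egypt
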