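import Mathlib

open Finset

namespace P012Egypt

/-- One greedy step of the Fibonacci-Sylvester algorithm. -/
lemma greedy_step (u v M : ℕ) (hu : 0 < u) (hM : 1 ≤ M) (huM : u * M < v) :
    ∃ n : ℕ, M < n ∧ v ≤ u * n ∧ (n - 1) * u < v ∧ 2 ≤ n ∧ u * n - v < u := by
  set n := (v + u - 1) / u with hn
  have h1 : v ≤ u * n := by
    have := Nat.div_add_mod (v + u - 1) u
    have h2 : (v + u - 1) % u < u := Nat.mod_lt _ hu
    rw [← hn] at this
    omega
  have h2 : n * u ≤ v + u - 1 := Nat.div_mul_le_self _ _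
  have h3 : M < n := by
    by_contra hcon
    push Not at hcon
    have : u * n ≤ u * M := Nat.mul_le_mul_left _ hcon
    omega
  have h4 : 2 ≤ n := by omega
  have h5 : (n - 1) * u < v := by
    obtain ⟨k, hk⟩ : ∃ k, n = k + 1 := ⟨n - 1, by omega⟩
    rw [hk] at h2 ⊢
    simp only [Nat.add_sub_cancel]
    have e : (k + 1) * u = k * u + u := by ring
    omega
  refine ⟨n, h3, h1, h5, h4, ?_⟩
  have e : u * n = (n - 1) * u + u := by
    obtain ⟨k, hk⟩ : ∃ k, n = k + 1 := ⟨n - 1, by omega⟩
    rw [hk]
    simp only [Nat.add_sub_cancel]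
    ring
  omega

/-- Iterating the greedy step with fuel. -/
lemma peel_aux (Z b : ℕ) (f : ℕ) :
    ∀ (u v M Pi : ℕ) (S : Finset ℕ), 2 ≤ M → M ≤ Z ^ 2 → Z ≤ M ^ (2 ^ f) → u * M < v →
      v = b * Pi → Pi ≤ M → (∀ n ∈ S, 2 ≤ n ∧ n ≤ M) →
      ∃ (S' : Finset ℕ) (u' v' : ℕ), S ⊆ S' ∧ S'.card ≤ S.card + f ∧ (∀ n ∈ S', 2 ≤ n) ∧ 0 < v' ∧
        (∑ n ∈ S', (1 : ℚ) / n) + (u' : ℚ) / v' = (∑ n ∈ S, (1 : ℚ) / n) + (u : ℚ) / v ∧
        u' * Z < v' ∧ v' ≤ b * Z ^ 2 ∧ (∀ n ∈ S', u' * n < v') := by
  classical
  induction f with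
  | zero =>
    intro u v M Pi S hM2 hMZ hZM huM hv hPi hS
    refine ⟨S, u, v, Finset.Subset.refl _, by simp, fun n hn => (hS n hn).1, ?_, rfl, ?_, ?_, ?_⟩
    · omega
    · simp only [pow_zero, pow_one] at hZM
      exact lt_of_le_of_lt (Nat.mul_le_mul_left _ hZM) huM
    · rw [hv]
      exact Nat.mul_le_mul_left _ (hPi.trans hMZ)
    · intro n hn
      exact lt_of_le_of_lt (Nat.mul_le_mul_left _ (hS n hn).2) huM
  | succ f ih =>
    intro u v M Pi S hM2 hMZ hZM huM hv hPi hS
    by_cases hstop : u * Z < v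
    · refine ⟨S, u, v, Finset.Subset.refl _, by simp, fun n hn => (hS n hn).1, ?_, rfl, hstop,
        ?_, ?_⟩
      · omega
      · rw [hv]
        exact Nat.mul_le_mul_left _ (hPi.trans hMZ)
      · intro n hn
        exact lt_of_le_of_lt (Nat.mul_le_mul_left _ (hS n hn).2) huM
    · push Not at hstop
      have hv0 : 0 < v := by omega
      have hu : 0 < u := by
        rcases Nat.eq_zero_or_pos u with h | h
        · subst h
          simp at hstop
          omega
        · exact h
      obtain ⟨n, hnM, h1, h2, hn2, h3⟩ := greedy_step u v M hu (by omega) huM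
      have hnZ : n ≤ Z := by
        by_contra hcon
        push Not at hcon
        have : (n - 1) * u ≥ Z * u := Nat.mul_le_mul_right _ (by omega)
        have e : Z * u = u * Z := mul_comm _ _
        omega
      set M' := n * (n - 1) with hM'
      have hn1 : M ≤ n - 1 := by omega
      have hM'2 : 2 ≤ M' := by
        have : 2 * 1 ≤ n * (n - 1) := Nat.mul_le_mul hn2 (by omega)
        omega
      have hM'Z : M' ≤ Z ^ 2 := by
        rw [sq]
        exact Nat.mul_le_mul hnZ (by omega)
      have hM'sq : M ^ 2 ≤ M' := by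
        rw [sq]
        exact Nat.mul_le_mul (by omega) hn1
      have hZM' : Z ≤ M' ^ (2 ^ f) := by
        refine hZM.trans ?_
        rw [pow_succ', pow_mul]
        exact Nat.pow_le_pow_left hM'sq _
      set u' := u * n - v with hu'
      set v' := v * n with hv'
      have hu'eq : u' + v = u * n := by omega
      have hu'M : u' * M' < v' := by
        have h4 : u' * (n - 1) < v := by
          calc u' * (n - 1) ≤ u * (n - 1) := Nat.mul_le_mul_right _ h3.le
            _ = (n - 1) * u := mul_comm _ _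
            _ < v := h2
        by_cases hu'0 : u' = 0
        · rw [hu'0]
          simp only [zero_mul]
          exact Nat.mul_pos hv0 (by omega)
        · have h5 : n * (u' * (n - 1)) < n * v := Nat.mul_lt_mul_of_pos_left h4 (by omega)
          calc u' * M' = n * (u' * (n - 1)) := by rw [hM']; ring
            _ < n * v := h5
            _ = v' := by rw [hv']; ring
      have hnS : n ∉ S := by
        intro hmem
        have := (hS n hmem).2
        omega
      have hS' : ∀ m ∈ insert n S, 2 ≤ m ∧ m ≤ M' := by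
        intro m hm
        have hnM' : n ≤ M' := by
          rw [hM']
          exact Nat.le_mul_of_pos_right _ (by omega)
        rcases Finset.mem_insert.mp hm with rfl | hm
        · exact ⟨hn2, hnM'⟩
        · exact ⟨(hS m hm).1, (hS m hm).2.trans (hnM.le.trans hnM')⟩
      have hv'eq : v' = b * (Pi * n) := by
        rw [hv', hv]
        ring
      have hPi' : Pi * n ≤ M' := by
        rw [hM', mul_comm n]
        exact Nat.mul_le_mul_right _ (hPi.trans hn1)
      obtain ⟨S', u'', v'', hsub, hcard, h2S, hv''pos, hsum, h6, h7, h8⟩ :=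
        ih u' v' M' (Pi * n) (insert n S) hM'2 hM'Z hZM' hu'M hv'eq hPi' hS'
      refine ⟨S', u'', v'', (Finset.subset_insert _ _).trans hsub, ?_, h2S, hv''pos, ?_, h6, h7, h8⟩
      · rw [Finset.card_insert_of_notMem hnS] at hcard
        omega
      · rw [hsum, Finset.sum_insert hnS]
        have hn0 : (n : ℚ) ≠ 0 := by
          have : n ≠ 0 := by omega
          exact_mod_cast this
        have hvq : (v : ℚ) ≠ 0 := by exact_mod_cast hv0.ne'
        have e : (u' : ℚ) + v = u * n := by exact_mod_cast hu'eq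
        have e2 : (v' : ℚ) = v * n := by rw [hv']; push_cast; ring
        rw [e2]
        have e3 : (u' : ℚ) = u * n - v := by linarith
        rw [e3]
        field_simp
        ring

/-- The peeling lemma: a fraction below one is split into a few large unit fractions and a very
small remainder whose denominator is controlled. -/
theorem peel (Z a b f : ℕ) (hZ : 2 ≤ Z) (hf : Z ≤ 2 ^ (2 ^ f)) (ha : 1 ≤ a) (hab : a < b) :
    ∃ (S : Finset ℕ) (u v : ℕ), S.card ≤ f + 1 ∧ (∀ n ∈ S, 2 ≤ n) ∧ 0 < v ∧
      (∑ n ∈ S, (1 : ℚ) / n) + (u : ℚ) / v = (a : ℚ) / b ∧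
      u * Z < v ∧ v ≤ b * Z ^ 2 ∧ (∀ n ∈ S, u * n < v) := by
  classical
  have hb0 : 0 < b := by omega
  by_cases hstart : a * Z < b
  · refine ⟨∅, a, b, by simp, by simp, hb0, by simp, hstart, ?_, by simp⟩
    exact Nat.le_mul_of_pos_right _ (by positivity)
  · push Not at hstart
    obtain ⟨n, hn1, h1, h2, hn2, h3⟩ := greedy_step a b 1 ha le_rfl (by omega)
    have hnZ : n ≤ Z := by
      by_contra hcon
      push Not at hcon
      have : (n - 1) * a ≥ Z * a := Nat.mul_le_mul_right _ (by omega)
      have e : Z * a = a * Z := mul_comm _ _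
      omega
    set M := n * (n - 1) with hM
    have hM2 : 2 ≤ M := by
      have : 2 * 1 ≤ n * (n - 1) := Nat.mul_le_mul hn2 (by omega)
      omega
    have hMZ : M ≤ Z ^ 2 := by
      rw [sq]
      exact Nat.mul_le_mul hnZ (by omega)
    have hZM : Z ≤ M ^ (2 ^ f) := hf.trans (Nat.pow_le_pow_left hM2 _)
    set u := a * n - b with hu
    set v := b * n with hv
    have hv0 : 0 < v := Nat.mul_pos hb0 (by omega)
    have hueq : u + b = a * n := by omega
    have huM : u * M < v := by
      have h4 : u * (n - 1) < b := by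
        calc u * (n - 1) ≤ a * (n - 1) := Nat.mul_le_mul_right _ h3.le
          _ = (n - 1) * a := mul_comm _ _
          _ < b := h2
      have h5 : n * (u * (n - 1)) < n * b := Nat.mul_lt_mul_of_pos_left h4 (by omega)
      calc u * M = n * (u * (n - 1)) := by rw [hM]; ring
        _ < n * b := h5
        _ = v := by rw [hv]; ring
    have hPi : n ≤ M := by
      rw [hM]
      exact Nat.le_mul_of_pos_right _ (by omega)
    have hS : ∀ m ∈ ({n} : Finset ℕ), 2 ≤ m ∧ m ≤ M := by
      intro m hm
      rw [Finset.mem_singleton.mp hm]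
      exact ⟨hn2, hPi⟩
    obtain ⟨S', u', v', _, hcard, h2S, hv'pos, hsum, h6, h7, h8⟩ :=
      peel_aux Z b f u v M n {n} hM2 hMZ hZM huM rfl hPi hS
    refine ⟨S', u', v', ?_, h2S, hv'pos, ?_, h6, h7, h8⟩
    · simp only [Finset.card_singleton] at hcard
      omega
    · rw [hsum, Finset.sum_singleton]
      have hn0 : (n : ℚ) ≠ 0 := by
        have : n ≠ 0 := by omega
        exact_mod_cast this
      have hbq : (b : ℚ) ≠ 0 := by exact_mod_cast hb0.ne'
      have e : (u : ℚ) + b = a * n := by exact_mod_cast hueq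
      have e2 : (v : ℚ) = b * n := by rw [hv]; push_cast; ring
      rw [e2]
      have e3 : (u : ℚ) = a * n - b := by linarith
      rw [e3]
      field_simp
      ring

end P012Egypt
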