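import Vale.Agent.P012.LevelR
import Vale.Agent.P012.Peel

open Finset

namespace P012Egypt

/-- The bit count of the families at scale `k`. -/
def ee (K k : ℕ) : ℕ := 2 ^ k * (K + 1 - k)

/-- The number of primes of a batch at scale `k`. -/
def bb (s K k : ℕ) : ℕ := ee K k / (16 * s)

/-- The bit length at which scale `k` becomes available. -/
def tk (s k : ℕ) : ℕ := 2 * s * (2 ^ k + 1) + 2

/-- The number of levels at scale `k`. -/
def Lk (s K k : ℕ) : ℕ := 8 * s / (K + 1 - k) + 1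

lemma two_pow_ee_le_choose (K k : ℕ) (hk : k ≤ K) :
    2 ^ ee K k ≤ (2 ^ (K + 2)).choose (2 ^ k) := by
  set r := 2 ^ k with hr
  set y := 2 ^ (K + 1 - k) with hy
  have hrpos : 0 < r := by positivity
  have hypos : 0 < y := by positivity
  have hn : 2 ^ (K + 2) = 2 * r * y := by
    rw [hr, hy, mul_assoc, ← pow_add, ← pow_succ']
    congr 1
    omega
  have h1 : (2 ^ (K + 2) + 1 - r) ^ r ≤ (2 ^ (K + 2)).descFactorial r :=
    Nat.pow_sub_le_descFactorial _ _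
  rw [Nat.descFactorial_eq_factorial_mul_choose] at h1
  have h2 : r.factorial ≤ r ^ r := Nat.factorial_le_pow r
  have h3 : r * y ≤ 2 ^ (K + 2) + 1 - r := by
    rw [hn]
    have : r ≤ r * y := Nat.le_mul_of_pos_right _ hypos
    have e : 2 * r * y = r * y + r * y := by ring
    omega
  have h4 : (r * y) ^ r ≤ r ^ r * (2 ^ (K + 2)).choose r :=
    (Nat.pow_le_pow_left h3 r).trans (h1.trans (Nat.mul_le_mul_right _ h2))
  rw [mul_pow] at h4
  have h5 : y ^ r ≤ (2 ^ (K + 2)).choose r := Nat.le_of_mul_le_mul_left h4 (by positivity)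
  have e : 2 ^ ee K k = y ^ r := by
    rw [hy, ← pow_mul, ee, ← hr, mul_comm]
  rw [e]
  exact h5

lemma numeric_C1R (s K k : ℕ) (hs : 1 ≤ s) (hk : k ≤ K) (he : 16 * s ≤ ee K k) :
    16 * (1 + (2 ^ (2 * (8 * s))) ^ 3) ^ bb s K k ≤ ((2 ^ (K + 2)).choose (2 ^ k)) ^ 4 := by
  set b := bb s K k with hb
  set e := ee K k with he'
  have hbmul : b * (16 * s) ≤ e := Nat.div_mul_le_self _ _
  have h1 : 1 + (2 ^ (2 * (8 * s))) ^ 3 ≤ 2 ^ (48 * s + 1) := by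
    rw [← pow_mul, pow_succ]
    have e' : 2 * (8 * s) * 3 = 48 * s := by ring
    rw [e']
    have : 1 ≤ 2 ^ (48 * s) := Nat.one_le_two_pow
    omega
  have h2 : (1 + (2 ^ (2 * (8 * s))) ^ 3) ^ b ≤ 2 ^ ((48 * s + 1) * b) := by
    calc (1 + (2 ^ (2 * (8 * s))) ^ 3) ^ b ≤ (2 ^ (48 * s + 1)) ^ b := Nat.pow_le_pow_left h1 b
      _ = 2 ^ ((48 * s + 1) * b) := (pow_mul _ _ _).symm
  have hX : b ≤ s * b := Nat.le_mul_of_pos_left _ (by omega)
  have h3 : 4 + (48 * s + 1) * b ≤ e * 4 := by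
    have e1 : (48 * s + 1) * b = 48 * (s * b) + b := by ring
    have e2 : b * (16 * s) = 16 * (s * b) := by ring
    rw [e1]
    rw [e2] at hbmul
    omega
  have hfin : (2 ^ e) ^ 4 ≤ ((2 ^ (K + 2)).choose (2 ^ k)) ^ 4 :=
    Nat.pow_le_pow_left (two_pow_ee_le_choose K k hk) 4
  refine le_trans ?_ hfin
  calc 16 * (1 + (2 ^ (2 * (8 * s))) ^ 3) ^ b ≤ 2 ^ 4 * 2 ^ ((48 * s + 1) * b) :=
        Nat.mul_le_mul (by norm_num) h2
    _ = 2 ^ (4 + (48 * s + 1) * b) := (pow_add 2 _ _).symm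
    _ ≤ 2 ^ (e * 4) := Nat.pow_le_pow_right (by norm_num) h3
    _ = (2 ^ e) ^ 4 := pow_mul 2 e 4

lemma bb_le (s K k : ℕ) (hs : 1 ≤ s) (hKs : K + 1 ≤ s) (hk : k ≤ K) : bb s K k ≤ 2 ^ K := by
  unfold bb ee
  refine Nat.div_le_of_le_mul ?_
  have h1 : 2 ^ k ≤ 2 ^ K := Nat.pow_le_pow_right (by norm_num) hk
  have h2 : K + 1 - k ≤ s := by omega
  calc 2 ^ k * (K + 1 - k) ≤ 2 ^ K * s := Nat.mul_le_mul h1 h2
    _ ≤ 16 * s * 2 ^ K := by
      have : 0 < 2 ^ K := by positivity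
      nlinarith

lemma numeric_C2R (s b : ℕ) (hs : 8 ≤ s) (hb : b ≤ 2 ^ s) :
    2 ^ 24 * b * (2 ^ (2 * (8 * s))) ^ 3 ≤ (2 ^ (13 * s)) ^ 4 := by
  calc 2 ^ 24 * b * (2 ^ (2 * (8 * s))) ^ 3 ≤ 2 ^ 24 * 2 ^ s * (2 ^ (2 * (8 * s))) ^ 3 := by gcongr
    _ = 2 ^ (24 + s + 2 * (8 * s) * 3) := by rw [pow_add, pow_add, pow_mul _ (2 * (8 * s)) 3]
    _ ≤ 2 ^ (13 * s * 4) := Nat.pow_le_pow_right (by norm_num) (by omega)
    _ = (2 ^ (13 * s)) ^ 4 := by rw [pow_mul]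

lemma sixty_six_mul_le (s : ℕ) (hs : 10 ≤ s) : 66 * s ≤ 2 ^ s := by
  induction s, hs using Nat.le_induction with
  | base => norm_num
  | succ n hn ih =>
    rw [pow_succ]
    omega

lemma pool_large (s N : ℕ) (hs : 10 ≤ s) (hN : N ≠ 0) (hω : N.primeFactors.card ≤ 2 ^ (s + 4)) :
    2 ^ (15 * s + 1) ≤ (pool (2 ^ (8 * s)) (2 ^ (2 * (8 * s))) N).card := by
  have hcheb := two_pow_le_primeCounting (16 * s) (by omega)
  have hexp : 2 * (8 * s) = 16 * s := by ring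
  have hpool := primeCounting_le_pool (2 ^ (8 * s)) (2 ^ (2 * (8 * s))) N hN
  rw [hexp] at hpool
  rw [hexp]
  set Pc := (pool (2 ^ (8 * s)) (2 ^ (16 * s)) N).card with hPc
  set Z := 2 ^ (15 * s) with hZ
  have h1 : 2 ^ (16 * s) = 2 ^ s * Z := by
    rw [hZ, ← pow_add]
    congr 1
    omega
  have h2 := sixty_six_mul_le s hs
  have hZ8 : 2 ^ (8 * s) ≤ Z := Nat.pow_le_pow_right (by norm_num) (by omega)
  have hZs : 2 ^ (s + 4) ≤ Z := Nat.pow_le_pow_right (by norm_num) (by omega)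
  have hZ1 : 2 ^ (15 * s + 1) = 2 * Z := by rw [pow_succ]; ring
  rw [hZ1]
  by_contra hcon
  push Not at hcon
  have h3 : Nat.primeCounting (2 ^ (16 * s)) ≤ 4 * Z := by omega
  have h4 : 16 * s * Nat.primeCounting (2 ^ (16 * s)) ≤ 16 * s * (4 * Z) :=
    Nat.mul_le_mul_left _ h3
  have hZlarge : 16 * s + 1 ≤ Z := by
    have : 2 ^ s ≤ Z := Nat.pow_le_pow_right (by norm_num) (by omega)
    omega
  have h5 : 66 * s * Z ≤ 2 ^ s * Z := Nat.mul_le_mul_right _ h2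
  have e : 16 * s * (4 * Z) = 64 * s * Z := by ring
  have e2 : 66 * s * Z = 64 * s * Z + 2 * (s * Z) := by ring
  have h6 : Z ≤ s * Z := Nat.le_mul_of_pos_left _ (by omega)
  have hZpos : 0 < Z := by positivity
  omega

lemma card_primeFactors_le_of_le (N m : ℕ) (hN : 0 < N) (hm : N ≤ 2 ^ m) :
    N.primeFactors.card ≤ m := by
  have h1 : ∏ p ∈ N.primeFactors, p ≤ N :=
    Nat.le_of_dvd hN (Nat.prod_primeFactors_dvd N)
  have h2 : 2 ^ N.primeFactors.card ≤ ∏ p ∈ N.primeFactors, p :=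
    Finset.pow_card_le_prod _ _ _ (fun p hp => (Nat.prime_of_mem_primeFactors hp).two_le)
  exact (Nat.pow_le_pow_iff_right (by norm_num)).mp (h2.trans (h1.trans hm))

/-- The running state of the construction. -/
structure StR (s nb c : ℕ) (W : ℕ → Finset ℕ) (g : ℕ → ℕ) (G N T : ℕ) : Prop where
  hB : BlocksR N s nb W g
  hN : N = c * G
  hG0 : 0 < G
  hGood : GoodUpTo G N T

lemma BlocksR.mono {N N' s nb : ℕ} {W : ℕ → Finset ℕ} {g : ℕ → ℕ} (hB : BlocksR N s nb W g)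
    (h : N ∣ N') : BlocksR N' s nb W g :=
  { hprime := hB.hprime
    hle := hB.hle
    hdvd := fun i hi p hp => (hB.hdvd i hi p hp).trans h
    hg := hB.hg
    hcard := hB.hcard
    hdisj := hB.hdisj }

/-- One level at scale `k`. -/
theorem level_k (s K k c : ℕ) (W : ℕ → Finset ℕ) (g : ℕ → ℕ) (G N T : ℕ)
    (hs : 10 ≤ s) (hKs : K + 1 ≤ s) (hk : k ≤ K) (he : 16 * s ≤ ee K k)
    (hc0 : 0 < c) (hc : c ≤ 2 ^ (2 ^ (s + 1)))
    (hSt : StR s (2 ^ (K + 2)) c W g G N T)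
    (hGup : G ≤ 2 ^ (2 ^ (s + 3))) (hGlo : 2 ^ tk s k ≤ G) :
    ∃ P : ℕ, 2 ^ (8 * s * bb s K k) ≤ P ∧ StR s (2 ^ (K + 2)) c W g (G * P) (N * P) (T + 4) := by
  classical
  obtain ⟨hB, hNc, hG0, hGood⟩ := hSt
  have hN0 : 0 < N := by
    rw [hNc]
    exact Nat.mul_pos hc0 hG0
  have hbpos : 0 < bb s K k := Nat.div_pos he (by omega)
  have hble : bb s K k ≤ 2 ^ K := bb_le s K k (by omega) hKs hk
  have hbles : bb s K k ≤ 2 ^ s := hble.trans (Nat.pow_le_pow_right (by norm_num) (by omega))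
  have hNle : N ≤ 2 ^ (2 ^ (s + 4)) := by
    rw [hNc]
    calc c * G ≤ 2 ^ (2 ^ (s + 1)) * 2 ^ (2 ^ (s + 3)) := Nat.mul_le_mul hc hGup
      _ = 2 ^ (2 ^ (s + 1) + 2 ^ (s + 3)) := (pow_add 2 _ _).symm
      _ ≤ 2 ^ (2 ^ (s + 4)) := by
        refine Nat.pow_le_pow_right (by norm_num) ?_
        have e1 : 2 ^ (s + 4) = 16 * 2 ^ s := by rw [pow_add]; ring
        have e2 : 2 ^ (s + 3) = 8 * 2 ^ s := by rw [pow_add]; ring
        have e3 : 2 ^ (s + 1) = 2 * 2 ^ s := by rw [pow_add]; ring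
        omega
  have hω := card_primeFactors_le_of_le N _ hN0 hNle
  have hpool := pool_large s N hs hN0.ne' hω
  have hw : 2 ^ k + 1 ≤ 2 ^ s := by
    have h1 : 2 ^ k < 2 ^ s := Nat.pow_lt_pow_right (by norm_num) (by omega)
    omega
  have hterm : 4 * (2 ^ (s * (2 ^ k + 1))) ^ 2 ≤ G := by
    refine le_trans (le_of_eq ?_) hGlo
    rw [tk, ← pow_mul, show (4 : ℕ) = 2 ^ 2 by norm_num, ← pow_add]
    congr 1
    ring
  set Lw := 2 ^ (13 * s) * (2 ^ k + 1) * bb s K k with hLw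
  have hLwpos : 0 < Lw := by
    rw [hLw]
    exact Nat.mul_pos (Nat.mul_pos (by positivity) (Nat.succ_pos _)) hbpos
  have hLwle : Lw ≤ 2 ^ (15 * s) := by
    calc Lw ≤ 2 ^ (13 * s) * 2 ^ s * 2 ^ s := by
          rw [hLw]
          exact Nat.mul_le_mul (Nat.mul_le_mul le_rfl hw) hbles
      _ = 2 ^ (15 * s) := by
          rw [← pow_add, ← pow_add]
          congr 1
          ring
  have hcard : bb s K k + Lw ≤ (pool (2 ^ (8 * s)) (2 ^ (2 * (8 * s))) N).card := by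
    refine le_trans ?_ hpool
    have e : 2 ^ (15 * s + 1) = 2 * 2 ^ (15 * s) := by rw [pow_succ]; ring
    have h1 : 2 ^ s ≤ 2 ^ (15 * s) := Nat.pow_le_pow_right (by norm_num) (by omega)
    omega
  obtain ⟨B, hBQ, hBb, hBgood⟩ := level_res G N T s (8 * s) (2 ^ (K + 2)) (2 ^ k) (bb s K k)
    (2 ^ (13 * s)) Lw W g hB hN0 hGood (by omega) (by omega) hterm hbpos hLwpos (by positivity)
    hcard le_rfl (numeric_C1R s K k (by omega) hk he) (numeric_C2R s _ (by omega) hbles)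
  refine ⟨∏ q ∈ B, q, ?_, hB.mono (Nat.dvd_mul_right _ _), ?_, ?_, hBgood⟩
  · have h1 : (2 ^ (8 * s)) ^ B.card ≤ ∏ q ∈ B, q :=
      Finset.pow_card_le_prod _ _ _ (fun q hq => (mem_pool.mp (hBQ hq)).2.1.le)
    rw [hBb, ← pow_mul] at h1
    exact h1
  · rw [hNc]
    ring
  · exact Nat.mul_pos hG0 (prod_primes_pos B (fun q hq => (mem_pool.mp (hBQ hq)).1.2))

/-- Running `L` levels at scale `k`. -/
theorem run_k (s K k c : ℕ) (W : ℕ → Finset ℕ) (g : ℕ → ℕ) (tb : ℕ)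
    (hs : 10 ≤ s) (hKs : K + 1 ≤ s) (hk : k ≤ K) (he : 16 * s ≤ ee K k)
    (hc0 : 0 < c) (hc : c ≤ 2 ^ (2 ^ (s + 1))) (htb : tb ≤ 2 ^ (s + 3)) (L : ℕ) :
    ∀ (t G N T : ℕ), StR s (2 ^ (K + 2)) c W g G N T → 2 ^ t ≤ G → 2 ^ tk s k ≤ G →
      tb ≤ t + L * (8 * s * bb s K k) →
      ∃ G' N' T', StR s (2 ^ (K + 2)) c W g G' N' T' ∧ 2 ^ tb ≤ G' ∧ T' ≤ T + 4 * L := by
  induction L with
  | zero =>
    intro t G N T hSt ht _ htb'
    refine ⟨G, N, T, hSt, le_trans (Nat.pow_le_pow_right (by norm_num) ?_) ht, by omega⟩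
    simpa using htb'
  | succ L ih =>
    intro t G N T hSt ht htk htb'
    by_cases hdone : 2 ^ tb ≤ G
    · exact ⟨G, N, T, hSt, hdone, by omega⟩
    · push Not at hdone
      have hGup : G ≤ 2 ^ (2 ^ (s + 3)) :=
        hdone.le.trans (Nat.pow_le_pow_right (by norm_num) htb)
      obtain ⟨P, hP, hSt'⟩ := level_k s K k c W g G N T hs hKs hk he hc0 hc hSt hGup htk
      have hPpos : 0 < P := lt_of_lt_of_le (by positivity) hP
      have h1 : 2 ^ (t + 8 * s * bb s K k) ≤ G * P := by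
        rw [pow_add]
        exact Nat.mul_le_mul ht hP
      have h2 : 2 ^ tk s k ≤ G * P := htk.trans (Nat.le_mul_of_pos_right _ hPpos)
      obtain ⟨G', N', T', h3, h4, h5⟩ := ih (t + 8 * s * bb s K k) (G * P) (N * P) (T + 4) hSt' h1 h2
        (by
          have e : (L + 1) * (8 * s * bb s K k) = L * (8 * s * bb s K k) + 8 * s * bb s K k := by
            ring
          omega)
      exact ⟨G', N', T', h3, h4, by omega⟩

end P012Egypt
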