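import Vale.Agent.P012.Chain

open Finset

namespace P012Egypt

lemma sq_le_two_pow (s : ℕ) (hs : 20 ≤ s) : 1000 * s ^ 2 ≤ 2 ^ s := by
  induction s, hs using Nat.le_induction with
  | base => norm_num
  | succ n hn ih =>
    rw [pow_succ 2 n]
    nlinarith

lemma two_pow_le_factorial (n : ℕ) (hn : 4 ≤ n) : 2 ^ n ≤ n.factorial := by
  induction n, hn using Nat.le_induction with
  | base => decide
  | succ n hn ih =>
    rw [pow_succ, Nat.factorial_succ, mul_comm]
    exact Nat.mul_le_mul (by omega) ih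

lemma ee_large (s K k : ℕ) (hk6 : 6 ≤ k) (hk : k ≤ K) (h2 : s + 20 ≤ 4 * K) :
    16 * s ≤ ee K k := by
  have h64 : 64 * k ≤ 2 ^ k + 320 := by
    induction k, hk6 using Nat.le_induction with
    | base => norm_num
    | succ n hn ih =>
      have : 64 * n ≤ 2 ^ n + 320 := ih (by omega)
      have h3 : 64 ≤ 2 ^ n := by
        calc 64 = 2 ^ 6 := by norm_num
          _ ≤ 2 ^ n := Nat.pow_le_pow_right (by norm_num) hn
      rw [pow_succ]
      omega
  have h64' : 64 ≤ 2 ^ k := by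
    calc 64 = 2 ^ 6 := by norm_num
      _ ≤ 2 ^ k := Nat.pow_le_pow_right (by norm_num) hk6
  obtain ⟨j, hj⟩ : ∃ j, K + 1 - k = j + 1 := ⟨K - k, by omega⟩
  unfold ee
  rw [hj]
  have hjk : j + k = K := by omega
  have h1 : 2 ^ k * (j + 1) = 2 ^ k * j + 2 ^ k := by ring
  have h2' : 64 * j ≤ 2 ^ k * j := Nat.mul_le_mul_right _ h64'
  omega

lemma level_gain (s K k : ℕ) (hs : 1 ≤ s) (he : 16 * s ≤ ee K k) :
    ee K k ≤ 4 * (8 * s * bb s K k) := by
  unfold bb
  set e := ee K k with he'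
  have h1 : 0 < 16 * s := by omega
  have h2 := Nat.div_add_mod e (16 * s)
  have h3 := Nat.mod_lt e h1
  have h4 : 0 < e / (16 * s) := Nat.div_pos he h1
  have h5 : 16 * s ≤ 16 * s * (e / (16 * s)) := Nat.le_mul_of_pos_right _ h4
  have e1 : 4 * (8 * s * (e / (16 * s))) = 2 * (16 * s * (e / (16 * s))) := by ring
  omega

/-- The levels at scale `k` are enough to reach the next scale. -/
lemma phase_gain (s K k : ℕ) (hs : 1 ≤ s) (hk : k ≤ K) (he : 16 * s ≤ ee K k) :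
    tk s (k + 1) ≤ tk s k + Lk s K k * (8 * s * bb s K k) := by
  have hgain := level_gain s K k hs he
  set A := 8 * s * bb s K k with hA
  obtain ⟨j, hj⟩ : ∃ j, K + 1 - k = j := ⟨_, rfl⟩
  have hjpos : 0 < j := by omega
  have hL : 8 * s ≤ Lk s K k * j := by
    unfold Lk
    rw [hj]
    have h1 := Nat.div_add_mod (8 * s) j
    have h2 := Nat.mod_lt (8 * s) hjpos
    have e : (8 * s / j + 1) * j = j * (8 * s / j) + j := by ring
    omega
  have hee : ee K k = 2 ^ k * j := by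
    unfold ee
    rw [hj]
  rw [hee] at hgain
  have h1 : 2 ^ k * (8 * s) ≤ Lk s K k * (4 * A) := by
    calc 2 ^ k * (8 * s) ≤ 2 ^ k * (Lk s K k * j) := Nat.mul_le_mul_left _ hL
      _ = Lk s K k * (2 ^ k * j) := by ring
      _ ≤ Lk s K k * (4 * A) := Nat.mul_le_mul_left _ hgain
  have h2 : tk s (k + 1) = tk s k + 2 * s * 2 ^ k := by
    unfold tk
    rw [pow_succ]
    ring
  rw [h2]
  have e1 : 2 ^ k * (8 * s) = 4 * (2 * s * 2 ^ k) := by ring
  have e2 : Lk s K k * (4 * A) = 4 * (Lk s K k * A) := by ring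
  omega

/-- The numerical parameters of the construction. -/
structure Params (s K : ℕ) : Prop where
  hs : 64 ≤ s
  hK : 6 ≤ K
  hKs : K + 1 ≤ s
  h1 : 2 ^ (K + 7) * s ≤ 2 ^ s
  h2 : s + 20 ≤ 4 * K

lemma Params.tk_le {s K : ℕ} (hP : Params s K) {k : ℕ} (hk : k ≤ K) : tk s k ≤ 2 ^ (s + 3) := by
  have h1 := hP.h1
  have hs := hP.hs
  have e : 2 ^ (K + 7) = 128 * 2 ^ K := by rw [pow_add]; ring
  rw [e] at h1
  have h3 : 2 ^ k ≤ 2 ^ K := Nat.pow_le_pow_right (by norm_num) hk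
  have h4 : s * 2 ^ k ≤ s * 2 ^ K := Nat.mul_le_mul_left _ h3
  have h5 : 2 ^ (s + 3) = 8 * 2 ^ s := by rw [pow_add]; ring
  have h6 : 128 * 2 ^ K * s = 128 * (s * 2 ^ K) := by ring
  have h7 : 1 ≤ 2 ^ K := Nat.one_le_two_pow
  have h8 : s ≤ s * 2 ^ K := Nat.le_mul_of_pos_right _ (by omega)
  unfold tk
  have e2 : 2 * s * (2 ^ k + 1) = 2 * (s * 2 ^ k) + 2 * s := by ring
  omega

/-- The base of the construction: a factorial together with a reservoir of primes. -/
theorem base_state (s K : ℕ) (hP : Params s K) :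
    ∃ (c : ℕ) (W : ℕ → Finset ℕ) (g : ℕ → ℕ), 2 ≤ c ∧ c ≤ 2 ^ (2 ^ (s + 1)) ∧
      StR s (2 ^ (K + 2)) c W g (tk s 6).factorial (c * (tk s 6).factorial) (tk s 6) := by
  classical
  have hs := hP.hs
  set x := tk s 6 with hx
  have hx' : x = 130 * s + 2 := by
    rw [hx, tk]
    norm_num
    ring
  set R := (Nat.primesLE (2 ^ s)).filter (fun p => x < p) with hR
  have hcheb := two_pow_le_primeCounting s (by omega)
  have hRcard : Nat.primeCounting (2 ^ s) ≤ R.card + x := by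
    rw [← Nat.primesLE_card_eq_primeCounting]
    have hsub : Nat.primesLE (2 ^ s) ⊆ R ∪ Finset.Ioc 0 x := by
      intro p hp
      have hp' := Nat.mem_primesLE.mp hp
      by_cases hpx : x < p
      · exact Finset.mem_union_left _ (Finset.mem_filter.mpr ⟨hp, hpx⟩)
      · refine Finset.mem_union_right _ (Finset.mem_Ioc.mpr ⟨hp'.2.pos, by omega⟩)
    have h1 := Finset.card_le_card hsub
    have h2 := Finset.card_union_le R (Finset.Ioc 0 x)
    simp only [Nat.card_Ioc] at h2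
    omega
  have hRlarge : 8 * (2 ^ (K + 2) + 1) ≤ R.card := by
    by_contra hcon
    push Not at hcon
    have h1 := hP.h1
    have hsq := sq_le_two_pow s (by omega)
    have e : 2 ^ (K + 7) = 32 * 2 ^ (K + 2) := by
      rw [show K + 7 = K + 2 + 5 by ring, pow_add]
      ring
    rw [e] at h1
    have h3 : Nat.primeCounting (2 ^ s) ≤ 8 * 2 ^ (K + 2) + 8 + x := by omega
    have h4 : s * Nat.primeCounting (2 ^ s) ≤ s * (8 * 2 ^ (K + 2) + 8 + x) :=
      Nat.mul_le_mul_left _ h3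
    have e2 : s * (8 * 2 ^ (K + 2) + 8 + x) = 8 * (s * 2 ^ (K + 2)) + 8 * s + s * x := by ring
    have e3 : s * x = 130 * s ^ 2 + 2 * s := by
      rw [hx']
      ring
    have e4 : 32 * 2 ^ (K + 2) * s = 32 * (s * 2 ^ (K + 2)) := by ring
    have hs2 : s ≤ s ^ 2 := Nat.le_self_pow (by norm_num) s
    omega
  obtain ⟨W, hW1, hW2⟩ := exists_blocks R (2 ^ (K + 2) + 1) 8 hRlarge
  have hWne : ∀ i, ∃ p, i < 8 → p ∈ W i := by
    intro i
    by_cases hi : i < 8
    · have h1 := (hW1 i hi).2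
      have h2 : (W i).Nonempty := by
        rw [← Finset.card_pos, h1]
        exact Nat.succ_pos _
      obtain ⟨p, hp⟩ := h2
      exact ⟨p, fun _ => hp⟩
    · exact ⟨0, fun h => absurd h hi⟩
  choose g hg using hWne
  have hRprime : ∀ p ∈ R, p.Prime := fun p hp =>
    (Nat.mem_primesLE.mp (Finset.mem_filter.mp hp).1).2
  have hRle : ∀ p ∈ R, p ≤ 2 ^ s := fun p hp =>
    (Nat.mem_primesLE.mp (Finset.mem_filter.mp hp).1).1
  set c := ∏ p ∈ R, p with hc
  have hcpos : 0 < c := prod_primes_pos R hRprime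
  have hRne : R.Nonempty := by
    rw [← Finset.card_pos]
    have h0 : 0 < 8 * (2 ^ (K + 2) + 1) := by positivity
    exact lt_of_lt_of_le h0 hRlarge
  have hc2 : 2 ≤ c := by
    obtain ⟨p, hp⟩ := hRne
    have h1 : p ∣ c := Finset.dvd_prod_of_mem _ hp
    exact (hRprime p hp).two_le.trans (Nat.le_of_dvd hcpos h1)
  have hcle : c ≤ 2 ^ (2 ^ (s + 1)) := by
    have hprim := primorial_le_four_pow (2 ^ s)
    have hsub : R ⊆ Finset.filter Nat.Prime (Finset.range (2 ^ s + 1)) := by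
      intro p hp
      exact Finset.mem_filter.mpr ⟨Finset.mem_range.mpr (by have := hRle p hp; omega),
        hRprime p hp⟩
    have h1 : c ∣ primorial (2 ^ s) := by
      unfold primorial
      exact Finset.prod_dvd_prod_of_subset _ _ _ hsub
    have h2 : 0 < primorial (2 ^ s) := primorial_pos _
    refine (Nat.le_of_dvd h2 h1).trans (hprim.trans (le_of_eq ?_))
    rw [show (4 : ℕ) = 2 ^ 2 by norm_num, ← pow_mul, pow_succ]
    congr 1
    ring
  refine ⟨c, W, g, hc2, hcle, ?_⟩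
  have hfpos : 0 < x.factorial := Nat.factorial_pos x
  refine ⟨⟨?_, ?_, ?_, fun i hi => hg i hi, fun i hi => (hW1 i hi).2, hW2⟩, rfl, hfpos, ?_⟩
  · exact fun i hi p hp => hRprime p ((hW1 i hi).1 hp)
  · exact fun i hi p hp => hRle p ((hW1 i hi).1 hp)
  · intro i hi p hp
    have h1 : p ∣ c := Finset.dvd_prod_of_mem _ ((hW1 i hi).1 hp)
    exact h1.trans (Nat.dvd_mul_right _ _)
  · refine goodUpTo_of_good (good_factorial x (by omega)) (Nat.dvd_mul_left _ _)

/-- Going through the scales `6, ..., K`. -/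
theorem phases (s K c : ℕ) (W : ℕ → Finset ℕ) (g : ℕ → ℕ) (hP : Params s K) (hc2 : 2 ≤ c)
    (hc : c ≤ 2 ^ (2 ^ (s + 1)))
    (h0 : StR s (2 ^ (K + 2)) c W g (tk s 6).factorial (c * (tk s 6).factorial) (tk s 6))
    (k : ℕ) (hk6 : 6 ≤ k) (hk : k ≤ K) :
    ∃ G N T, StR s (2 ^ (K + 2)) c W g G N T ∧ 2 ^ tk s k ≤ G ∧
      T ≤ tk s 6 + 4 * ∑ i ∈ Finset.Ico 6 k, Lk s K i := by
  have hs := hP.hs
  induction k, hk6 using Nat.le_induction with
  | base =>
    refine ⟨_, _, _, h0, two_pow_le_factorial _ ?_, ?_⟩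
    · unfold tk
      have : 0 < 2 * s * (2 ^ 6 + 1) := by positivity
      omega
    · simp
  | succ k hk6 ih =>
    obtain ⟨G, N, T, hSt, hG, hT⟩ := ih (by omega)
    have he := ee_large s K k hk6 (by omega) hP.h2
    obtain ⟨G', N', T', h1, h2, h3⟩ := run_k s K k c W g (tk s (k + 1)) (by omega) hP.hKs (by omega)
      he (by omega) hc (hP.tk_le hk) (Lk s K k) (tk s k) G N T hSt hG hG
      (phase_gain s K k (by omega) (by omega) he)
    refine ⟨G', N', T', h1, h2, h3.trans ?_⟩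
    rw [Finset.sum_Ico_succ_top hk6, mul_add]
    omega

/-- The top run, after which the number is doubly exponential in `2 ^ (s + 3)`. -/
theorem final_state (s K c : ℕ) (W : ℕ → Finset ℕ) (g : ℕ → ℕ) (hP : Params s K) (hc2 : 2 ≤ c)
    (hc : c ≤ 2 ^ (2 ^ (s + 1)))
    (h0 : StR s (2 ^ (K + 2)) c W g (tk s 6).factorial (c * (tk s 6).factorial) (tk s 6)) :
    ∃ G N T, StR s (2 ^ (K + 2)) c W g G N T ∧ 2 ^ (2 ^ (s + 3)) ≤ G ∧
      T ≤ tk s 6 + 4 * ∑ i ∈ Finset.Ico 6 K, Lk s K i + 4 * 2 ^ (s + 5 - K) := by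
  have hs := hP.hs
  have hK := hP.hK
  have hKs := hP.hKs
  obtain ⟨G, N, T, hSt, hG, hT⟩ := phases s K c W g hP hc2 hc h0 K hK le_rfl
  have he := ee_large s K K hK le_rfl hP.h2
  have hgain := level_gain s K K (by omega) he
  have hee : ee K K = 2 ^ K := by
    unfold ee
    rw [show K + 1 - K = 1 by omega, mul_one]
  rw [hee] at hgain
  have hgoal : 2 ^ (s + 3) ≤ tk s K + 2 ^ (s + 5 - K) * (8 * s * bb s K K) := by
    have e : 2 ^ (s + 5) = 2 ^ (s + 5 - K) * 2 ^ K := by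
      rw [← pow_add]
      congr 1
      omega
    have h1 : 2 ^ (s + 5) ≤ 2 ^ (s + 5 - K) * (4 * (8 * s * bb s K K)) := by
      rw [e]
      exact Nat.mul_le_mul_left _ hgain
    have e2 : 2 ^ (s + 5 - K) * (4 * (8 * s * bb s K K)) =
        4 * (2 ^ (s + 5 - K) * (8 * s * bb s K K)) := by ring
    have e3 : 2 ^ (s + 5) = 4 * 2 ^ (s + 3) := by
      rw [show s + 5 = s + 3 + 2 by ring, pow_add]
      ring
    omega
  obtain ⟨G', N', T', h1, h2, h3⟩ := run_k s K K c W g (2 ^ (s + 3)) (by omega) hP.hKs le_rfl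
      he (by omega) hc le_rfl (2 ^ (s + 5 - K)) (tk s K) G N T hSt hG hG hgoal
  exact ⟨G', N', T', h1, h2, by omega⟩

/-- The Egyptian fraction statement with an explicit count. -/
theorem egypt_chain (s K a b : ℕ) (hP : Params s K) (ha : 1 ≤ a) (hab : a < b)
    (hb : b ≤ 2 ^ (2 ^ s)) :
    ∃ S : Finset ℕ, (∀ n ∈ S, 2 ≤ n) ∧ (∑ n ∈ S, (1 : ℚ) / (n : ℚ)) = (a : ℚ) / (b : ℚ) ∧
      S.card ≤ s + 2 + 2 * (tk s 6 + 4 * ∑ i ∈ Finset.Ico 6 K, Lk s K i + 4 * 2 ^ (s + 5 - K)) := by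
  classical
  obtain ⟨c, W, g, hc2, hc, h0⟩ := base_state s K hP
  obtain ⟨G, N, T, hSt, hG, hT⟩ := final_state s K c W g hP hc2 hc h0
  obtain ⟨S₀, u, v, h1, h2, hv0, h3, h4, h5, h6⟩ := peel c a b (s + 1) hc2 hc ha hab
  have hbpos : 0 < b := by omega
  by_cases hu : u = 0
  · refine ⟨S₀, h2, ?_, ?_⟩
    · rw [← h3, hu]
      simp
    · omega
  have hupos : 0 < u := Nat.pos_of_ne_zero hu
  obtain ⟨_, hN, hG0, hGood⟩ := hSt
  have hN0 : 0 < N := by
    rw [hN]
    exact Nat.mul_pos (by omega) hG0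
  have hvG : v ≤ G := by
    refine le_trans ?_ hG
    calc v ≤ b * c ^ 2 := h5
      _ ≤ 2 ^ (2 ^ s) * (2 ^ (2 ^ (s + 1))) ^ 2 := Nat.mul_le_mul hb (Nat.pow_le_pow_left hc 2)
      _ = 2 ^ (2 ^ s + 2 ^ (s + 1) * 2) := by rw [← pow_mul, ← pow_add]
      _ ≤ 2 ^ (2 ^ (s + 3)) := by
        refine Nat.pow_le_pow_right (by norm_num) ?_
        have e1 : 2 ^ (s + 3) = 8 * 2 ^ s := by rw [pow_add]; ring
        have e2 : 2 ^ (s + 1) = 2 * 2 ^ s := by rw [pow_succ]; ring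
        omega
  have hq : u * N / v ≤ G := by
    refine Nat.div_le_of_le_mul ?_
    rw [hN, ← mul_assoc]
    exact Nat.mul_le_mul_right _ h4.le
  obtain ⟨S₁, h7, h8, h9⟩ := egypt_of_goodUpTo G N T u v hGood hN0 hv0 hvG hq
  have hunit : ∀ n ∈ S₁, v ≤ u * n := by
    intro n hn
    have hnpos : 0 < n := h7 n hn
    have h10 : (1 : ℚ) / n ≤ (u : ℚ) / v := by
      rw [← h8]
      exact Finset.single_le_sum (f := fun n : ℕ => (1 : ℚ) / n)
        (fun i _ => by positivity) hn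
    have hnq : (0 : ℚ) < n := by exact_mod_cast hnpos
    have hvq : (0 : ℚ) < v := by exact_mod_cast hv0
    rw [div_le_div_iff₀ hnq hvq] at h10
    have h11 : (v : ℚ) ≤ (u * n : ℕ) := by
      push_cast
      linarith
    exact_mod_cast h11
  have hbig : ∀ n ∈ S₁, c < n := by
    intro n hn
    have h10 : u * c < u * n := lt_of_lt_of_le h4 (hunit n hn)
    exact Nat.lt_of_mul_lt_mul_left h10
  have hdisj : Disjoint S₀ S₁ := by
    rw [Finset.disjoint_left]
    intro n hn hn'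
    have h10 := h6 n hn
    have h11 := hunit n hn'
    omega
  refine ⟨S₀ ∪ S₁, ?_, ?_, ?_⟩
  · intro n hn
    rcases Finset.mem_union.mp hn with hn | hn
    · exact h2 n hn
    · have := hbig n hn
      omega
  · rw [Finset.sum_union hdisj, h8, h3]
  · have h10 := Finset.card_union_le S₀ S₁
    omega

end P012Egypt
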