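import Vale.Agent.P012.Chain2

open Finset

namespace P012Egypt

lemma linear_le_three_pow (m : ℕ) (hm : 5 ≤ m) : 4 * m + 52 ≤ 3 * 2 ^ m := by
  induction m, hm using Nat.le_induction with
  | base => norm_num
  | succ n hn ih =>
    rw [pow_succ]
    omega

/-- Choice of the parameter `K`. -/
lemma exists_params (s : ℕ) (hs : 64 ≤ s) :
    ∃ K, Params s K ∧ 2 ^ (s + 5 - K) ≤ 8192 * s := by
  set l := Nat.clog 2 s with hl
  have h1 : s ≤ 2 ^ l := Nat.le_pow_clog (by norm_num) s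
  have h2 : 2 ^ l.pred < s := Nat.pow_pred_clog_lt_self (by norm_num) (by omega)
  have hlpos : 1 ≤ l := by
    by_contra hcon
    have : l = 0 := by omega
    rw [this] at h1
    norm_num at h1
    omega
  obtain ⟨m, hm⟩ : ∃ m, l = m + 1 := ⟨l - 1, by omega⟩
  rw [hm] at h1 h2
  simp only [Nat.pred_succ] at h2
  have hm3 : 4 * (m + 1) + 48 ≤ 3 * s := by
    by_contra hcon
    push Not at hcon
    have hm5 : 5 ≤ m := by omega
    have := linear_le_three_pow m hm5
    omega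
  refine ⟨s - (m + 1) - 7, ⟨hs, by omega, by omega, ?_, by omega⟩, ?_⟩
  · calc 2 ^ (s - (m + 1) - 7 + 7) * s ≤ 2 ^ (s - (m + 1) - 7 + 7) * 2 ^ (m + 1) :=
          Nat.mul_le_mul_left _ h1
      _ = 2 ^ s := by
          rw [← pow_add]
          congr 1
          omega
  · have e : s + 5 - (s - (m + 1) - 7) = m + 13 := by omega
    rw [e, pow_add]
    have : 2 ^ 13 = 8192 := by norm_num
    rw [this]
    omega

/-- The sum of the numbers of levels is of harmonic size. -/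
lemma sum_Lk_le (s K : ℕ) (hK : 6 ≤ K) :
    ((∑ i ∈ Finset.Ico 6 K, Lk s K i : ℕ) : ℝ) ≤ 8 * s * (1 + Real.log K) + K := by
  have h1 : ∀ i ∈ Finset.Ico 6 K, (Lk s K i : ℝ) ≤ 8 * s * (((K + 1 - i : ℕ) : ℝ))⁻¹ + 1 := by
    intro i hi
    unfold Lk
    push_cast
    have h2 : ((8 * s / (K + 1 - i) : ℕ) : ℝ) ≤ ((8 * s : ℕ) : ℝ) / ((K + 1 - i : ℕ) : ℝ) :=
      Nat.cast_div_le
    rw [div_eq_mul_inv] at h2
    push_cast at h2
    exact_mod_cast add_le_add_left h2 1
  rw [Nat.cast_sum]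
  refine (Finset.sum_le_sum h1).trans ?_
  rw [Finset.sum_add_distrib, ← Finset.mul_sum]
  have hrefl := Finset.sum_Ico_reflect (fun j : ℕ => (((j : ℕ) : ℝ))⁻¹) 6 (m := K) (n := K + 1)
    (by omega)
  have h2 : ∑ i ∈ Finset.Ico 6 K, (((K + 1 - i : ℕ) : ℝ))⁻¹ ≤ 1 + Real.log K := by
    rw [hrefl]
    refine le_trans ?_ (harmonic_le_one_add_log K)
    rw [harmonic_eq_sum_Icc]
    push_cast
    refine Finset.sum_le_sum_of_subset_of_nonneg ?_ (fun i _ _ => by positivity)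
    intro j hj
    rw [Finset.mem_Ico] at hj
    rw [Finset.mem_Icc]
    omega
  have h3 : ((8 : ℝ) * s) * ∑ i ∈ Finset.Ico 6 K, (((K + 1 - i : ℕ) : ℝ))⁻¹ ≤
      8 * s * (1 + Real.log K) :=
    mul_le_mul_of_nonneg_left h2 (by positivity)
  have h4 : ∑ _i ∈ Finset.Ico 6 K, (1 : ℝ) ≤ K := by
    simp only [Finset.sum_const, Nat.card_Ico, nsmul_eq_mul, mul_one]
    exact_mod_cast Nat.sub_le _ _
  linarith

/-- The count as a real inequality in `s`. -/
theorem egypt_real (s a b : ℕ) (hs : 64 ≤ s) (ha : 1 ≤ a) (hab : a < b)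
    (hb : b ≤ 2 ^ (2 ^ s)) :
    ∃ S : Finset ℕ, (∀ n ∈ S, 2 ≤ n) ∧ (∑ n ∈ S, (1 : ℚ) / (n : ℚ)) = (a : ℚ) / (b : ℚ) ∧
      (S.card : ℝ) ≤ 65871 * s + 64 * s * Real.log s := by
  obtain ⟨K, hP, hK2⟩ := exists_params s hs
  obtain ⟨S, h1, h2, h3⟩ := egypt_chain s K a b hP ha hab hb
  refine ⟨S, h1, h2, ?_⟩
  have hK6 := hP.hK
  have hKs := hP.hKs
  have hsum := sum_Lk_le s K hK6
  set Sg := ∑ i ∈ Finset.Ico 6 K, Lk s K i with hSg
  have h3' : (S.card : ℝ) ≤ ((s + 2 + 2 * (tk s 6 + 4 * Sg + 4 * 2 ^ (s + 5 - K)) : ℕ) : ℝ) := by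
    exact_mod_cast h3
  have htk : tk s 6 = 130 * s + 2 := by
    unfold tk
    norm_num
    ring
  rw [htk] at h3'
  push_cast at h3'
  have hK2' : ((2 : ℝ) ^ (s + 5 - K)) ≤ 8192 * s := by exact_mod_cast hK2
  have hKle : (K : ℝ) ≤ s := by
    have : K ≤ s := by omega
    exact_mod_cast this
  have hKpos : (0 : ℝ) < K := by
    have : 0 < K := by omega
    exact_mod_cast this
  have hsr : (64 : ℝ) ≤ s := by exact_mod_cast hs
  have hlog : Real.log K ≤ Real.log s := Real.log_le_log hKpos hKle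
  have hsp : (0 : ℝ) ≤ 8 * s := by positivity
  have hmul : 8 * (s : ℝ) * (1 + Real.log K) ≤ 8 * s * (1 + Real.log s) :=
    mul_le_mul_of_nonneg_left (by linarith) hsp
  have e : 8 * (s : ℝ) * (1 + Real.log s) = 8 * s + 8 * (s * Real.log s) := by ring
  have e2 : 64 * (s : ℝ) * Real.log s = 8 * (8 * (s * Real.log s)) := by ring
  rw [e2]
  linarith

/-- The size comparison for the final statement. -/
lemma size_compare (b : ℕ) (hs : 64 ≤ Nat.clog 2 (Nat.clog 2 b)) :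
    let s := Nat.clog 2 (Nat.clog 2 b)
    b ≤ 2 ^ (2 ^ s) ∧ (1 : ℝ) ≤ Real.log (Real.log (Real.log b)) ∧
      (s : ℝ) ≤ 2 * Real.log (Real.log b) ∧ Real.log s ≤ 2 * Real.log (Real.log (Real.log b)) := by
  intro s
  have hl2lo := Real.log_two_gt_d9
  have hl2hi := Real.log_two_lt_d9
  have hl2pos : 0 < Real.log 2 := Real.log_pos (by norm_num)
  set L := Nat.clog 2 b with hL
  have hs : 64 ≤ s := hs
  have hbL : b ≤ 2 ^ L := Nat.le_pow_clog (by norm_num) b
  have hLs : L ≤ 2 ^ s := Nat.le_pow_clog (by norm_num) L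
  have hbs : b ≤ 2 ^ (2 ^ s) := hbL.trans (Nat.pow_le_pow_right (by norm_num) hLs)
  have hLbig : 2 ≤ L := by
    by_contra hcon
    have hL1 : L ≤ 1 := by omega
    have h1 : s ≤ Nat.clog 2 1 := Nat.clog_mono_right 2 hL1
    have e : Nat.clog 2 1 = 0 := Nat.clog_one_right 2
    omega
  have hb1 : 1 < b := by
    by_contra hcon
    have h1 : L ≤ Nat.clog 2 1 := Nat.clog_mono_right 2 (by omega)
    have e : Nat.clog 2 1 = 0 := Nat.clog_one_right 2
    omega
  have h1 : 2 ^ L.pred < b := Nat.pow_pred_clog_lt_self (by norm_num) hb1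
  have h2 : 2 ^ s.pred < L := Nat.pow_pred_clog_lt_self (by norm_num) hLbig
  obtain ⟨m, hm⟩ : ∃ m, L = m + 1 := ⟨L - 1, by omega⟩
  obtain ⟨r, hr⟩ : ∃ r, s = r + 1 := ⟨s - 1, by omega⟩
  rw [hm] at h1 h2
  rw [hr] at h2
  simp only [Nat.pred_succ] at h1 h2
  have hr63 : 63 ≤ r := by omega
  have hbpos : (0 : ℝ) < b := by
    have : 0 < b := by omega
    exact_mod_cast this
  have h1r : ((2 : ℝ) ^ m) < b := by exact_mod_cast h1
  have hy : (m : ℝ) * Real.log 2 < Real.log b := by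
    have h := Real.log_lt_log (by positivity) h1r
    rwa [Real.log_pow] at h
  have h2r : ((2 : ℝ) ^ r) < (m : ℝ) + 1 := by exact_mod_cast h2
  have h63 : ((2 : ℝ) ^ 63) ≤ 2 ^ r := pow_le_pow_right₀ (by norm_num) hr63
  set y := Real.log b with hydef
  have hmbig : (2 : ℝ) ^ 62 ≤ m := by
    have e : (2 : ℝ) ^ 63 = 2 * 2 ^ 62 := by norm_num
    have h3 : (1 : ℝ) ≤ 2 ^ 62 := by norm_num
    linarith
  have hy62 : (2 : ℝ) ^ 61 ≤ y := by
    have h3 : (2 : ℝ) ^ 62 * Real.log 2 ≤ (m : ℝ) * Real.log 2 :=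
      mul_le_mul_of_nonneg_right hmbig hl2pos.le
    have h4 : (2 : ℝ) ^ 61 * 2 = 2 ^ 62 := by norm_num
    have h5 : (0 : ℝ) < 2 ^ 61 := by positivity
    nlinarith
  have hypos : 0 < y := lt_of_lt_of_le (by positivity) hy62
  have hx42 : 42 ≤ Real.log y := by
    have h3 := Real.log_le_log (by positivity) hy62
    rw [Real.log_pow] at h3
    push_cast at h3
    linarith
  set x := Real.log y with hxdef
  have hxpos : 0 < x := by linarith
  have hz1 : 1 ≤ Real.log x := by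
    rw [Real.le_log_iff_exp_le hxpos]
    have := Real.exp_one_lt_d9
    linarith
  set z := Real.log x with hzdef
  have hmle : (m : ℝ) ≤ 2 * y := by
    have hm0 : (0 : ℝ) ≤ m := Nat.cast_nonneg _
    nlinarith
  have h3y : (2 : ℝ) ^ r < 3 * y := by
    have : (1 : ℝ) ≤ y := by
      have h5 : (1 : ℝ) ≤ 2 ^ 61 := by norm_num
      linarith
    linarith
  have hlog3y : (r : ℝ) * Real.log 2 < 2 * Real.log 2 + x := by
    have h3 := Real.log_lt_log (by positivity) h3y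
    rw [Real.log_pow, Real.log_mul (by norm_num) hypos.ne'] at h3
    have h4 : Real.log 3 ≤ 2 * Real.log 2 := by
      have h5 := Real.log_le_log (by norm_num : (0 : ℝ) < 3) (by norm_num : (3 : ℝ) ≤ 2 ^ 2)
      rw [Real.log_pow] at h5
      push_cast at h5
      linarith
    linarith
  have hsle : (s : ℝ) ≤ 2 * x := by
    rw [hr]
    push_cast
    by_contra hcon
    push Not at hcon
    have hr1 : 2 * x - 1 < (r : ℝ) := by linarith
    have h3 : (2 * x - 1) * Real.log 2 ≤ (r : ℝ) * Real.log 2 :=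
      mul_le_mul_of_nonneg_right hr1.le hl2pos.le
    nlinarith
  refine ⟨hbs, hz1, hsle, ?_⟩
  have hspos : (0 : ℝ) < s := by
    have : 0 < s := by omega
    exact_mod_cast this
  have h3 := Real.log_le_log hspos hsle
  rw [Real.log_mul (by norm_num) hxpos.ne'] at h3
  linarith

end P012Egypt

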