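import Vale.Agent.P012.LevelU

open Finset

namespace P012Egypt

lemma blocks_of (R : Finset ℕ) (s nb : ℕ) (hprime : ∀ p ∈ R, p.Prime) (hle : ∀ p ∈ R, p ≤ 2 ^ s)
    (h : 8 * (nb + 1) ≤ R.card) :
    ∃ (W : ℕ → Finset ℕ) (g : ℕ → ℕ), BlocksR (∏ p ∈ R, p) s nb W g := by
  classical
  obtain ⟨W, hW1, hW2⟩ := exists_blocks R (nb + 1) 8 h
  have hWne : ∀ i, ∃ p, i < 8 → p ∈ W i := by
    intro i
    by_cases hi : i < 8
    · have h1 := (hW1 i hi).2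
      have h2 : (W i).Nonempty := by
        rw [← Finset.card_pos, h1]
        exact Nat.succ_pos _
      obtain ⟨p, hp⟩ := h2
      exact ⟨p, fun _ => hp⟩
    · exact ⟨0, fun h => absurd h hi⟩
  choose g hg using hWne
  refine ⟨W, g, ⟨?_, ?_, ?_, fun i hi => hg i hi, fun i hi => (hW1 i hi).2, hW2⟩⟩
  · exact fun i hi p hp => hprime p ((hW1 i hi).1 hp)
  · exact fun i hi p hp => hle p ((hW1 i hi).1 hp)
  · intro i hi p hp
    exact Finset.dvd_prod_of_mem _ ((hW1 i hi).1 hp)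

/-- The reservoir: two systems of blocks inside the primes up to `2 ^ s`. -/
theorem base_U (s K : ℕ) (hP : Params s K) :
    ∃ (c N₁ N₂ : ℕ) (W₁ W₂ : ℕ → Finset ℕ) (g₁ g₂ : ℕ → ℕ), 2 ≤ c ∧ c ≤ 2 ^ (2 ^ (s + 1)) ∧
      0 < N₁ ∧ 0 < N₂ ∧ N₁ * N₂ ∣ c ∧
      BlocksR N₁ s (2 ^ (K + 2)) W₁ g₁ ∧ BlocksR N₂ s (2 ^ (K + 2)) W₂ g₂ := by
  classical
  have hs := hP.hs
  have hK := hP.hK
  set R := Nat.primesLE (2 ^ s) with hR
  have hRprime : ∀ p ∈ R, p.Prime := fun p hp => (Nat.mem_primesLE.mp hp).2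
  have hRle : ∀ p ∈ R, p ≤ 2 ^ s := fun p hp => (Nat.mem_primesLE.mp hp).1
  have hRcard : R.card = Nat.primeCounting (2 ^ s) := Nat.primesLE_card_eq_primeCounting _
  have hcheb := two_pow_le_primeCounting s (by omega)
  set nb := 2 ^ (K + 2) with hnb
  have hRlarge : 16 * (nb + 1) ≤ R.card := by
    by_contra hcon
    push Not at hcon
    have h1 := hP.h1
    have e : 2 ^ (K + 7) = 32 * nb := by
      rw [hnb, show K + 7 = K + 2 + 5 by ring, pow_add]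
      ring
    rw [e] at h1
    have h3 : Nat.primeCounting (2 ^ s) ≤ 16 * nb + 16 := by omega
    have h4 : s * Nat.primeCounting (2 ^ s) ≤ s * (16 * nb + 16) := Nat.mul_le_mul_left _ h3
    have e2 : s * (16 * nb + 16) = 16 * (s * nb) + 16 * s := by ring
    have e4 : 32 * nb * s = 32 * (s * nb) := by ring
    have h5 : 4 ≤ nb := by
      rw [hnb]
      calc 4 = 2 ^ 2 := by norm_num
        _ ≤ 2 ^ (K + 2) := Nat.pow_le_pow_right (by norm_num) (by omega)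
    have h6 : s * 4 ≤ s * nb := Nat.mul_le_mul_left _ h5
    omega
  obtain ⟨R₁, hR₁R, hR₁card⟩ := Finset.exists_subset_card_eq
    (show 8 * (nb + 1) ≤ R.card by omega)
  set R₂ := R \ R₁ with hR₂
  have hR₂card : 8 * (nb + 1) ≤ R₂.card := by
    rw [hR₂, Finset.card_sdiff_of_subset hR₁R, hR₁card]
    omega
  have hR₂R : R₂ ⊆ R := Finset.sdiff_subset
  obtain ⟨W₁, g₁, hB₁⟩ := blocks_of R₁ s nb (fun p hp => hRprime p (hR₁R hp))
    (fun p hp => hRle p (hR₁R hp)) hR₁card.ge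
  obtain ⟨W₂, g₂, hB₂⟩ := blocks_of R₂ s nb (fun p hp => hRprime p (hR₂R hp))
    (fun p hp => hRle p (hR₂R hp)) hR₂card
  set c := ∏ p ∈ R, p with hc
  have hcpos : 0 < c := prod_primes_pos R hRprime
  have hRne : R.Nonempty := by
    rw [← Finset.card_pos]
    have h0 : 0 < 16 * (nb + 1) := by positivity
    exact lt_of_lt_of_le h0 hRlarge
  have hc2 : 2 ≤ c := by
    obtain ⟨p, hp⟩ := hRne
    have h1 : p ∣ c := Finset.dvd_prod_of_mem _ hp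
    exact (hRprime p hp).two_le.trans (Nat.le_of_dvd hcpos h1)
  have hcle : c ≤ 2 ^ (2 ^ (s + 1)) := by
    have hprim := primorial_le_four_pow (2 ^ s)
    have hsub : R ⊆ Finset.filter Nat.Prime (Finset.range (2 ^ s + 1)) := by
      intro p hp
      exact Finset.mem_filter.mpr ⟨Finset.mem_range.mpr (by have := hRle p hp; omega),
        hRprime p hp⟩
    have h1 : c ∣ primorial (2 ^ s) := by
      unfold primorial
      exact Finset.prod_dvd_prod_of_subset _ _ _ hsub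
    have h2 : 0 < primorial (2 ^ s) := primorial_pos _
    refine (Nat.le_of_dvd h2 h1).trans (hprim.trans (le_of_eq ?_))
    rw [show (4 : ℕ) = 2 ^ 2 by norm_num, ← pow_mul, pow_succ]
    congr 1
    ring
  refine ⟨c, ∏ p ∈ R₁, p, ∏ p ∈ R₂, p, W₁, W₂, g₁, g₂, hc2, hcle,
    prod_primes_pos R₁ (fun p hp => hRprime p (hR₁R hp)),
    prod_primes_pos R₂ (fun p hp => hRprime p (hR₂R hp)), ?_, hB₁, hB₂⟩
  have hd : Disjoint R₁ R₂ := Finset.disjoint_sdiff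
  rw [← Finset.prod_union hd]
  exact Finset.prod_dvd_prod_of_subset _ _ _ (Finset.union_subset hR₁R hR₂R)

/-- The families of lifted primes at scale `k`. -/
lemma exists_T (N₁ s K k : ℕ) (W : ℕ → Finset ℕ) (g : ℕ → ℕ)
    (hB : BlocksR N₁ s (2 ^ (K + 2)) W g) (hN₁ : 0 < N₁) (hs1 : 1 ≤ s)
    (hk : 6 ≤ k) (hkK : k ≤ K) (h51 : 51 * s ≤ 2 ^ k) :
    ∃ T : Finset ℕ, T.card = 2 ^ (2 ^ k - k - 2) ∧ (∀ t ∈ T, t ≤ 2 ^ (2 ^ k)) ∧
      ∀ t ∈ T, UF ((t : ℚ) / N₁) 4 := by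
  refine exists_Tfam N₁ s (2 ^ (K + 2)) (2 ^ k) k (3 * s) W g hB hN₁ hk ?_ (by omega) (by omega) ?_
  · refine le_trans (Nat.pow_le_pow_right (by norm_num) ?_) (two_pow_ee_le_choose K k hkK)
    unfold ee
    exact Nat.le_mul_of_pos_right _ (by omega)
  · have e : 2 ^ k = 2 * 2 ^ (k - 1) := by
      rw [← pow_succ']
      congr 1
      omega
    rw [e]
    have h1 : 1 ≤ 2 ^ (k - 1) := Nat.one_le_two_pow
    have e2 : s * (2 * 2 ^ (k - 1) + 1) = 2 * (s * 2 ^ (k - 1)) + s := by ring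
    have e3 : 2 ^ (k - 1) * (3 * s) = 3 * (s * 2 ^ (k - 1)) := by ring
    have h2 : s * 1 ≤ s * 2 ^ (k - 1) := Nat.mul_le_mul_left _ h1
    omega

/-- The bit gain of a level at scale `k`. -/
lemma gain_large (s k : ℕ) (hs : 1 ≤ s) (hk : 6 ≤ k) (h64 : 64 * s ≤ 2 ^ k) :
    16 * s ≤ 2 ^ k - k - 2 ∧ 2 ^ (k - 3) ≤ 8 * s * ((2 ^ k - k - 2) / (16 * s)) := by
  have hk2 := k_add_two_le k (by omega)
  have e1 : 2 ^ k = 2 * 2 ^ (k - 1) := by
    rw [← pow_succ']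
    congr 1
    omega
  have e2 : 2 ^ (k - 1) = 2 * 2 ^ (k - 2) := by
    rw [← pow_succ']
    congr 1
    omega
  have e3 : 2 ^ (k - 2) = 2 * 2 ^ (k - 3) := by
    rw [← pow_succ']
    congr 1
    omega
  set e := 2 ^ k - k - 2 with he
  have he1 : 2 ^ (k - 1) ≤ e := by omega
  refine ⟨by omega, ?_⟩
  set b := e / (16 * s) with hb
  have h1 : e < 16 * s * (b + 1) := by
    rw [hb]
    exact Nat.lt_mul_div_succ e (by omega)
  have e4 : 16 * s * (b + 1) = 2 * (8 * s * b) + 16 * s := by ring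
  omega

/-- The data of the construction. -/
structure Sys (s K c N₁ N₂ : ℕ) (W₁ W₂ : ℕ → Finset ℕ) (g₁ g₂ : ℕ → ℕ) : Prop where
  hP : Params s K
  hc2 : 2 ≤ c
  hN₁ : 0 < N₁
  hN₂ : 0 < N₂
  hdvd : N₁ * N₂ ∣ c
  hB₁ : BlocksR N₁ s (2 ^ (K + 2)) W₁ g₁
  hB₂ : BlocksR N₂ s (2 ^ (K + 2)) W₂ g₂

/-- Running `L` levels at scale `k`. -/
theorem run_T {s K c N₁ N₂ : ℕ} {W₁ W₂ : ℕ → Finset ℕ} {g₁ g₂ : ℕ → ℕ}
    (hS : Sys s K c N₁ N₂ W₁ W₂ g₁ g₂) (k : ℕ) (hk : 6 ≤ k) (hkK : k ≤ K)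
    (h64 : 64 * s ≤ 2 ^ k) (L : ℕ) :
    ∀ (t G T : ℕ), 0 < G → GoodUF G (c * G) T → 2 ^ t ≤ G → 2 ^ (2 * 2 ^ k + 2) ≤ G →
      ∃ G' T', 0 < G' ∧ GoodUF G' (c * G') T' ∧ 2 ^ (t + L * 2 ^ (k - 3)) ≤ G' ∧ T' ≤ T + 64 * L := by
  have hP := hS.hP
  have hs := hP.hs
  have hKs := hP.hKs
  induction L with
  | zero =>
    intro t G T hG0 hgood ht _
    exact ⟨G, T, hG0, hgood, by simpa using ht, by simp⟩
  | succ L ih =>
    intro t G T hG0 hgood ht hlo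
    obtain ⟨T₁, h1a, h1b, h1c⟩ := exists_T N₁ s K k W₁ g₁ hS.hB₁ hS.hN₁ (by omega) hk hkK (by omega)
    obtain ⟨T₂, h2a, h2b, h2c⟩ := exists_T N₂ s K k W₂ g₂ hS.hB₂ hS.hN₂ (by omega) hk hkK (by omega)
    obtain ⟨hex, hgain⟩ := gain_large s k (by omega) hk h64
    have hexk : 2 ^ k - k - 2 ≤ 2 ^ k := by omega
    obtain ⟨P, hP0, hPlo, hnew⟩ := level_T s k c N₁ N₂ G T T₁ T₂ (2 ^ k - k - 2) (by omega)
      (by omega) hex hexk h1a h2a h1b h2b h1c h2c hS.hN₁ hS.hN₂ hS.hdvd (by have := hS.hc2; omega)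
      hG0 hgood hlo
    have hP1 : 2 ^ (2 ^ (k - 3)) ≤ P :=
      (Nat.pow_le_pow_right (by norm_num) hgain).trans hPlo
    have hG1 : 2 ^ (t + 2 ^ (k - 3)) ≤ G * P := by
      rw [pow_add]
      exact Nat.mul_le_mul ht hP1
    have hG2 : 2 ^ (2 * 2 ^ k + 2) ≤ G * P :=
      hlo.trans (Nat.le_mul_of_pos_right _ hP0)
    obtain ⟨G', T', h1, h2, h3, h4⟩ := ih (t + 2 ^ (k - 3)) (G * P) (T + 64)
      (Nat.mul_pos hG0 hP0) hnew hG1 hG2
    refine ⟨G', T', h1, h2, ?_, by omega⟩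
    convert h3 using 2
    ring

/-- Going through the scales from `k₀` to `k`. -/
theorem phases_T {s K c N₁ N₂ : ℕ} {W₁ W₂ : ℕ → Finset ℕ} {g₁ g₂ : ℕ → ℕ}
    (hS : Sys s K c N₁ N₂ W₁ W₂ g₁ g₂) (k₀ : ℕ) (hk₀ : 6 ≤ k₀) (h64 : 64 * s ≤ 2 ^ k₀)
    (G₀ T₀ : ℕ) (hG₀ : 0 < G₀) (hgood : GoodUF G₀ (c * G₀) T₀) (hlo : 2 ^ (2 * 2 ^ k₀ + 2) ≤ G₀)
    (k : ℕ) (hk : k₀ ≤ k) (hkK : k ≤ K) :
    ∃ G T, 0 < G ∧ GoodUF G (c * G) T ∧ 2 ^ (2 * 2 ^ k + 2) ≤ G ∧ T ≤ T₀ + 1024 * (k - k₀) := by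
  induction k, hk using Nat.le_induction with
  | base => exact ⟨G₀, T₀, hG₀, hgood, hlo, by simp⟩
  | succ k hk ih =>
    obtain ⟨G, T, h1, h2, h3, h4⟩ := ih (by omega)
    have h64k : 64 * s ≤ 2 ^ k := h64.trans (Nat.pow_le_pow_right (by norm_num) hk)
    obtain ⟨G', T', h5, h6, h7, h8⟩ := run_T hS k (by omega) (by omega) h64k 16
      (2 * 2 ^ k + 2) G T h1 h2 h3 h3
    refine ⟨G', T', h5, h6, ?_, ?_⟩
    · convert h7 using 2
      have e : 2 ^ k = 8 * 2 ^ (k - 3) := by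
        rw [show (8 : ℕ) = 2 ^ 3 by norm_num, ← pow_add]
        congr 1
        omega
      rw [pow_succ]
      omega
    · have e : k + 1 - k₀ = (k - k₀) + 1 := by omega
      rw [e]
      calc T' ≤ T + 64 * 16 := h8
        _ ≤ T₀ + 1024 * (k - k₀) + 64 * 16 := Nat.add_le_add_right h4 _
        _ = T₀ + 1024 * (k - k₀ + 1) := by ring

lemma fourth_power_bound (s : ℕ) (hs : 64 ≤ s) : 16 * s ^ 4 ≤ 2 ^ s := by
  induction s, hs using Nat.le_induction with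
  | base =>
    have e : (2 : ℕ) ^ 64 = 2 ^ 28 * 2 ^ 36 := by rw [← pow_add]
    have e2 : 16 * 64 ^ 4 = 2 ^ 28 := by norm_num
    rw [e2, e]
    exact Nat.le_mul_of_pos_right _ (by positivity)
  | succ n hn ih =>
    have e : (n + 1) ^ 4 = n ^ 4 + 4 * n ^ 3 + 6 * n ^ 2 + 4 * n + 1 := by ring
    have e4 : n ^ 4 = n * n ^ 3 := by ring
    have e3 : n ^ 3 = n * n ^ 2 := by ring
    have h1 : 64 * n ^ 3 ≤ n ^ 4 := by
      rw [e4]
      exact Nat.mul_le_mul_right _ hn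
    have h2 : 64 * n ^ 2 ≤ n ^ 3 := by
      rw [e3]
      exact Nat.mul_le_mul_right _ hn
    have h3 : 64 * n ≤ n ^ 2 := by
      rw [sq]
      exact Nat.mul_le_mul_right _ hn
    have e5 : 2 ^ (n + 1) = 2 * 2 ^ n := by rw [pow_succ]; ring
    rw [e, e5]
    generalize n ^ 4 = a4 at *
    generalize n ^ 3 = a3 at *
    generalize n ^ 2 = a2 at *
    omega

lemma lin_bound (s : ℕ) (hs : 64 ≤ s) : 2 ^ 24 * s ≤ 2 ^ s := by
  induction s, hs using Nat.le_induction with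
  | base =>
    have e : (2 : ℕ) ^ 64 = 2 ^ 30 * 2 ^ 34 := by rw [← pow_add]
    have e2 : 2 ^ 24 * 64 = 2 ^ 30 := by norm_num
    rw [e2, e]
    exact Nat.le_mul_of_pos_right _ (by positivity)
  | succ n hn ih =>
    rw [pow_succ]
    omega

lemma sixty_four_le (s K : ℕ) (hP : Params s K) : 64 * s ≤ 2 ^ K := by
  have hs := hP.hs
  have h2 := hP.h2
  by_contra hcon
  push Not at hcon
  have h1 : (2 ^ K) ^ 4 < (64 * s) ^ 4 := Nat.pow_lt_pow_left hcon (by norm_num)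
  have h3 : (2 ^ K) ^ 4 = 2 ^ (4 * K) := by rw [← pow_mul]; ring_nf
  have h4 : 2 ^ (s + 20) ≤ 2 ^ (4 * K) := Nat.pow_le_pow_right (by norm_num) h2
  have h5 := fourth_power_bound s hs
  have h6 : (64 * s) ^ 4 = 2 ^ 20 * (16 * s ^ 4) := by
    rw [mul_pow]
    norm_num
    ring
  have h7 : 2 ^ (s + 20) = 2 ^ 20 * 2 ^ s := by rw [pow_add]; ring
  have h8 : 2 ^ 20 * (16 * s ^ 4) ≤ 2 ^ 20 * 2 ^ s := Nat.mul_le_mul_left _ h5
  omega

/-- The whole chain of levels. -/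
theorem final_U (s K : ℕ) (hP : Params s K) (hK2 : 2 ^ (s + 5 - K) ≤ 8192 * s) :
    ∃ (c G T : ℕ), 2 ≤ c ∧ c ≤ 2 ^ (2 ^ (s + 1)) ∧ 0 < G ∧ GoodUF G (c * G) T ∧
      2 ^ (2 ^ (s + 4)) ≤ G ∧ T ≤ 2 ^ 22 * s := by
  classical
  obtain ⟨c, N₁, N₂, W₁, W₂, g₁, g₂, hc2, hcle, hN₁, hN₂, hdvd, hB₁, hB₂⟩ := base_U s K hP
  have hS : Sys s K c N₁ N₂ W₁ W₂ g₁ g₂ := ⟨hP, hc2, hN₁, hN₂, hdvd, hB₁, hB₂⟩
  have hs := hP.hs
  have hKs := hP.hKs
  have hK6 := hP.hK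
  set k₀ := Nat.clog 2 (64 * s) with hk₀
  have h1 : 64 * s ≤ 2 ^ k₀ := Nat.le_pow_clog (by norm_num) _
  have h2 : 2 ^ k₀.pred < 64 * s := Nat.pow_pred_clog_lt_self (by norm_num) (by omega)
  have hk₀6 : 6 ≤ k₀ := by
    by_contra hcon
    push Not at hcon
    have : 2 ^ k₀ ≤ 2 ^ 5 := Nat.pow_le_pow_right (by norm_num) (by omega)
    omega
  obtain ⟨m, hm⟩ : ∃ m, k₀ = m + 1 := ⟨k₀ - 1, by omega⟩
  rw [hm] at h2
  simp only [Nat.pred_succ] at h2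
  have h3 : 2 ^ k₀ < 128 * s := by
    rw [hm, pow_succ]
    omega
  have hK64 := sixty_four_le s K hP
  have hk₀K : k₀ ≤ K := by
    by_contra hcon
    push Not at hcon
    have : 2 ^ K ≤ 2 ^ m := Nat.pow_le_pow_right (by norm_num) (by omega)
    omega
  set x := 2 * 2 ^ k₀ + 2 with hx
  have hx4 : 4 ≤ x := by
    have : 1 ≤ 2 ^ k₀ := Nat.one_le_two_pow
    omega
  have hfpos : 0 < x.factorial := Nat.factorial_pos x
  have hcpos : 0 < c := by omega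
  have hgood0 : GoodUF x.factorial (c * x.factorial) x :=
    goodUF_of_goodUpTo (goodUpTo_of_good (good_factorial x (by omega)) (Nat.dvd_mul_left _ _))
      (Nat.mul_pos hcpos hfpos)
  have hlo0 : 2 ^ (2 * 2 ^ k₀ + 2) ≤ x.factorial := two_pow_le_factorial x hx4
  obtain ⟨G, T, h5, h6, h7, h8⟩ := phases_T hS k₀ hk₀6 h1 x.factorial x hfpos hgood0 hlo0 K hk₀K le_rfl
  obtain ⟨G', T', h9, h10, h11, h12⟩ := run_T hS K hK6 le_rfl hK64 (2 ^ (s + 7 - K))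
    (2 * 2 ^ K + 2) G T h5 h6 h7 h7
  refine ⟨c, G', T', hc2, hcle, h9, h10, ?_, ?_⟩
  · refine le_trans (Nat.pow_le_pow_right (by norm_num) ?_) h11
    have e : 2 ^ (s + 7 - K) * 2 ^ (K - 3) = 2 ^ (s + 4) := by
      rw [← pow_add]
      congr 1
      omega
    omega
  · have e : 2 ^ (s + 7 - K) = 4 * 2 ^ (s + 5 - K) := by
      rw [show (4 : ℕ) = 2 ^ 2 by norm_num, ← pow_add]
      congr 1
      omega
    have h13 : K - k₀ ≤ s := by omega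
    have h14 : x ≤ 256 * s + 2 := by omega
    have h15 : 1024 * (K - k₀) ≤ 1024 * s := Nat.mul_le_mul_left _ h13
    have h16 : 2 ^ 22 * s = 4194304 * s := by norm_num
    rw [h16]
    omega

end P012Egypt
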