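import Vale.Agent.P012.Fourier

open Finset

namespace P012Egypt

noncomputable section

lemma prod_primes_pos (B : Finset ℕ) (hB : ∀ q ∈ B, q.Prime) : 0 < ∏ q ∈ B, q :=
  Finset.prod_pos (fun q hq => (hB q hq).pos)

lemma prod_primes_squarefree (B : Finset ℕ) (hB : ∀ q ∈ B, q.Prime) :
    Squarefree (∏ q ∈ B, q) := by
  classical
  induction B using Finset.induction_on with
  | empty => simp
  | insert a s ha ih =>
    rw [Finset.prod_insert ha]
    have hs : ∀ q ∈ s, q.Prime := fun q hq => hB q (Finset.mem_insert_of_mem hq)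
    have hap : a.Prime := hB a (Finset.mem_insert_self a s)
    refine (Nat.squarefree_mul ?_).mpr ⟨hap.prime.squarefree, ih hs⟩
    refine Nat.Coprime.prod_right (fun q hq => ?_)
    refine (Nat.coprime_primes hap (hs q hq)).mpr ?_
    rintro rfl
    exact ha hq

/-- The primes involved in the reduced denominator. -/
def suppJ (M : ℕ) (h : ZMod M) : Finset ℕ := (den M h).primeFactors

lemma prod_suppJ (B : Finset ℕ) (hB : ∀ q ∈ B, q.Prime) (h : ZMod (∏ q ∈ B, q)) :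
    ∏ q ∈ suppJ (∏ q ∈ B, q) h, q = den (∏ q ∈ B, q) h := by
  have hs : Squarefree (den (∏ q ∈ B, q) h) :=
    (prod_primes_squarefree B hB).squarefree_of_dvd (den_dvd _ h)
  exact Nat.prod_primeFactors_of_squarefree hs

lemma suppJ_subset (B : Finset ℕ) (hB : ∀ q ∈ B, q.Prime) (h : ZMod (∏ q ∈ B, q)) :
    suppJ (∏ q ∈ B, q) h ⊆ B := by
  intro p hp
  have hp' := Nat.mem_primeFactors.mp hp
  have hd : p ∣ ∏ q ∈ B, q := hp'.2.1.trans (den_dvd _ h)
  obtain ⟨q, hq, hpq⟩ := (Prime.dvd_finsetProd_iff hp'.1.prime _).mp hd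
  have := (Nat.prime_dvd_prime_iff_eq hp'.1 (hB q hq)).mp hpq
  rwa [this]

lemma suppJ_nonempty (B : Finset ℕ)
    [NeZero (∏ q ∈ B, q)] (h : ZMod (∏ q ∈ B, q)) (hh : h ≠ 0) :
    (suppJ (∏ q ∈ B, q) h).Nonempty := by
  have h1 : 1 < den (∏ q ∈ B, q) h := one_lt_den _ h hh
  obtain ⟨p, hp, hpd⟩ := Nat.exists_prime_and_dvd (n := den (∏ q ∈ B, q) h) (by omega)
  exact ⟨p, Nat.mem_primeFactors.mpr ⟨hp, hpd, by omega⟩⟩

/-- At most `d` residues have reduced denominator `d`. -/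
lemma card_den_fiber (M : ℕ) [NeZero M] (d : ℕ) (hd : d ∣ M) :
    ((Finset.univ : Finset (ZMod M)).filter (fun h => den M h = d)).card ≤ d := by
  have hM : 0 < M := Nat.pos_of_ne_zero (NeZero.ne M)
  obtain ⟨g, hg⟩ := hd
  have hd0 : 0 < d := Nat.pos_of_ne_zero (by rintro rfl; simp at hg; omega)
  have hg0 : 0 < g := Nat.pos_of_ne_zero (by rintro rfl; simp at hg; omega)
  suffices hs : ((Finset.univ : Finset (ZMod M)).filter (fun h => den M h = d)).card
      ≤ (Finset.range d).card by simpa using hs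
  refine Finset.card_le_card_of_injOn (fun h => ZMod.val h / g) ?_ ?_
  · intro h hh
    have hh' := (Finset.mem_filter.mp (Finset.mem_coe.mp hh)).2
    have hgc : Nat.gcd (ZMod.val h) M * den M h = M :=
      Nat.mul_div_cancel' (Nat.gcd_dvd_right _ _)
    rw [hh'] at hgc
    have hgg : Nat.gcd (ZMod.val h) M = g := by
      have : Nat.gcd (ZMod.val h) M * d = g * d := by rw [hgc, hg, mul_comm]
      exact Nat.eq_of_mul_eq_mul_right hd0 this
    have hlt : ZMod.val h < g * d := by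
      have h1 := ZMod.val_lt h
      calc ZMod.val h < M := h1
        _ = g * d := by rw [hg, mul_comm]
    simp only [Finset.coe_range, Set.mem_Iio]
    exact Nat.div_lt_of_lt_mul hlt
  · intro h hh h' hh' heq
    have hh1 := (Finset.mem_filter.mp (Finset.mem_coe.mp hh)).2
    have hh2 := (Finset.mem_filter.mp (Finset.mem_coe.mp hh')).2
    have hggen : ∀ k : ZMod M, den M k = d → g ∣ ZMod.val k := by
      intro k hk
      have hgc : Nat.gcd (ZMod.val k) M * den M k = M :=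
        Nat.mul_div_cancel' (Nat.gcd_dvd_right _ _)
      rw [hk] at hgc
      have hgg : Nat.gcd (ZMod.val k) M = g := by
        have : Nat.gcd (ZMod.val k) M * d = g * d := by rw [hgc, hg, mul_comm]
        exact Nat.eq_of_mul_eq_mul_right hd0 this
      rw [← hgg]
      exact Nat.gcd_dvd_left _ _
    have e1 := Nat.mul_div_cancel' (hggen h hh1)
    have e2 := Nat.mul_div_cancel' (hggen h' hh2)
    simp only at heq
    rw [heq] at e1
    exact ZMod.val_injective M (e1.symm.trans e2)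

/-- The main covering criterion for a squarefree modulus. -/
theorem cover_main (B : Finset ℕ) (hB : ∀ q ∈ B, q.Prime) (F : Fin 8 → Finset ℕ)
    (U : ℕ → ℝ) (hU0 : ∀ j, 0 ≤ U j)
    (hU : ∀ J ∈ B.powerset, J.Nonempty → ∀ i, (coll (∏ q ∈ J, q) (F i) : ℝ) ≤ U J.card)
    (hlt : ∑ J ∈ B.powerset.filter Finset.Nonempty, ((∏ q ∈ J, q : ℕ) : ℝ) ^ 3 * U J.card ^ 4
      < ∏ i, ((F i).card : ℝ)) :
    ∀ t : ZMod (∏ q ∈ B, q), ∃ x₁ ∈ F 0, ∃ y₁ ∈ F 1, ∃ x₂ ∈ F 2, ∃ y₂ ∈ F 3, ∃ x₃ ∈ F 4, ∃ y₃ ∈ F 5, ∃ x₄ ∈ F 6, ∃ y₄ ∈ F 7,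
      (((x₁ * y₁ + x₂ * y₂ + x₃ * y₃ + x₄ * y₄ : ℕ)) : ZMod (∏ q ∈ B, q)) = t := by
  classical
  set M := ∏ q ∈ B, q with hMdef
  have hM : 0 < M := prod_primes_pos B hB
  have : NeZero M := ⟨hM.ne'⟩
  -- the four bilinear pieces
  set P₁ := F 0 ×ˢ F 1 with hP₁
  set P₂ := F 2 ×ˢ F 3 with hP₂
  set P₃ := F 4 ×ˢ F 5 with hP₃
  set P₄ := F 6 ×ˢ F 7 with hP₄
  set v : ℕ × ℕ → ZMod M := fun w => (w.1 : ZMod M) * (w.2 : ZMod M) with hv
  set W := (P₁ ×ˢ P₂) ×ˢ (P₃ ×ˢ P₄) with hW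
  set val : ((ℕ × ℕ) × (ℕ × ℕ)) × ((ℕ × ℕ) × (ℕ × ℕ)) → ZMod M :=
    fun w => (v w.1.1 + v w.1.2) + (v w.2.1 + v w.2.2) with hval
  have hTprod : ∀ h : ZMod M, famT M W val h
      = biS M (F 0) (F 1) h * biS M (F 2) (F 3) h * (biS M (F 4) (F 5) h * biS M (F 6) (F 7) h) := by
    intro h
    rw [biS_eq_famT, biS_eq_famT, biS_eq_famT, biS_eq_famT, famT_mul, famT_mul, famT_mul]
  have hWcard : (W.card : ℝ) = ∏ i, ((F i).card : ℝ) := by
    rw [Fin.prod_univ_eight]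
    simp only [hW, hP₁, hP₂, hP₃, hP₄, Finset.card_product]
    push_cast
    ring
  -- pointwise bound
  have hpt : ∀ h ∈ (Finset.univ : Finset (ZMod M)).erase 0,
      ‖famT M W val h‖ ≤ ((den M h : ℕ) : ℝ) ^ 2 * U (suppJ M h).card ^ 4 := by
    intro h hh
    have hne : h ≠ 0 := (Finset.mem_erase.mp hh).1
    set d := den M h with hd
    have hJsub : suppJ M h ⊆ B := suppJ_subset B hB h
    have hJne : (suppJ M h).Nonempty := suppJ_nonempty B h hne
    have hJprod : ∏ q ∈ suppJ M h, q = d := prod_suppJ B hB h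
    set u := U (suppJ M h).card with hu
    have hu0 : 0 ≤ u := hU0 _
    have hdr : (0 : ℝ) ≤ (d : ℝ) := Nat.cast_nonneg d
    have hcoll : ∀ i, (coll d (F i) : ℝ) ≤ u := by
      intro i
      have := hU (suppJ M h) (Finset.mem_powerset.mpr hJsub) hJne i
      rwa [hJprod] at this
    have hpiece : ∀ i j, ‖biS M (F i) (F j) h‖ ^ 2 ≤ (d : ℝ) * u ^ 2 := by
      intro i j
      refine (biS_norm_sq_le M (F i) (F j) h).trans ?_
      have h1 := hcoll i
      have h2 := hcoll j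
      have h3 : (0 : ℝ) ≤ (coll d (F i) : ℝ) := Nat.cast_nonneg _
      have h4 : (0 : ℝ) ≤ (coll d (F j) : ℝ) := Nat.cast_nonneg _
      calc (d : ℝ) * (coll d (F i) : ℝ) * (coll d (F j) : ℝ) ≤ (d : ℝ) * u * u := by gcongr
        _ = (d : ℝ) * u ^ 2 := by ring
    rw [hTprod, norm_mul, norm_mul, norm_mul]
    set a₁ := ‖biS M (F 0) (F 1) h‖ with ha₁
    set a₂ := ‖biS M (F 2) (F 3) h‖ with ha₂
    set a₃ := ‖biS M (F 4) (F 5) h‖ with ha₃
    set a₄ := ‖biS M (F 6) (F 7) h‖ with ha₄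
    have h₁ := hpiece 0 1
    have h₂ := hpiece 2 3
    have h₃ := hpiece 4 5
    have h₄ := hpiece 6 7
    rw [← ha₁] at h₁
    rw [← ha₂] at h₂
    rw [← ha₃] at h₃
    rw [← ha₄] at h₄
    have ha1 : 0 ≤ a₁ := norm_nonneg _
    have ha2 : 0 ≤ a₂ := norm_nonneg _
    have ha3 : 0 ≤ a₃ := norm_nonneg _
    have ha4 : 0 ≤ a₄ := norm_nonneg _
    have hsq : (a₁ * a₂ * (a₃ * a₄)) ^ 2 ≤ ((d : ℝ) ^ 2 * u ^ 4) ^ 2 := by
      calc (a₁ * a₂ * (a₃ * a₄)) ^ 2 = a₁ ^ 2 * a₂ ^ 2 * (a₃ ^ 2 * a₄ ^ 2) := by ring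
        _ ≤ ((d : ℝ) * u ^ 2) * ((d : ℝ) * u ^ 2) * (((d : ℝ) * u ^ 2) * ((d : ℝ) * u ^ 2)) := by
            gcongr
        _ = ((d : ℝ) ^ 2 * u ^ 4) ^ 2 := by ring
    exact abs_le_of_sq_le_sq' hsq (by positivity) |>.2
  -- fibre sum
  have hsum : ∑ h ∈ (Finset.univ : Finset (ZMod M)).erase 0, ‖famT M W val h‖
      ≤ ∑ J ∈ B.powerset.filter Finset.Nonempty, ((∏ q ∈ J, q : ℕ) : ℝ) ^ 3 * U J.card ^ 4 := by
    refine (Finset.sum_le_sum hpt).trans ?_
    have hmaps : ∀ h ∈ (Finset.univ : Finset (ZMod M)).erase 0,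
        suppJ M h ∈ B.powerset.filter Finset.Nonempty := by
      intro h hh
      exact Finset.mem_filter.mpr ⟨Finset.mem_powerset.mpr (suppJ_subset B hB h),
        suppJ_nonempty B h (Finset.mem_erase.mp hh).1⟩
    rw [← Finset.sum_fiberwise_of_maps_to hmaps]
    refine Finset.sum_le_sum (fun J hJ => ?_)
    have hJsub : J ⊆ B := Finset.mem_powerset.mp (Finset.mem_filter.mp hJ).1
    set dJ := ∏ q ∈ J, q with hdJ
    have hdJM : dJ ∣ M := Finset.prod_dvd_prod_of_subset _ _ _ hJsub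
    have hinner : ∀ h ∈ ((Finset.univ : Finset (ZMod M)).erase 0).filter (fun h => suppJ M h = J),
        ((den M h : ℕ) : ℝ) ^ 2 * U (suppJ M h).card ^ 4 = (dJ : ℝ) ^ 2 * U J.card ^ 4 := by
      intro h hh
      have hhJ := (Finset.mem_filter.mp hh).2
      have : den M h = dJ := by
        rw [hdJ, ← hhJ]
        exact (prod_suppJ B hB h).symm
      rw [this, hhJ]
    rw [Finset.sum_congr rfl hinner, Finset.sum_const, nsmul_eq_mul]
    have hcard : ((((Finset.univ : Finset (ZMod M)).erase 0).filter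
        (fun h => suppJ M h = J)).card : ℝ) ≤ (dJ : ℝ) := by
      have h1 : ((Finset.univ : Finset (ZMod M)).erase 0).filter (fun h => suppJ M h = J)
          ⊆ (Finset.univ : Finset (ZMod M)).filter (fun h => den M h = dJ) := by
        intro h hh
        have hhJ := (Finset.mem_filter.mp hh).2
        refine Finset.mem_filter.mpr ⟨Finset.mem_univ _, ?_⟩
        rw [hdJ, ← hhJ]
        exact (prod_suppJ B hB h).symm
      have h2 := (Finset.card_le_card h1).trans (card_den_fiber M dJ hdJM)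
      exact_mod_cast h2
    have hU4 : 0 ≤ (dJ : ℝ) ^ 2 * U J.card ^ 4 := by
      have := hU0 J.card
      positivity
    calc _ ≤ (dJ : ℝ) * ((dJ : ℝ) ^ 2 * U J.card ^ 4) := by gcongr
      _ = (dJ : ℝ) ^ 3 * U J.card ^ 4 := by ring
  intro t
  obtain ⟨w, hw, hwt⟩ := cover_of_small M W val (by rw [hWcard]; exact hsum.trans_lt hlt) t
  simp only [hW, hP₁, hP₂, hP₃, hP₄, Finset.mem_product] at hw
  obtain ⟨⟨⟨h1, h2⟩, ⟨h3, h4⟩⟩, ⟨⟨h5, h6⟩, ⟨h7, h8⟩⟩⟩ := hw
  refine ⟨_, h1, _, h2, _, h3, _, h4, _, h5, _, h6, _, h7, _, h8, ?_⟩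
  rw [← hwt]
  simp only [hval, hv]
  push_cast
  ring

end

end P012Egypt
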