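import Vale.Agent.P012.ChainU

open Finset

namespace P012Egypt

/-- From the chain to Egyptian fractions with `O(s)` terms. -/
theorem egypt_U (s K a b : ℕ) (hP : Params s K) (hK2 : 2 ^ (s + 5 - K) ≤ 8192 * s)
    (ha : 1 ≤ a) (hab : a < b) (hb : b ≤ 2 ^ (2 ^ s)) :
    ∃ S : Finset ℕ, (∀ n ∈ S, 2 ≤ n) ∧ (∑ n ∈ S, (1 : ℚ) / (n : ℚ)) = (a : ℚ) / (b : ℚ) ∧
      S.card ≤ s + 3 + 2 ^ 23 * s := by
  classical
  have hs := hP.hs
  obtain ⟨c, G, T, hc2, hcle, hG0, hGood, hG, hT⟩ := final_U s K hP hK2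
  set τ := 2 ^ 23 * s with hτ
  set Z := c * 2 ^ τ with hZdef
  have hτle : τ ≤ 2 ^ (s + 1) := by
    have h1 := lin_bound s hs
    have e : 2 ^ (s + 1) = 2 * 2 ^ s := by rw [pow_succ]; ring
    have e2 : (2 : ℕ) ^ 24 = 2 * 2 ^ 23 := by norm_num
    rw [e2] at h1
    rw [hτ, e]
    nlinarith
  have hZ2 : 2 ≤ Z := by
    have : 1 ≤ 2 ^ τ := Nat.one_le_two_pow
    calc 2 ≤ c := hc2
      _ = c * 1 := (Nat.mul_one c).symm
      _ ≤ c * 2 ^ τ := Nat.mul_le_mul_left _ this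
  have hZle : Z ≤ 2 ^ (2 ^ (s + 2)) := by
    calc Z ≤ 2 ^ (2 ^ (s + 1)) * 2 ^ (2 ^ (s + 1)) :=
          Nat.mul_le_mul hcle (Nat.pow_le_pow_right (by norm_num) hτle)
      _ = 2 ^ (2 ^ (s + 2)) := by
          rw [← pow_add]
          congr 1
          rw [show s + 2 = s + 1 + 1 by ring, pow_succ 2 (s + 1)]
          ring
  obtain ⟨S₀, u, v, h1, h2, hv0, h3, h4, h5, h6⟩ := peel Z a b (s + 2) hZ2 hZle ha hab
  by_cases hu : u = 0
  · refine ⟨S₀, h2, ?_, ?_⟩
    · rw [← h3, hu]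
      simp
    · omega
  have hupos : 0 < u := Nat.pos_of_ne_zero hu
  have hcpos : 0 < c := by omega
  set N := c * G with hN
  have hN0 : 0 < N := Nat.mul_pos hcpos hG0
  have hvG : v ≤ G := by
    refine le_trans ?_ hG
    calc v ≤ b * Z ^ 2 := h5
      _ ≤ 2 ^ (2 ^ s) * (2 ^ (2 ^ (s + 2))) ^ 2 := Nat.mul_le_mul hb (Nat.pow_le_pow_left hZle 2)
      _ = 2 ^ (2 ^ s + 2 ^ (s + 2) * 2) := by rw [← pow_mul, ← pow_add]
      _ ≤ 2 ^ (2 ^ (s + 4)) := by
        refine Nat.pow_le_pow_right (by norm_num) ?_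
        have e1 : 2 ^ (s + 4) = 16 * 2 ^ s := by rw [pow_add]; ring
        have e2 : 2 ^ (s + 2) = 4 * 2 ^ s := by rw [pow_add]; ring
        omega
  -- the numerator lifted by the power of two
  set A := 2 ^ τ * u * N with hA
  set q := A / v with hq
  set r := A % v with hr
  have hqr : v * q + r = A := Nat.div_add_mod _ _
  have hrv : r < v := Nat.mod_lt _ hv0
  have hqG : q ≤ G := by
    refine Nat.div_le_of_le_mul ?_
    rw [hA, hN]
    have e : 2 ^ τ * u * (c * G) = (u * Z) * G := by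
      rw [hZdef]
      ring
    rw [e]
    exact Nat.mul_le_mul_right _ h4.le
  have u1 := hGood q hqG
  have u2 := (hGood r (by omega)).div_nat v hv0
  obtain ⟨M, hM1, hM2, hM3⟩ := u1.add u2
  have hvq : (v : ℚ) ≠ 0 := by exact_mod_cast hv0.ne'
  have hNq : (N : ℚ) ≠ 0 := by exact_mod_cast hN0.ne'
  have hpq : ((2 ^ τ : ℕ) : ℚ) ≠ 0 := by positivity
  have hMsum : (M.map (fun n : ℕ => (1 : ℚ) / n)).sum = ((2 ^ τ : ℕ) : ℚ) * u / v := by
    rw [hM3]
    have hqr' : (v : ℚ) * q + r = ((2 ^ τ : ℕ) : ℚ) * u * N := by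
      have : v * q + r = 2 ^ τ * u * N := hqr
      exact_mod_cast this
    field_simp
    linarith
  set M' := M.map (fun m => m * 2 ^ τ) with hM'
  have hM'card : M'.card ≤ τ := by
    rw [hM', Multiset.card_map]
    have : T + T ≤ τ := by
      rw [hτ]
      have e : (2 : ℕ) ^ 23 = 2 * 2 ^ 22 := by norm_num
      rw [e]
      nlinarith
    omega
  have hM'div : ∀ n ∈ M', 0 < n ∧ 2 ^ τ ∣ n := by
    intro n hn
    obtain ⟨m, hm, rfl⟩ := Multiset.mem_map.mp hn
    exact ⟨Nat.mul_pos (hM2 m hm) (by positivity), Dvd.intro_left _ rfl⟩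
  obtain ⟨S₁, h7, h7', h8⟩ := merge_multiset τ M' hM'card hM'div
  have h8' : (∑ n ∈ S₁, (1 : ℚ) / n) = (u : ℚ) / v := by
    rw [h8, hM', sum_map_scale, hMsum]
    field_simp
  have hS₁card : S₁.card ≤ T + T := by
    refine h7.trans ?_
    rw [hM', Multiset.card_map]
    exact hM1
  have hunit : ∀ n ∈ S₁, v ≤ u * n := by
    intro n hn
    have hnpos : 0 < n := h7' n hn
    have h10 : (1 : ℚ) / n ≤ (u : ℚ) / v := by
      rw [← h8']
      exact Finset.single_le_sum (f := fun n : ℕ => (1 : ℚ) / n)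
        (fun i _ => by positivity) hn
    have hnq : (0 : ℚ) < n := by exact_mod_cast hnpos
    have hvq' : (0 : ℚ) < v := by exact_mod_cast hv0
    rw [div_le_div_iff₀ hnq hvq'] at h10
    have h11 : (v : ℚ) ≤ (u * n : ℕ) := by
      push_cast
      linarith
    exact_mod_cast h11
  have hbig : ∀ n ∈ S₁, Z < n := by
    intro n hn
    have h10 : u * Z < u * n := lt_of_lt_of_le h4 (hunit n hn)
    exact Nat.lt_of_mul_lt_mul_left h10
  have hdisj : Disjoint S₀ S₁ := by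
    rw [Finset.disjoint_left]
    intro n hn hn'
    have h10 := h6 n hn
    have h11 := hunit n hn'
    omega
  refine ⟨S₀ ∪ S₁, ?_, ?_, ?_⟩
  · intro n hn
    rcases Finset.mem_union.mp hn with hn | hn
    · exact h2 n hn
    · have := hbig n hn
      omega
  · rw [Finset.sum_union hdisj, h8', h3]
  · have h10 := Finset.card_union_le S₀ S₁
    have h11 : T + T ≤ 2 ^ 23 * s := by
      have e : (2 : ℕ) ^ 23 = 2 * 2 ^ 22 := by norm_num
      rw [e]
      nlinarith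
    omega

end P012Egypt
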