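import Mathlib

open Finset

namespace P012Egypt

/-- Every `m ≤ N` is a sum of at most `T` distinct divisors of `N`. -/
def Good (N T : ℕ) : Prop :=
  ∀ m ≤ N, ∃ D : Finset ℕ, D.card ≤ T ∧ (∀ d ∈ D, d ∣ N) ∧ ∑ d ∈ D, d = m

lemma good_mono {N T T' : ℕ} (h : Good N T) (hT : T ≤ T') : Good N T' := by
  intro m hm
  obtain ⟨D, h1, h2, h3⟩ := h m hm
  exact ⟨D, h1.trans hT, h2, h3⟩

theorem good_factorial (x : ℕ) (hx : 1 ≤ x) : Good x.factorial x := by
  classical
  induction x, hx using Nat.le_induction with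
  | base =>
    intro m hm
    simp only [Nat.factorial_one] at hm
    interval_cases m
    · exact ⟨∅, by simp, by simp, by simp⟩
    · exact ⟨{1}, by simp, by simp, by simp⟩
  | succ x hx ih =>
    intro m hm
    rw [Nat.factorial_succ] at hm ⊢
    set c := m / (x + 1) with hc
    set r := m % (x + 1) with hr
    have hm' : (x + 1) * c + r = m := Nat.div_add_mod m (x + 1)
    have hrlt : r < x + 1 := Nat.mod_lt _ (by omega)
    have hcle : c ≤ x.factorial := by
      have : (x + 1) * c ≤ (x + 1) * x.factorial := by omega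
      exact Nat.le_of_mul_le_mul_left this (by omega)
    obtain ⟨D, hD1, hD2, hD3⟩ := ih c hcle
    set D' := D.image (fun d => (x + 1) * d) with hD'
    have hinj : Set.InjOn (fun d => (x + 1) * d) (D : Set ℕ) := by
      intro a _ b _ hab
      exact Nat.eq_of_mul_eq_mul_left (by omega) hab
    have hsumD' : ∑ d ∈ D', d = (x + 1) * c := by
      rw [hD', Finset.sum_image hinj, ← Finset.mul_sum, hD3]
    have hpos : ∀ d ∈ D, 0 < d := fun d hd =>
      Nat.pos_of_dvd_of_pos (hD2 d hd) (Nat.factorial_pos x)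
    by_cases hr0 : r = 0
    · refine ⟨D', ?_, ?_, ?_⟩
      · exact Finset.card_image_le.trans (by omega)
      · intro d hd
        obtain ⟨e, he, rfl⟩ := Finset.mem_image.mp hd
        exact Nat.mul_dvd_mul_left _ (hD2 e he)
      · rw [hsumD']
        omega
    · have hrnot : r ∉ D' := by
        intro hmem
        obtain ⟨e, he, hre⟩ := Finset.mem_image.mp hmem
        have : 0 < e := hpos e he
        have : x + 1 ≤ (x + 1) * e := Nat.le_mul_of_pos_right _ this
        omega
      refine ⟨insert r D', ?_, ?_, ?_⟩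
      · rw [Finset.card_insert_of_notMem hrnot]
        have : D'.card ≤ D.card := Finset.card_image_le
        omega
      · intro d hd
        rcases Finset.mem_insert.mp hd with rfl | hd
        · rw [← Nat.factorial_succ]
          exact Nat.dvd_factorial (Nat.pos_of_ne_zero hr0) (by omega)
        · obtain ⟨e, he, rfl⟩ := Finset.mem_image.mp hd
          exact Nat.mul_dvd_mul_left _ (hD2 e he)
      · rw [Finset.sum_insert hrnot, hsumD']
        omega

/-- The level step. -/
theorem good_step (N P M0 T : ℕ) (hM0pos : 0 < M0) (hM0 : 4 * M0 ≤ N) (hP : 1 < P)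
    (hcop : Nat.Coprime P N) (hM0N : M0 ∣ N)
    (cover : ∀ t : ℕ, ∃ D : Finset ℕ, D.card ≤ 4 ∧ (∀ d ∈ D, d ∣ M0) ∧
      ((∑ d ∈ D, d : ℕ) : ZMod P) = (t : ZMod P))
    (hG : Good N T) : Good (N * P) (T + 4) := by
  classical
  intro m hm
  by_cases hmN : m ≤ N
  · obtain ⟨D, h1, h2, h3⟩ := hG m hmN
    exact ⟨D, by omega, fun d hd => (h2 d hd).trans (Nat.dvd_mul_right _ _), h3⟩
  · push Not at hmN
    obtain ⟨D, hD1, hD2, hD3⟩ := cover m
    set s := ∑ d ∈ D, d with hs
    have hsle : s ≤ 4 * M0 := by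
      have h1 : s ≤ D.card * M0 := by
        rw [hs]
        refine (Finset.sum_le_card_nsmul D _ M0 (fun d hd => ?_)).trans (by simp)
        exact Nat.le_of_dvd hM0pos (hD2 d hd)
      exact h1.trans (Nat.mul_le_mul_right _ hD1)
    have hsm : s ≤ m := by omega
    have hdvd : P ∣ m - s :=
      (Nat.modEq_iff_dvd' hsm).mp ((ZMod.natCast_eq_natCast_iff _ _ _).mp hD3)
    obtain ⟨m', hm'⟩ := hdvd
    have hPpos : 0 < P := by omega
    have hm'le : m' ≤ N := by
      have h1 : P * m' ≤ P * N := by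
        rw [← hm', mul_comm P N]
        omega
      exact Nat.le_of_mul_le_mul_left h1 hPpos
    obtain ⟨D', hD'1, hD'2, hD'3⟩ := hG m' hm'le
    set E := D'.image (fun d => P * d) with hE
    have hinj : Set.InjOn (fun d => P * d) (D' : Set ℕ) := by
      intro a _ b _ hab
      exact Nat.eq_of_mul_eq_mul_left hPpos hab
    have hdisj : Disjoint D E := by
      rw [Finset.disjoint_left]
      intro d hd hdE
      obtain ⟨e, _, rfl⟩ := Finset.mem_image.mp hdE
      have h1 : P ∣ N := (Dvd.intro e rfl).trans ((hD2 _ hd).trans hM0N)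
      have h2 : P = 1 := Nat.Coprime.eq_one_of_dvd hcop h1
      omega
    refine ⟨D ∪ E, ?_, ?_, ?_⟩
    · have h1 : E.card ≤ D'.card := Finset.card_image_le
      have h2 := Finset.card_union_le D E
      omega
    · intro d hd
      rcases Finset.mem_union.mp hd with hd | hd
      · exact ((hD2 d hd).trans hM0N).trans (Nat.dvd_mul_right _ _)
      · obtain ⟨e, he, rfl⟩ := Finset.mem_image.mp hd
        rw [mul_comm N P]
        exact Nat.mul_dvd_mul_left _ (hD'2 e he)
    · rw [Finset.sum_union hdisj, hE, Finset.sum_image hinj, ← Finset.mul_sum, hD'3, ← hm', ← hs]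
      omega

/-- From a good number to Egyptian fractions. -/
theorem egypt_of_good (N T a b : ℕ) (hG : Good N T) (hb : b ≤ N) (ha : 1 ≤ a) (hab : a < b) :
    ∃ S : Finset ℕ, (∀ n ∈ S, 2 ≤ n) ∧ (∑ n ∈ S, (1 : ℚ) / n) = (a : ℚ) / b ∧ S.card ≤ 2 * T := by
  classical
  have hb0 : 0 < b := by omega
  have hN0 : 0 < N := by omega
  set q := a * N / b with hq
  set r := a * N % b with hr
  have hqr : b * q + r = a * N := Nat.div_add_mod _ _
  have hrlt : r < b := Nat.mod_lt _ hb0
  have hqlt : q < N := by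
    have h1 : b * q ≤ a * N := by omega
    have h2 : a * N < b * N := Nat.mul_lt_mul_of_pos_right hab hN0
    have h3 : b * q < b * N := by omega
    exact Nat.lt_of_mul_lt_mul_left h3
  obtain ⟨D₁, h11, h12, h13⟩ := hG q hqlt.le
  obtain ⟨D₂, h21, h22, h23⟩ := hG r (by omega)
  have hpos₁ : ∀ d ∈ D₁, 0 < d := fun d hd => Nat.pos_of_dvd_of_pos (h12 d hd) hN0
  have hpos₂ : ∀ d ∈ D₂, 0 < d := fun d hd => Nat.pos_of_dvd_of_pos (h22 d hd) hN0
  have hle₁ : ∀ d ∈ D₁, d ≤ q := fun d hd => by
    rw [← h13]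
    exact Finset.single_le_sum (f := fun x => x) (fun _ _ => Nat.zero_le _) hd
  have hle₂ : ∀ d ∈ D₂, d ≤ r := fun d hd => by
    rw [← h23]
    exact Finset.single_le_sum (f := fun x => x) (fun _ _ => Nat.zero_le _) hd
  set S₁ := D₁.image (fun d => N / d) with hS₁
  set S₂ := D₂.image (fun d => b * N / d) with hS₂
  have hinj₁ : Set.InjOn (fun d => N / d) (D₁ : Set ℕ) := by
    intro x hx y hy hxy
    simp only at hxy
    have e1 := Nat.mul_div_cancel' (h12 x hx)
    have e2 := Nat.mul_div_cancel' (h12 y hy)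
    rw [hxy] at e1
    have hv : 0 < N / y := Nat.div_pos (Nat.le_of_dvd hN0 (h12 y hy)) (hpos₁ y hy)
    exact Nat.eq_of_mul_eq_mul_right hv (e1.trans e2.symm)
  have hval₂ : ∀ d ∈ D₂, b * N / d = b * (N / d) := fun d hd =>
    Nat.mul_div_assoc b (h22 d hd)
  have hinj₂ : Set.InjOn (fun d => b * N / d) (D₂ : Set ℕ) := by
    intro x hx y hy hxy
    simp only at hxy
    rw [hval₂ x hx, hval₂ y hy] at hxy
    have hxy' := Nat.eq_of_mul_eq_mul_left hb0 hxy
    have e1 := Nat.mul_div_cancel' (h22 x hx)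
    have e2 := Nat.mul_div_cancel' (h22 y hy)
    rw [hxy'] at e1
    have hv : 0 < N / y := Nat.div_pos (Nat.le_of_dvd hN0 (h22 y hy)) (hpos₂ y hy)
    exact Nat.eq_of_mul_eq_mul_right hv (e1.trans e2.symm)
  have hdisj : Disjoint S₁ S₂ := by
    rw [Finset.disjoint_left]
    intro v hv1 hv2
    obtain ⟨d, hd, rfl⟩ := Finset.mem_image.mp hv1
    obtain ⟨d', hd', hv⟩ := Finset.mem_image.mp hv2
    rw [hval₂ d' hd'] at hv
    have e1 := Nat.mul_div_cancel' (h12 d hd)
    have e2 := Nat.mul_div_cancel' (h22 d' hd')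
    have hvpos : 0 < N / d := Nat.div_pos (Nat.le_of_dvd hN0 (h12 d hd)) (hpos₁ d hd)
    have h3 : d' * (N / d') * b = d * (N / d) * b := by rw [e1, e2]
    have h4 : d' * (b * (N / d')) = b * d * (N / d) := by
      calc d' * (b * (N / d')) = d' * (N / d') * b := by ring
        _ = d * (N / d) * b := h3
        _ = b * d * (N / d) := by ring
    rw [hv] at h4
    have h5 : d' = b * d := Nat.eq_of_mul_eq_mul_right hvpos h4
    have h6 : b ≤ b * d := Nat.le_mul_of_pos_right _ (hpos₁ d hd)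
    have h7 := hle₂ d' hd'
    omega
  refine ⟨S₁ ∪ S₂, ?_, ?_, ?_⟩
  · intro n hn
    rcases Finset.mem_union.mp hn with hn | hn
    · obtain ⟨d, hd, rfl⟩ := Finset.mem_image.mp hn
      have h1 := hle₁ d hd
      have e1 := Nat.mul_div_cancel' (h12 d hd)
      by_contra hcon
      have h2 : N / d ≤ 1 := by omega
      have h3 : d * (N / d) ≤ d * 1 := Nat.mul_le_mul_left _ h2
      omega
    · obtain ⟨d, hd, rfl⟩ := Finset.mem_image.mp hn
      rw [hval₂ d hd]
      have hv : 0 < N / d := Nat.div_pos (Nat.le_of_dvd hN0 (h22 d hd)) (hpos₂ d hd)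
      have : b * 1 ≤ b * (N / d) := Nat.mul_le_mul_left _ hv
      omega
  · rw [Finset.sum_union hdisj, hS₁, hS₂, Finset.sum_image hinj₁, Finset.sum_image hinj₂]
    have hNq : (N : ℚ) ≠ 0 := by exact_mod_cast hN0.ne'
    have hbq : (b : ℚ) ≠ 0 := by exact_mod_cast hb0.ne'
    have s1 : ∑ d ∈ D₁, (1 : ℚ) / ((N / d : ℕ) : ℚ) = (q : ℚ) / N := by
      rw [← h13]
      push_cast
      rw [Finset.sum_div]
      refine Finset.sum_congr rfl (fun d hd => ?_)
      have hd0 : (d : ℚ) ≠ 0 := by exact_mod_cast (hpos₁ d hd).ne'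
      rw [Nat.cast_div (h12 d hd) hd0]
      field_simp
    have s2 : ∑ d ∈ D₂, (1 : ℚ) / ((b * N / d : ℕ) : ℚ) = (r : ℚ) / (b * N) := by
      rw [← h23]
      push_cast
      rw [Finset.sum_div]
      refine Finset.sum_congr rfl (fun d hd => ?_)
      have hd0 : (d : ℚ) ≠ 0 := by exact_mod_cast (hpos₂ d hd).ne'
      have hdvd : d ∣ b * N := (h22 d hd).trans (Nat.dvd_mul_left _ _)
      rw [Nat.cast_div hdvd hd0]
      push_cast
      field_simp
    rw [s1, s2]
    have hqr' : (b : ℚ) * q + r = a * N := by exact_mod_cast hqr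
    field_simp
    linarith
  · have h1 : S₁.card ≤ D₁.card := Finset.card_image_le
    have h2 : S₂.card ≤ D₂.card := Finset.card_image_le
    have h3 := Finset.card_union_le S₁ S₂
    omega

end P012Egypt
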