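import Vale.Agent.P012.Batch
import Vale.Agent.P012.Good

open Finset

namespace P012Egypt

lemma exists_blocks (R : Finset ℕ) (k m : ℕ) (h : m * k ≤ R.card) :
    ∃ W : ℕ → Finset ℕ, (∀ i < m, W i ⊆ R ∧ (W i).card = k) ∧
      (∀ i < m, ∀ j < m, i ≠ j → Disjoint (W i) (W j)) := by
  classical
  induction m generalizing R with
  | zero => exact ⟨fun _ => ∅, by simp, by simp⟩
  | succ m ih =>
    have h1 : k ≤ R.card := by
      have : (m + 1) * k = m * k + k := by ring
      omega
    obtain ⟨V, hVR, hVk⟩ := Finset.exists_subset_card_eq h1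
    have h2 : m * k ≤ (R \ V).card := by
      rw [Finset.card_sdiff_of_subset hVR, hVk]
      have : (m + 1) * k = m * k + k := by ring
      omega
    obtain ⟨W, hW1, hW2⟩ := ih (R \ V) h2
    refine ⟨fun i => if i = m then V else W i, ?_, ?_⟩
    · intro i hi
      by_cases him : i = m
      · simp only [him, if_true]
        exact ⟨hVR, hVk⟩
      · simp only [him, if_false]
        have hi' : i < m := by omega
        exact ⟨(hW1 i hi').1.trans Finset.sdiff_subset, (hW1 i hi').2⟩
    · intro i hi j hj hij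
      by_cases him : i = m
      · have hjm : j ≠ m := by omega
        simp only [him, hjm, if_true, if_false]
        have hj' : j < m := by omega
        exact (Finset.disjoint_of_subset_left (hW1 j hj').1 Finset.sdiff_disjoint).symm
      · by_cases hjm : j = m
        · simp only [him, hjm, if_true, if_false]
          have hi' : i < m := by omega
          exact Finset.disjoint_of_subset_left (hW1 i hi').1 Finset.sdiff_disjoint
        · simp only [him, hjm, if_false]
          exact hW2 i (by omega) j (by omega) hij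

/-- Family of products `g * ∏ V` with `V` a subset of `W` without `g`. -/
def fam (W : Finset ℕ) (g : ℕ) : Finset ℕ :=
  (W.erase g).powerset.image (fun V => g * ∏ p ∈ V, p)

lemma card_fam (W : Finset ℕ) (g : ℕ) (hW : ∀ p ∈ W, p.Prime) (hg : g ∈ W) :
    (fam W g).card = 2 ^ (W.card - 1) := by
  classical
  unfold fam
  have hgpos : 0 < g := (hW g hg).pos
  rw [Finset.card_image_of_injOn, Finset.card_powerset, Finset.card_erase_of_mem hg]
  intro V hV V' hV' hVV
  simp only at hVV
  have h1 := Nat.eq_of_mul_eq_mul_left hgpos hVV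
  have hVp : ∀ p ∈ V, p.Prime := fun p hp =>
    hW p (Finset.mem_of_mem_erase (Finset.mem_powerset.mp (Finset.mem_coe.mp hV) hp))
  have hVp' : ∀ p ∈ V', p.Prime := fun p hp =>
    hW p (Finset.mem_of_mem_erase (Finset.mem_powerset.mp (Finset.mem_coe.mp hV') hp))
  have h2 := Nat.primeFactors_prod hVp
  have h3 := Nat.primeFactors_prod hVp'
  rw [← h2, ← h3, h1]

lemma fam_dvd (W : Finset ℕ) (g : ℕ) (hg : g ∈ W) (z : ℕ) (hz : z ∈ fam W g) :
    z ∣ ∏ p ∈ W, p := by
  classical
  obtain ⟨V, hV, rfl⟩ := Finset.mem_image.mp hz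
  have hV' := Finset.mem_powerset.mp hV
  have hgV : g ∉ V := fun h => (Finset.mem_erase.mp (hV' h)).1 rfl
  have e : g * ∏ p ∈ V, p = ∏ p ∈ insert g V, p := (Finset.prod_insert (f := fun p : ℕ => p) hgV).symm
  rw [e]
  refine Finset.prod_dvd_prod_of_subset _ _ _ (Finset.insert_subset hg ?_)
  exact hV'.trans (Finset.erase_subset _ _)

lemma dvd_of_fam (W : Finset ℕ) (g z : ℕ) (hz : z ∈ fam W g) : g ∣ z := by
  classical
  obtain ⟨V, _, rfl⟩ := Finset.mem_image.mp hz
  exact Nat.dvd_mul_right _ _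

/-- A prime dividing the product of a set of primes lies in the set. -/
lemma mem_of_prime_dvd_prod (W : Finset ℕ) (hW : ∀ p ∈ W, p.Prime) (g : ℕ) (hg : g.Prime)
    (h : g ∣ ∏ p ∈ W, p) : g ∈ W := by
  obtain ⟨q, hq, hgq⟩ := (Prime.dvd_finsetProd_iff hg.prime _).mp h
  have := (Nat.prime_dvd_prime_iff_eq hg (hW q hq)).mp hgq
  rwa [this]

/-- Bound on the number of primes above `2 ^ h` dividing a small nonzero number. -/
lemma card_primes_dvd_le (Q : Finset ℕ) (h lam D : ℕ) (hh : 0 < h)
    (hQ : ∀ q ∈ Q, q.Prime ∧ 2 ^ h < q) (hD : D ≠ 0) (hDle : D ≤ 2 ^ (h * lam)) :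
    (Q.filter (fun q => q ∣ D)).card ≤ lam := by
  classical
  set S := Q.filter (fun q => q ∣ D) with hS
  have h1 : ∏ q ∈ S, q ∣ D := Finset.prod_primes_dvd D
    (fun q hq => (hQ q (Finset.mem_filter.mp hq).1).1.prime)
    (fun q hq => (Finset.mem_filter.mp hq).2)
  have h2 : ∏ q ∈ S, q ≤ D := Nat.le_of_dvd (Nat.pos_of_ne_zero hD) h1
  have h3 : (2 ^ h) ^ S.card ≤ ∏ q ∈ S, q :=
    Finset.pow_card_le_prod S _ _ (fun q hq => (hQ q (Finset.mem_filter.mp hq).1).2.le)
  have h4 : 2 ^ (h * S.card) ≤ 2 ^ (h * lam) := by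
    rw [pow_mul]
    exact h3.trans (h2.trans hDle)
  have h5 : h * S.card ≤ h * lam := (Nat.pow_le_pow_iff_right (by norm_num)).mp h4
  exact Nat.le_of_mul_le_mul_left h5 hh

lemma gap_ne_zero (z z' : ℕ) (h : z ≠ z') : gap (z, z') ≠ 0 := by
  unfold gap
  simp only [ne_eq, Int.natAbs_eq_zero]
  intro h1
  apply h
  omega

lemma gap_le (z z' L : ℕ) (hz : z ≤ L) (hz' : z' ≤ L) : gap (z, z') ≤ L := by
  unfold gap
  simp only
  omega

end P012Egypt
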