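import Mathlib

open Finset
open scoped ComplexConjugate

namespace P012Egypt

noncomputable section

/-- Number of pairs of a finite set of naturals that are congruent modulo `d`. -/
def coll (d : ℕ) (X : Finset ℕ) : ℕ :=
  ((X ×ˢ X).filter (fun p => (p.1 : ZMod d) = (p.2 : ZMod d))).card

/-- Additive character sum squared, summed over all residues. -/
lemma sum_norm_sq_G (d : ℕ) [NeZero d] (c : ZMod d) (hc : IsUnit c) (Y : Finset ℕ) :
    ∑ a : ZMod d, ‖∑ y ∈ Y, ZMod.stdAddChar (c * a * (y : ZMod d))‖ ^ 2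
      = (d : ℝ) * (coll d Y : ℝ) := by
  classical
  have hψ := ZMod.isPrimitive_stdAddChar d
  have key : ∀ y y' : ℕ, ∑ a : ZMod d,
      (ZMod.stdAddChar (c * a * (y : ZMod d)) * conj (ZMod.stdAddChar (c * a * (y' : ZMod d))) : ℂ)
      = if (y : ZMod d) = (y' : ZMod d) then (d : ℂ) else 0 := by
    intro y y'
    have h1 : ∀ a : ZMod d, (ZMod.stdAddChar (c * a * (y : ZMod d)) *
        conj (ZMod.stdAddChar (c * a * (y' : ZMod d))) : ℂ)
        = ZMod.stdAddChar (a * (c * ((y : ZMod d) - (y' : ZMod d)))) := by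
      intro a
      rw [← AddChar.map_neg_eq_conj, ← AddChar.map_add_eq_mul]
      congr 1
      ring
    simp_rw [h1]
    rw [AddChar.sum_mulShift _ hψ]
    have h2 : c * ((y : ZMod d) - (y' : ZMod d)) = 0 ↔ (y : ZMod d) = (y' : ZMod d) := by
      rw [hc.mul_right_eq_zero, sub_eq_zero]
    simp only [h2, ZMod.card]
    split_ifs <;> simp
  have h3 : ((∑ a : ZMod d, ‖∑ y ∈ Y, ZMod.stdAddChar (c * a * (y : ZMod d))‖ ^ 2 : ℝ) : ℂ)
      = ((d : ℝ) * (coll d Y : ℝ) : ℝ) := by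
    push_cast
    have h4 : ∀ a : ZMod d, ((‖∑ y ∈ Y, ZMod.stdAddChar (c * a * (y : ZMod d))‖ : ℂ)) ^ 2
        = ∑ p ∈ Y ×ˢ Y, (ZMod.stdAddChar (c * a * (p.1 : ZMod d)) *
            conj (ZMod.stdAddChar (c * a * (p.2 : ZMod d))) : ℂ) := by
      intro a
      rw [← Complex.mul_conj', map_sum, Finset.sum_mul_sum, Finset.sum_product]
    simp_rw [h4]
    rw [Finset.sum_comm]
    simp_rw [key]
    rw [coll, Finset.card_filter]
    push_cast
    rw [Finset.mul_sum]
    refine Finset.sum_congr rfl (fun p _ => ?_)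
    split_ifs <;> simp
  exact_mod_cast h3

/-- The basic bilinear estimate modulo `d`. -/
lemma bilinear_bound (d : ℕ) [NeZero d] (c : ZMod d) (hc : IsUnit c) (X Y : Finset ℕ) :
    ‖∑ x ∈ X, ∑ y ∈ Y, ZMod.stdAddChar (c * (x : ZMod d) * (y : ZMod d))‖ ^ 2
      ≤ (d : ℝ) * (coll d X : ℝ) * (coll d Y : ℝ) := by
  classical
  set G : ZMod d → ℂ := fun a => ∑ y ∈ Y, ZMod.stdAddChar (c * a * (y : ZMod d)) with hG
  set u : ZMod d → ℝ := fun a => ((X.filter (fun x : ℕ => (x : ZMod d) = a)).card : ℝ) with hu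
  have h1 : ∑ x ∈ X, ∑ y ∈ Y, ZMod.stdAddChar (c * (x : ZMod d) * (y : ZMod d))
      = ∑ a : ZMod d, (u a : ℂ) * G a := by
    have : ∀ a : ZMod d, (u a : ℂ) * G a
        = ∑ x ∈ X.filter (fun x : ℕ => (x : ZMod d) = a), G (x : ZMod d) := by
      intro a
      rw [Finset.sum_congr rfl (g := fun _ => G a)]
      · simp [hu]
      · intro x hx
        rw [(Finset.mem_filter.mp hx).2]
    simp_rw [this]
    rw [Finset.sum_fiberwise]
  have h2 : ‖∑ a : ZMod d, (u a : ℂ) * G a‖ ≤ ∑ a : ZMod d, u a * ‖G a‖ := by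
    refine (norm_sum_le _ _).trans (le_of_eq ?_)
    refine Finset.sum_congr rfl (fun a _ => ?_)
    rw [norm_mul, Complex.norm_real, Real.norm_of_nonneg]
    simp [hu]
  have h3 : (∑ a : ZMod d, u a * ‖G a‖) ^ 2
      ≤ (∑ a : ZMod d, u a ^ 2) * ∑ a : ZMod d, ‖G a‖ ^ 2 :=
    Finset.sum_mul_sq_le_sq_mul_sq _ _ _
  have h4 : ∑ a : ZMod d, u a ^ 2 = (coll d X : ℝ) := by
    have h5 : (coll d X : ℝ) = ∑ x ∈ X, u (x : ZMod d) := by
      rw [coll, Finset.card_filter, Finset.sum_product]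
      push_cast
      refine Finset.sum_congr rfl (fun x _ => ?_)
      simp only [hu, Finset.card_filter]
      push_cast
      refine Finset.sum_congr rfl (fun x' _ => ?_)
      by_cases h : (x : ZMod d) = (x' : ZMod d)
      · simp [h]
      · simp [h, Ne.symm h]
    rw [h5, ← Finset.sum_fiberwise (s := X) (g := fun x : ℕ => (x : ZMod d))]
    refine Finset.sum_congr rfl (fun a _ => ?_)
    rw [Finset.sum_congr rfl (g := fun _ => u a)]
    · simp [hu, sq]
    · intro x hx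
      rw [(Finset.mem_filter.mp hx).2]
  have h5 := sum_norm_sq_G d c hc Y
  rw [h1]
  have h6 : 0 ≤ ‖∑ a : ZMod d, (u a : ℂ) * G a‖ := norm_nonneg _
  calc ‖∑ a : ZMod d, (u a : ℂ) * G a‖ ^ 2 ≤ (∑ a : ZMod d, u a * ‖G a‖) ^ 2 := by gcongr
    _ ≤ (∑ a : ZMod d, u a ^ 2) * ∑ a : ZMod d, ‖G a‖ ^ 2 := h3
    _ = (d : ℝ) * (coll d X : ℝ) * (coll d Y : ℝ) := by
        rw [h4]
        simp only [hG]
        rw [h5]
        ring

/-- The reduced denominator of `h / M`. -/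
def den (M : ℕ) (h : ZMod M) : ℕ := M / Nat.gcd (ZMod.val h) M

lemma den_dvd (M : ℕ) (h : ZMod M) : den M h ∣ M :=
  Nat.div_dvd_of_dvd (Nat.gcd_dvd_right _ _)

lemma den_pos (M : ℕ) [NeZero M] (h : ZMod M) : 0 < den M h :=
  Nat.pos_of_dvd_of_pos (den_dvd M h) (Nat.pos_of_ne_zero (NeZero.ne M))

lemma one_lt_den (M : ℕ) [NeZero M] (h : ZMod M) (hh : h ≠ 0) : 1 < den M h := by
  have hM : 0 < M := Nat.pos_of_ne_zero (NeZero.ne M)
  have hv : 0 < ZMod.val h := by
    rcases Nat.eq_zero_or_pos (ZMod.val h) with h0 | h0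
    · exact absurd ((ZMod.val_eq_zero h).mp h0) hh
    · exact h0
  have hlt : ZMod.val h < M := ZMod.val_lt h
  have hg : Nat.gcd (ZMod.val h) M ≤ ZMod.val h := Nat.gcd_le_left _ hv
  have hgpos : 0 < Nat.gcd (ZMod.val h) M := Nat.gcd_pos_of_pos_right _ hM
  have hgd : Nat.gcd (ZMod.val h) M * den M h = M :=
    Nat.mul_div_cancel' (Nat.gcd_dvd_right _ _)
  by_contra hcon
  have h1 : den M h ≤ 1 := not_lt.mp hcon
  have : Nat.gcd (ZMod.val h) M * den M h ≤ Nat.gcd (ZMod.val h) M * 1 :=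
    Nat.mul_le_mul_left _ h1
  omega

/-- The exponential sum of a bilinear family. -/
def biS (M : ℕ) [NeZero M] (X Y : Finset ℕ) (h : ZMod M) : ℂ :=
  ∑ x ∈ X, ∑ y ∈ Y, ZMod.stdAddChar (h * ((x : ZMod M) * (y : ZMod M)))

lemma biS_norm_sq_le (M : ℕ) [NeZero M] (X Y : Finset ℕ) (h : ZMod M) :
    ‖biS M X Y h‖ ^ 2 ≤ (den M h : ℝ) * (coll (den M h) X : ℝ) * (coll (den M h) Y : ℝ) := by
  have hM : 0 < M := Nat.pos_of_ne_zero (NeZero.ne M)
  set g := Nat.gcd (ZMod.val h) M with hg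
  set d := den M h with hd
  have hdpos : 0 < d := den_pos M h
  have : NeZero d := ⟨hdpos.ne'⟩
  have hgpos : 0 < g := Nat.gcd_pos_of_pos_right _ hM
  set c := ZMod.val h / g with hc
  have hgd : g * d = M := Nat.mul_div_cancel' (Nat.gcd_dvd_right _ _)
  have hgc : g * c = ZMod.val h := Nat.mul_div_cancel' (Nat.gcd_dvd_left _ _)
  have hcop : Nat.Coprime c d := Nat.coprime_div_gcd_div_gcd hgpos
  have hu : IsUnit ((c : ℕ) : ZMod d) := (ZMod.isUnit_iff_coprime c d).mpr hcop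
  have key : ∀ n : ℕ, ZMod.stdAddChar (h * ((n : ℕ) : ZMod M))
      = ZMod.stdAddChar (((c : ℕ) : ZMod d) * ((n : ℕ) : ZMod d)) := by
    intro n
    have e1 : h * ((n : ℕ) : ZMod M) = (((ZMod.val h * n : ℕ) : ℤ) : ZMod M) := by
      push_cast
      rw [ZMod.natCast_zmod_val]
    have e2 : ((c : ℕ) : ZMod d) * ((n : ℕ) : ZMod d) = (((c * n : ℕ) : ℤ) : ZMod d) := by
      push_cast
      rfl
    rw [e1, e2, ZMod.stdAddChar_coe, ZMod.stdAddChar_coe]
    congr 1
    rw [← hgc, ← hgd]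
    have hg0 : ((g : ℕ) : ℂ) ≠ 0 := by exact_mod_cast hgpos.ne'
    have hd0 : ((d : ℕ) : ℂ) ≠ 0 := by exact_mod_cast hdpos.ne'
    push_cast
    field_simp
  have h1 : biS M X Y h = ∑ x ∈ X, ∑ y ∈ Y,
      ZMod.stdAddChar (((c : ℕ) : ZMod d) * ((x : ℕ) : ZMod d) * ((y : ℕ) : ZMod d)) := by
    unfold biS
    refine Finset.sum_congr rfl (fun x _ => Finset.sum_congr rfl (fun y _ => ?_))
    have := key (x * y)
    push_cast at this
    rw [this, mul_assoc]
  rw [h1]
  exact bilinear_bound d _ hu X Y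

/-- Exponential sum of a general finite family of residues. -/
def famT {α : Type*} (M : ℕ) [NeZero M] (W : Finset α) (v : α → ZMod M) (h : ZMod M) : ℂ :=
  ∑ w ∈ W, ZMod.stdAddChar (h * v w)

lemma famT_mul {α β : Type*} (M : ℕ) [NeZero M] (W₁ : Finset α) (W₂ : Finset β)
    (v₁ : α → ZMod M) (v₂ : β → ZMod M) (h : ZMod M) :
    famT M W₁ v₁ h * famT M W₂ v₂ h
      = famT M (W₁ ×ˢ W₂) (fun w => v₁ w.1 + v₂ w.2) h := by
  unfold famT
  rw [Finset.sum_mul_sum, Finset.sum_product]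
  refine Finset.sum_congr rfl (fun x _ => Finset.sum_congr rfl (fun y _ => ?_))
  rw [← AddChar.map_add_eq_mul, mul_add]

lemma biS_eq_famT (M : ℕ) [NeZero M] (X Y : Finset ℕ) (h : ZMod M) :
    biS M X Y h = famT M (X ×ˢ Y) (fun w => (w.1 : ZMod M) * (w.2 : ZMod M)) h := by
  unfold biS famT
  rw [Finset.sum_product]

/-- A family whose nonzero frequencies are small covers every residue. -/
lemma cover_of_small {α : Type*} (M : ℕ) [NeZero M] (W : Finset α) (v : α → ZMod M)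
    (hsmall : ∑ h ∈ (Finset.univ : Finset (ZMod M)).erase 0, ‖famT M W v h‖ < (W.card : ℝ))
    (t : ZMod M) : ∃ w ∈ W, v w = t := by
  classical
  by_contra hcon
  push Not at hcon
  have hψ := ZMod.isPrimitive_stdAddChar M
  have h0 : ∑ h : ZMod M, ZMod.stdAddChar (-(h * t)) * famT M W v h = 0 := by
    unfold famT
    simp_rw [Finset.mul_sum]
    rw [Finset.sum_comm]
    refine Finset.sum_eq_zero (fun w hw => ?_)
    have h1 : ∀ h : ZMod M, (ZMod.stdAddChar (-(h * t)) * ZMod.stdAddChar (h * v w) : ℂ)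
        = ZMod.stdAddChar (h * (v w - t)) := by
      intro h
      rw [← AddChar.map_add_eq_mul]
      congr 1
      ring
    simp_rw [h1]
    rw [AddChar.sum_mulShift _ hψ]
    rw [if_neg (sub_ne_zero.mpr (hcon w hw))]
    simp
  have h2 : ∑ h : ZMod M, ZMod.stdAddChar (-(h * t)) * famT M W v h
      = ZMod.stdAddChar (-((0 : ZMod M) * t)) * famT M W v 0
        + ∑ h ∈ (Finset.univ : Finset (ZMod M)).erase 0,
            ZMod.stdAddChar (-(h * t)) * famT M W v h := by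
    exact (Finset.add_sum_erase _ (fun h : ZMod M => (ZMod.stdAddChar (-(h * t)) * famT M W v h : ℂ))
      (Finset.mem_univ (0 : ZMod M))).symm
  have h3 : famT M W v 0 = (W.card : ℂ) := by
    unfold famT
    simp
  rw [h0, h3] at h2
  simp only [zero_mul, neg_zero, AddChar.map_zero_eq_one, one_mul] at h2
  have h4 : (W.card : ℂ) = - ∑ h ∈ (Finset.univ : Finset (ZMod M)).erase 0,
      ZMod.stdAddChar (-(h * t)) * famT M W v h := by
    linear_combination -h2
  have h5 : (W.card : ℝ) ≤ ∑ h ∈ (Finset.univ : Finset (ZMod M)).erase 0, ‖famT M W v h‖ := by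
    have h6 : ‖(W.card : ℂ)‖ = (W.card : ℝ) := by simp
    rw [← h6, h4, norm_neg]
    refine (norm_sum_le _ _).trans (le_of_eq ?_)
    refine Finset.sum_congr rfl (fun h _ => ?_)
    rw [norm_mul, AddChar.norm_apply, one_mul]
  exact absurd hsmall (not_lt.mpr h5)

end

end P012Egypt
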