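import Vale.Agent.P012.Good

open Finset

namespace P012Egypt

/-- Every `m ≤ G` is a sum of at most `T` distinct divisors of `N`. -/
def GoodUpTo (G N T : ℕ) : Prop :=
  ∀ m ≤ G, ∃ D : Finset ℕ, D.card ≤ T ∧ (∀ d ∈ D, d ∣ N) ∧ ∑ d ∈ D, d = m

lemma goodUpTo_of_good {G N T : ℕ} (h : Good G T) (hGN : G ∣ N) : GoodUpTo G N T := by
  intro m hm
  obtain ⟨D, h1, h2, h3⟩ := h m hm
  exact ⟨D, h1, fun d hd => (h2 d hd).trans hGN, h3⟩

/-- The level step with a reservoir. -/
theorem good_stepR (G N P T : ℕ) (hP : 1 < P) (hcop : Nat.Coprime P N)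
    (cover : ∀ t : ℕ, ∃ D : Finset ℕ, D.card ≤ 4 ∧ (∀ d ∈ D, d ∣ N) ∧ ∑ d ∈ D, d ≤ G ∧
      ((∑ d ∈ D, d : ℕ) : ZMod P) = (t : ZMod P))
    (hG : GoodUpTo G N T) : GoodUpTo (G * P) (N * P) (T + 4) := by
  classical
  intro m hm
  by_cases hmN : m ≤ G
  · obtain ⟨D, h1, h2, h3⟩ := hG m hmN
    exact ⟨D, by omega, fun d hd => (h2 d hd).trans (Nat.dvd_mul_right _ _), h3⟩
  · push Not at hmN
    obtain ⟨D, hD1, hD2, hsle, hD3⟩ := cover m
    set s := ∑ d ∈ D, d with hs
    have hsm : s ≤ m := by omega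
    have hdvd : P ∣ m - s :=
      (Nat.modEq_iff_dvd' hsm).mp ((ZMod.natCast_eq_natCast_iff _ _ _).mp hD3)
    obtain ⟨m', hm'⟩ := hdvd
    have hPpos : 0 < P := by omega
    have hm'le : m' ≤ G := by
      have h1 : P * m' ≤ P * G := by
        rw [← hm', mul_comm P G]
        omega
      exact Nat.le_of_mul_le_mul_left h1 hPpos
    obtain ⟨D', hD'1, hD'2, hD'3⟩ := hG m' hm'le
    set E := D'.image (fun d => P * d) with hE
    have hinj : Set.InjOn (fun d => P * d) (D' : Set ℕ) := by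
      intro a _ b _ hab
      exact Nat.eq_of_mul_eq_mul_left hPpos hab
    have hdisj : Disjoint D E := by
      rw [Finset.disjoint_left]
      intro d hd hdE
      obtain ⟨e, _, rfl⟩ := Finset.mem_image.mp hdE
      have h1 : P ∣ N := (Dvd.intro e rfl).trans (hD2 _ hd)
      have h2 : P = 1 := Nat.Coprime.eq_one_of_dvd hcop h1
      omega
    refine ⟨D ∪ E, ?_, ?_, ?_⟩
    · have h1 : E.card ≤ D'.card := Finset.card_image_le
      have h2 := Finset.card_union_le D E
      omega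
    · intro d hd
      rcases Finset.mem_union.mp hd with hd | hd
      · exact (hD2 d hd).trans (Nat.dvd_mul_right _ _)
      · obtain ⟨e, he, rfl⟩ := Finset.mem_image.mp hd
        rw [mul_comm N P]
        exact Nat.mul_dvd_mul_left _ (hD'2 e he)
    · rw [Finset.sum_union hdisj, hE, Finset.sum_image hinj, ← Finset.mul_sum, hD'3, ← hm', ← hs]
      omega

/-- From a number good up to `G` to Egyptian fractions of small value. -/
theorem egypt_of_goodUpTo (G N T a b : ℕ) (hG : GoodUpTo G N T) (hN0 : 0 < N) (hb0 : 0 < b)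
    (hb : b ≤ G) (hq : a * N / b ≤ G) :
    ∃ S : Finset ℕ, (∀ n ∈ S, 1 ≤ n) ∧ (∑ n ∈ S, (1 : ℚ) / n) = (a : ℚ) / b ∧ S.card ≤ 2 * T := by
  classical
  set q := a * N / b with hqdef
  set r := a * N % b with hr
  have hqr : b * q + r = a * N := Nat.div_add_mod _ _
  have hrlt : r < b := Nat.mod_lt _ hb0
  obtain ⟨D₁, h11, h12, h13⟩ := hG q hq
  obtain ⟨D₂, h21, h22, h23⟩ := hG r (by omega)
  have hpos₁ : ∀ d ∈ D₁, 0 < d := fun d hd => Nat.pos_of_dvd_of_pos (h12 d hd) hN0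
  have hpos₂ : ∀ d ∈ D₂, 0 < d := fun d hd => Nat.pos_of_dvd_of_pos (h22 d hd) hN0
  have hle₂ : ∀ d ∈ D₂, d ≤ r := fun d hd => by
    rw [← h23]
    exact Finset.single_le_sum (f := fun x => x) (fun _ _ => Nat.zero_le _) hd
  set S₁ := D₁.image (fun d => N / d) with hS₁
  set S₂ := D₂.image (fun d => b * N / d) with hS₂
  have hinj₁ : Set.InjOn (fun d => N / d) (D₁ : Set ℕ) := by
    intro x hx y hy hxy
    simp only at hxy
    have e1 := Nat.mul_div_cancel' (h12 x hx)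
    have e2 := Nat.mul_div_cancel' (h12 y hy)
    rw [hxy] at e1
    have hv : 0 < N / y := Nat.div_pos (Nat.le_of_dvd hN0 (h12 y hy)) (hpos₁ y hy)
    exact Nat.eq_of_mul_eq_mul_right hv (e1.trans e2.symm)
  have hval₂ : ∀ d ∈ D₂, b * N / d = b * (N / d) := fun d hd =>
    Nat.mul_div_assoc b (h22 d hd)
  have hinj₂ : Set.InjOn (fun d => b * N / d) (D₂ : Set ℕ) := by
    intro x hx y hy hxy
    simp only at hxy
    rw [hval₂ x hx, hval₂ y hy] at hxy
    have hxy' := Nat.eq_of_mul_eq_mul_left hb0 hxy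
    have e1 := Nat.mul_div_cancel' (h22 x hx)
    have e2 := Nat.mul_div_cancel' (h22 y hy)
    rw [hxy'] at e1
    have hv : 0 < N / y := Nat.div_pos (Nat.le_of_dvd hN0 (h22 y hy)) (hpos₂ y hy)
    exact Nat.eq_of_mul_eq_mul_right hv (e1.trans e2.symm)
  have hdisj : Disjoint S₁ S₂ := by
    rw [Finset.disjoint_left]
    intro v hv1 hv2
    obtain ⟨d, hd, rfl⟩ := Finset.mem_image.mp hv1
    obtain ⟨d', hd', hv⟩ := Finset.mem_image.mp hv2
    rw [hval₂ d' hd'] at hv
    have e1 := Nat.mul_div_cancel' (h12 d hd)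
    have e2 := Nat.mul_div_cancel' (h22 d' hd')
    have hvpos : 0 < N / d := Nat.div_pos (Nat.le_of_dvd hN0 (h12 d hd)) (hpos₁ d hd)
    have h3 : d' * (N / d') * b = d * (N / d) * b := by rw [e1, e2]
    have h4 : d' * (b * (N / d')) = b * d * (N / d) := by
      calc d' * (b * (N / d')) = d' * (N / d') * b := by ring
        _ = d * (N / d) * b := h3
        _ = b * d * (N / d) := by ring
    rw [hv] at h4
    have h5 : d' = b * d := Nat.eq_of_mul_eq_mul_right hvpos h4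
    have h6 : b ≤ b * d := Nat.le_mul_of_pos_right _ (hpos₁ d hd)
    have h7 := hle₂ d' hd'
    omega
  refine ⟨S₁ ∪ S₂, ?_, ?_, ?_⟩
  · intro n hn
    rcases Finset.mem_union.mp hn with hn | hn
    · obtain ⟨d, hd, rfl⟩ := Finset.mem_image.mp hn
      exact Nat.div_pos (Nat.le_of_dvd hN0 (h12 d hd)) (hpos₁ d hd)
    · obtain ⟨d, hd, rfl⟩ := Finset.mem_image.mp hn
      rw [hval₂ d hd]
      have hv : 0 < N / d := Nat.div_pos (Nat.le_of_dvd hN0 (h22 d hd)) (hpos₂ d hd)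
      exact Nat.mul_pos hb0 hv
  · rw [Finset.sum_union hdisj, hS₁, hS₂, Finset.sum_image hinj₁, Finset.sum_image hinj₂]
    have hNq : (N : ℚ) ≠ 0 := by exact_mod_cast hN0.ne'
    have hbq : (b : ℚ) ≠ 0 := by exact_mod_cast hb0.ne'
    have s1 : ∑ d ∈ D₁, (1 : ℚ) / ((N / d : ℕ) : ℚ) = (q : ℚ) / N := by
      rw [← h13]
      push_cast
      rw [Finset.sum_div]
      refine Finset.sum_congr rfl (fun d hd => ?_)
      have hd0 : (d : ℚ) ≠ 0 := by exact_mod_cast (hpos₁ d hd).ne'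
      rw [Nat.cast_div (h12 d hd) hd0]
      field_simp
    have s2 : ∑ d ∈ D₂, (1 : ℚ) / ((b * N / d : ℕ) : ℚ) = (r : ℚ) / (b * N) := by
      rw [← h23]
      push_cast
      rw [Finset.sum_div]
      refine Finset.sum_congr rfl (fun d hd => ?_)
      have hd0 : (d : ℚ) ≠ 0 := by exact_mod_cast (hpos₂ d hd).ne'
      have hdvd : d ∣ b * N := (h22 d hd).trans (Nat.dvd_mul_left _ _)
      rw [Nat.cast_div hdvd hd0]
      push_cast
      field_simp
    rw [s1, s2]
    have hqr' : (b : ℚ) * q + r = a * N := by exact_mod_cast hqr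
    field_simp
    linarith
  · have h1 : S₁.card ≤ D₁.card := Finset.card_image_le
    have h2 : S₂.card ≤ D₂.card := Finset.card_image_le
    have h3 := Finset.card_union_le S₁ S₂
    omega

end P012Egypt
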