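import Mathlib

open Finset

namespace P012Egypt

/-- Chebyshev lower bound in exact form, for powers of two. -/
lemma two_pow_le_primeCounting (s : ℕ) (hs : 1 ≤ s) :
    2 ^ s ≤ s * Nat.primeCounting (2 ^ s) + s + 1 := by
  have h := Chebyshev.pi_ge (2 ^ s)
  have hlog2 : 0 < Real.log 2 := Real.log_pos (by norm_num)
  have hs0 : (0 : ℝ) < s := by exact_mod_cast hs
  have hlogn : Real.log ((2 ^ s : ℕ) : ℝ) = s * Real.log 2 := by
    push_cast
    rw [Real.log_pow]
  have hpos : 0 < Real.log ((2 ^ s : ℕ) : ℝ) := by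
    rw [hlogn]
    positivity
  rw [div_le_iff₀ hpos] at h
  have h2 : Real.log (((2 ^ s : ℕ) : ℝ) + 1) ≤ (s + 1) * Real.log 2 := by
    have h3 : ((2 ^ s : ℕ) : ℝ) + 1 ≤ (2 : ℝ) ^ (s + 1) := by
      have : (1 : ℝ) ≤ (2 : ℝ) ^ s := one_le_pow₀ (by norm_num)
      push_cast
      rw [pow_succ]
      linarith
    have h4 := Real.log_le_log (by positivity) h3
    rw [Real.log_pow] at h4
    push_cast at h4 ⊢
    linarith
  rw [hlogn] at h
  have h5 : ((2 ^ s : ℕ) : ℝ) * Real.log 2 ≤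
      ((s : ℝ) * (Nat.primeCounting (2 ^ s) : ℝ) + s + 1) * Real.log 2 := by
    nlinarith
  have h6 := le_of_mul_le_mul_right h5 hlog2
  exact_mod_cast h6

/-- Pool of primes above `L`, up to `Y`, not dividing `N`. -/
def pool (L Y N : ℕ) : Finset ℕ :=
  (Nat.primesLE Y).filter (fun p => L < p ∧ ¬ p ∣ N)

lemma mem_pool {L Y N p : ℕ} : p ∈ pool L Y N ↔ (p ≤ Y ∧ p.Prime) ∧ L < p ∧ ¬ p ∣ N := by
  unfold pool
  rw [Finset.mem_filter, Nat.mem_primesLE]

lemma primeCounting_le_pool (L Y N : ℕ) (hN : N ≠ 0) :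
    Nat.primeCounting Y ≤ (pool L Y N).card + L + N.primeFactors.card := by
  classical
  rw [← Nat.primesLE_card_eq_primeCounting]
  have hsub : Nat.primesLE Y ⊆ pool L Y N ∪ (Finset.Icc 1 L ∪ N.primeFactors) := by
    intro p hp
    have hp' := Nat.mem_primesLE.mp hp
    by_cases h1 : L < p
    · by_cases h2 : p ∣ N
      · exact Finset.mem_union_right _ (Finset.mem_union_right _
          (Nat.mem_primeFactors.mpr ⟨hp'.2, h2, hN⟩))
      · exact Finset.mem_union_left _ (mem_pool.mpr ⟨hp', h1, h2⟩)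
    · refine Finset.mem_union_right _ (Finset.mem_union_left _ (Finset.mem_Icc.mpr ⟨?_, by omega⟩))
      exact hp'.2.one_lt.le
  refine (Finset.card_le_card hsub).trans ?_
  refine (Finset.card_union_le _ _).trans ?_
  have := Finset.card_union_le (Finset.Icc 1 L) N.primeFactors
  simp only [Nat.card_Icc, add_tsub_cancel_right] at this
  omega

end P012Egypt
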