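import Vale.Agent.P012.Family
import Vale.Agent.P012.Primes

open Finset

namespace P012Egypt

/-- Divisibility and distinctness data for the eight families. -/
structure Blocks (N k : ℕ) (W : ℕ → Finset ℕ) (g : ℕ → ℕ) (U : Finset ℕ) : Prop where
  hprime : ∀ i < 8, ∀ p ∈ W i, p.Prime
  hg : ∀ i < 8, g i ∈ W i
  hcard : ∀ i < 8, (W i).card = k
  hdisj : ∀ i < 8, ∀ j < 8, i ≠ j → Disjoint (W i) (W j)
  hsub : ∀ i < 8, W i ⊆ U

lemma Blocks.pair_dvd {N k : ℕ} {W : ℕ → Finset ℕ} {g : ℕ → ℕ} {U : Finset ℕ}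
    (hB : Blocks N k W g U) {i j : ℕ} (hi : i < 8) (hj : j < 8) (hij : i ≠ j)
    {x y : ℕ} (hx : x ∈ fam (W i) (g i)) (hy : y ∈ fam (W j) (g j)) :
    x * y ∣ ∏ p ∈ U, p := by
  classical
  have h1 : x * y ∣ (∏ p ∈ W i, p) * ∏ p ∈ W j, p :=
    Nat.mul_dvd_mul (fam_dvd _ _ (hB.hg i hi) x hx) (fam_dvd _ _ (hB.hg j hj) y hy)
  rw [← Finset.prod_union (hB.hdisj i hi j hj hij)] at h1
  exact h1.trans (Finset.prod_dvd_prod_of_subset _ _ _
    (Finset.union_subset (hB.hsub i hi) (hB.hsub j hj)))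

lemma Blocks.pair_ne {N k : ℕ} {W : ℕ → Finset ℕ} {g : ℕ → ℕ} {U : Finset ℕ}
    (hB : Blocks N k W g U) {i i' j' : ℕ} (hi : i < 8) (hi' : i' < 8) (hj' : j' < 8)
    (hii' : i ≠ i') (hij' : i ≠ j')
    {x y x' y' : ℕ} (hx : x ∈ fam (W i) (g i))
    (hx' : x' ∈ fam (W i') (g i')) (hy' : y' ∈ fam (W j') (g j')) :
    x * y ≠ x' * y' := by
  intro heq
  have hgi : g i ∈ W i := hB.hg i hi
  have hgp : (g i).Prime := hB.hprime i hi _ hgi
  have h1 : g i ∣ x' * y' := by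
    rw [← heq]
    exact (dvd_of_fam _ _ _ hx).trans (Nat.dvd_mul_right _ _)
  rcases (Nat.Prime.dvd_mul hgp).mp h1 with h2 | h2
  · have h3 := h2.trans (fam_dvd _ _ (hB.hg i' hi') x' hx')
    have h4 := mem_of_prime_dvd_prod _ (hB.hprime i' hi') _ hgp h3
    exact (Finset.disjoint_left.mp (hB.hdisj i hi i' hi' hii')) hgi h4
  · have h3 := h2.trans (fam_dvd _ _ (hB.hg j' hj') y' hy')
    have h4 := mem_of_prime_dvd_prod _ (hB.hprime j' hj') _ hgp h3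
    exact (Finset.disjoint_left.mp (hB.hdisj i hi j' hj' hij')) hgi h4

/-- From the output of the batch theorem to the covering hypothesis of the level step. -/
lemma cover_of_batch {N k : ℕ} {W : ℕ → Finset ℕ} {g : ℕ → ℕ} {U : Finset ℕ}
    (hB : Blocks N k W g U) (P : ℕ)
    (hcov : ∀ t : ZMod P, ∃ x₁ ∈ fam (W 0) (g 0), ∃ y₁ ∈ fam (W 1) (g 1),
      ∃ x₂ ∈ fam (W 2) (g 2), ∃ y₂ ∈ fam (W 3) (g 3),
      ∃ x₃ ∈ fam (W 4) (g 4), ∃ y₃ ∈ fam (W 5) (g 5),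
      ∃ x₄ ∈ fam (W 6) (g 6), ∃ y₄ ∈ fam (W 7) (g 7),
      (((x₁ * y₁ + x₂ * y₂ + x₃ * y₃ + x₄ * y₄ : ℕ)) : ZMod P) = t) (t : ℕ) :
    ∃ D : Finset ℕ, D.card ≤ 4 ∧ (∀ d ∈ D, d ∣ ∏ p ∈ U, p) ∧
      ((∑ d ∈ D, d : ℕ) : ZMod P) = (t : ZMod P) := by
  classical
  obtain ⟨x₁, hx₁, y₁, hy₁, x₂, hx₂, y₂, hy₂, x₃, hx₃, y₃, hy₃, x₄, hx₄, y₄, hy₄, hsum⟩ :=
    hcov (t : ZMod P)
  have d1 := hB.pair_dvd (i := 0) (j := 1) (by omega) (by omega) (by omega) hx₁ hy₁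
  have d2 := hB.pair_dvd (i := 2) (j := 3) (by omega) (by omega) (by omega) hx₂ hy₂
  have d3 := hB.pair_dvd (i := 4) (j := 5) (by omega) (by omega) (by omega) hx₃ hy₃
  have d4 := hB.pair_dvd (i := 6) (j := 7) (by omega) (by omega) (by omega) hx₄ hy₄
  have n12 : x₁ * y₁ ≠ x₂ * y₂ :=
    hB.pair_ne (i := 0) (i' := 2) (j' := 3) (by omega) (by omega) (by omega) (by omega) (by omega)
      hx₁ hx₂ hy₂
  have n13 : x₁ * y₁ ≠ x₃ * y₃ :=
    hB.pair_ne (i := 0) (i' := 4) (j' := 5) (by omega) (by omega) (by omega) (by omega) (by omega)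
      hx₁ hx₃ hy₃
  have n14 : x₁ * y₁ ≠ x₄ * y₄ :=
    hB.pair_ne (i := 0) (i' := 6) (j' := 7) (by omega) (by omega) (by omega) (by omega) (by omega)
      hx₁ hx₄ hy₄
  have n23 : x₂ * y₂ ≠ x₃ * y₃ :=
    hB.pair_ne (i := 2) (i' := 4) (j' := 5) (by omega) (by omega) (by omega) (by omega) (by omega)
      hx₂ hx₃ hy₃
  have n24 : x₂ * y₂ ≠ x₄ * y₄ :=
    hB.pair_ne (i := 2) (i' := 6) (j' := 7) (by omega) (by omega) (by omega) (by omega) (by omega)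
      hx₂ hx₄ hy₄
  have n34 : x₃ * y₃ ≠ x₄ * y₄ :=
    hB.pair_ne (i := 4) (i' := 6) (j' := 7) (by omega) (by omega) (by omega) (by omega) (by omega)
      hx₃ hx₄ hy₄
  refine ⟨{x₁ * y₁, x₂ * y₂, x₃ * y₃, x₄ * y₄}, Finset.card_le_four, ?_, ?_⟩
  · intro d hd
    simp only [Finset.mem_insert, Finset.mem_singleton] at hd
    rcases hd with rfl | rfl | rfl | rfl <;> assumption
  · rw [Finset.sum_insert (by simp [n12, n13, n14]), Finset.sum_insert (by simp [n23, n24]),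
      Finset.sum_insert (by simp [n34]), Finset.sum_singleton]
    rw [← hsum]
    push_cast
    ring

/-- The generic level lemma. -/
theorem level_generic (N T h k b G Lw : ℕ) (hN : 0 < N) (h6 : 6 ∣ N) (hGood : Good N T)
    (hh : 0 < h) (hk : 0 < k) (hlo : 8 * k + 2 ≤ N.primeFactors.card)
    (hprimes : ∀ p ∈ N.primeFactors, p ≤ 2 ^ (2 * h)) (hb : 0 < b) (hLw : 0 < Lw) (hG : 0 < G)
    (hcard : b + Lw ≤ (pool (2 ^ h) (2 ^ (2 * h)) N).card) (hGω : G * (2 * k) * b ≤ Lw)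
    (hC1 : 16 * (1 + (2 ^ (2 * h)) ^ 3) ^ b ≤ (2 ^ (k - 1)) ^ 4)
    (hC2 : 2 ^ 24 * b * (2 ^ (2 * h)) ^ 3 ≤ G ^ 4) :
    ∃ B ⊆ pool (2 ^ h) (2 ^ (2 * h)) N, B.card = b ∧ Good (N * ∏ q ∈ B, q) (T + 4) := by
  classical
  set R := N.primeFactors \ {2, 3} with hR
  have hRcard : 8 * k ≤ R.card := by
    have h1 : N.primeFactors.card - ({2, 3} : Finset ℕ).card ≤ R.card :=
      Finset.le_card_sdiff ({2, 3} : Finset ℕ) N.primeFactors
    have h2 : ({2, 3} : Finset ℕ).card ≤ 2 := Finset.card_le_two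
    omega
  obtain ⟨W, hW1, hW2⟩ := exists_blocks R k 8 hRcard
  have hWprime : ∀ i < 8, ∀ p ∈ W i, p.Prime := fun i hi p hp =>
    Nat.prime_of_mem_primeFactors (Finset.mem_sdiff.mp ((hW1 i hi).1 hp)).1
  have hWne : ∀ i, ∃ x, i < 8 → x ∈ W i := by
    intro i
    by_cases hi : i < 8
    · have : 0 < (W i).card := by rw [(hW1 i hi).2]; exact hk
      obtain ⟨x, hx⟩ := Finset.card_pos.mp this
      exact ⟨x, fun _ => hx⟩
    · exact ⟨0, fun h => absurd h hi⟩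
  choose g hg using hWne
  set U := (Finset.range 8).biUnion W with hU
  have hUR : U ⊆ R := by
    intro p hp
    obtain ⟨i, hi, hpi⟩ := Finset.mem_biUnion.mp hp
    exact (hW1 i (Finset.mem_range.mp hi)).1 hpi
  have hBlocks : Blocks N k W g U :=
    { hprime := hWprime
      hg := fun i hi => hg i hi
      hcard := fun i hi => (hW1 i hi).2
      hdisj := hW2
      hsub := fun i hi => Finset.subset_biUnion_of_mem W (Finset.mem_range.mpr hi) }
  -- the product over U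
  have hUprime : ∀ p ∈ U, p.Prime := fun p hp =>
    Nat.prime_of_mem_primeFactors (Finset.mem_sdiff.mp (hUR hp)).1
  have hM0pos : 0 < ∏ p ∈ U, p := Finset.prod_pos (fun p hp => (hUprime p hp).pos)
  have h2U : 2 ∉ U := fun h => (Finset.mem_sdiff.mp (hUR h)).2 (by simp)
  have h3U : 3 ∉ U := fun h => (Finset.mem_sdiff.mp (hUR h)).2 (by simp)
  have h6M0 : 6 * ∏ p ∈ U, p ∣ N := by
    have h23 : (2 : ℕ) ∉ insert 3 U := by
      simp [h2U]
    have e : 6 * ∏ p ∈ U, p = ∏ p ∈ insert 2 (insert 3 U), p := by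
      rw [Finset.prod_insert h23, Finset.prod_insert h3U]
      ring
    rw [e]
    refine Finset.prod_primes_dvd N ?_ ?_
    · intro p hp
      simp only [Finset.mem_insert] at hp
      rcases hp with rfl | rfl | hp
      · exact Nat.prime_two.prime
      · exact Nat.prime_three.prime
      · exact (hUprime p hp).prime
    · intro p hp
      simp only [Finset.mem_insert] at hp
      rcases hp with rfl | rfl | hp
      · exact (by norm_num : 2 ∣ 6).trans h6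
      · exact (by norm_num : 3 ∣ 6).trans h6
      · exact Nat.dvd_of_mem_primeFactors (Finset.mem_sdiff.mp (hUR hp)).1
  have hM0N : ∏ p ∈ U, p ∣ N := (Nat.dvd_mul_left _ _).trans h6M0
  have h4M0 : 4 * ∏ p ∈ U, p ≤ N := by
    have := Nat.le_of_dvd hN h6M0
    omega
  -- the families
  set F : Fin 8 → Finset ℕ := fun i => fam (W i) (g i) with hF
  set A := 2 ^ (k - 1) with hA
  have hFcard : ∀ i, (F i).card = A := by
    intro i
    simp only [hF]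
    rw [card_fam _ _ (hWprime i i.2) (hg i i.2), (hW1 i i.2).2]
  set Q := pool (2 ^ h) (2 ^ (2 * h)) N with hQdef
  have hQ1 : ∀ q ∈ Q, q.Prime ∧ q ≤ 2 ^ (2 * h) := fun q hq =>
    ⟨(mem_pool.mp hq).1.2, (mem_pool.mp hq).1.1⟩
  have hQ2 : ∀ q ∈ Q, q.Prime ∧ 2 ^ h < q := fun q hq =>
    ⟨(mem_pool.mp hq).1.2, (mem_pool.mp hq).2.1⟩
  have hω : ∀ i, ∀ z ∈ F i, ∀ z' ∈ F i, z ≠ z' →
      (Q.filter (fun q => q ∣ gap (z, z'))).card ≤ 2 * k := by
    intro i z hz z' hz' hzz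
    have hprodpos : 0 < ∏ p ∈ W i, p :=
      Finset.prod_pos (fun p hp => (hWprime i i.2 p hp).pos)
    have hprodle : ∏ p ∈ W i, p ≤ 2 ^ (h * (2 * k)) := by
      have h1 : ∏ p ∈ W i, p ≤ (2 ^ (2 * h)) ^ (W i).card :=
        Finset.prod_le_pow_card _ _ _ (fun p hp =>
          hprimes p (Finset.mem_sdiff.mp ((hW1 i i.2).1 hp)).1)
      rw [(hW1 i i.2).2, ← pow_mul] at h1
      refine h1.trans (le_of_eq ?_)
      congr 1
      ring
    have hzle : z ≤ ∏ p ∈ W i, p := Nat.le_of_dvd hprodpos (fam_dvd _ _ (hg i i.2) z hz)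
    have hzle' : z' ≤ ∏ p ∈ W i, p := Nat.le_of_dvd hprodpos (fam_dvd _ _ (hg i i.2) z' hz')
    exact card_primes_dvd_le Q h (2 * k) (gap (z, z')) hh hQ2 (gap_ne_zero z z' hzz)
      (gap_le z z' _ (hzle.trans hprodle) (hzle'.trans hprodle))
  obtain ⟨B, hBQ, hBb, hcov⟩ := batch F A G (2 * k) Lw b (2 ^ (2 * h)) Q hFcard hb hLw hG hQ1 hω
    hcard hGω hC1 hC2
  refine ⟨B, hBQ, hBb, ?_⟩
  -- apply the level step
  have hBprime : ∀ q ∈ B, q.Prime := fun q hq => (hQ1 q (hBQ hq)).1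
  have hBndvd : ∀ q ∈ B, ¬ q ∣ N := fun q hq => (mem_pool.mp (hBQ hq)).2.2
  have hP1 : 1 < ∏ q ∈ B, q := by
    obtain ⟨q, hq⟩ := Finset.card_pos.mp (by rw [hBb]; exact hb : 0 < B.card)
    have h1 : q ∣ ∏ q ∈ B, q := Finset.dvd_prod_of_mem _ hq
    have h2 := Nat.le_of_dvd (prod_primes_pos B hBprime) h1
    have h3 := (hBprime q hq).one_lt
    omega
  have hcop : Nat.Coprime (∏ q ∈ B, q) N := by
    refine Nat.Coprime.prod_left (fun q hq => ?_)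
    exact (Nat.Prime.coprime_iff_not_dvd (hBprime q hq)).mpr (hBndvd q hq)
  refine good_step N (∏ q ∈ B, q) (∏ p ∈ U, p) T hM0pos h4M0 hP1 hcop hM0N ?_ hGood
  exact cover_of_batch hBlocks (∏ q ∈ B, q) hcov

end P012Egypt
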