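import Vale.Agent.P012.Family
import Vale.Agent.P012.Primes
import Vale.Agent.P012.GoodR

open Finset

namespace P012Egypt

/-- Family of products `g * ∏ V` with `V` a `w`-subset of `W` without `g`. -/
def famw (W : Finset ℕ) (g w : ℕ) : Finset ℕ :=
  ((W.erase g).powersetCard w).image (fun V => g * ∏ p ∈ V, p)

lemma card_famw (W : Finset ℕ) (g w : ℕ) (hW : ∀ p ∈ W, p.Prime) (hg : g ∈ W) :
    (famw W g w).card = (W.card - 1).choose w := by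
  classical
  unfold famw
  have hgpos : 0 < g := (hW g hg).pos
  rw [Finset.card_image_of_injOn, Finset.card_powersetCard, Finset.card_erase_of_mem hg]
  intro V hV V' hV' hVV
  simp only at hVV
  have h1 := Nat.eq_of_mul_eq_mul_left hgpos hVV
  have hVs := (Finset.mem_powersetCard.mp (Finset.mem_coe.mp hV)).1
  have hVs' := (Finset.mem_powersetCard.mp (Finset.mem_coe.mp hV')).1
  have hVp : ∀ p ∈ V, p.Prime := fun p hp => hW p (Finset.mem_of_mem_erase (hVs hp))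
  have hVp' : ∀ p ∈ V', p.Prime := fun p hp => hW p (Finset.mem_of_mem_erase (hVs' hp))
  have h2 := Nat.primeFactors_prod hVp
  have h3 := Nat.primeFactors_prod hVp'
  rw [← h2, ← h3, h1]

lemma famw_dvd (W : Finset ℕ) (g w : ℕ) (hg : g ∈ W) (z : ℕ) (hz : z ∈ famw W g w) :
    z ∣ ∏ p ∈ W, p := by
  classical
  obtain ⟨V, hV, rfl⟩ := Finset.mem_image.mp hz
  have hV' := (Finset.mem_powersetCard.mp hV).1
  have hgV : g ∉ V := fun h => (Finset.mem_erase.mp (hV' h)).1 rfl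
  have e : g * ∏ p ∈ V, p = ∏ p ∈ insert g V, p := (Finset.prod_insert (f := fun p : ℕ => p) hgV).symm
  rw [e]
  refine Finset.prod_dvd_prod_of_subset _ _ _ (Finset.insert_subset hg ?_)
  exact hV'.trans (Finset.erase_subset _ _)

lemma dvd_of_famw (W : Finset ℕ) (g w z : ℕ) (hz : z ∈ famw W g w) : g ∣ z := by
  classical
  obtain ⟨V, _, rfl⟩ := Finset.mem_image.mp hz
  exact Nat.dvd_mul_right _ _

lemma famw_le (W : Finset ℕ) (g w Y : ℕ) (hg : g ∈ W) (hY : ∀ p ∈ W, p ≤ Y) (z : ℕ)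
    (hz : z ∈ famw W g w) : z ≤ Y ^ (w + 1) := by
  classical
  obtain ⟨V, hV, rfl⟩ := Finset.mem_image.mp hz
  obtain ⟨hVs, hVc⟩ := Finset.mem_powersetCard.mp hV
  have h1 : ∏ p ∈ V, p ≤ Y ^ V.card :=
    Finset.prod_le_pow_card V _ Y (fun p hp => hY p (Finset.mem_of_mem_erase (hVs hp)))
  rw [hVc] at h1
  calc g * ∏ p ∈ V, p ≤ Y * Y ^ w := Nat.mul_le_mul (hY g hg) h1
    _ = Y ^ (w + 1) := by rw [pow_succ]; ring

/-- Data of eight disjoint blocks of primes dividing `N`. -/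
structure BlocksR (N s nb : ℕ) (W : ℕ → Finset ℕ) (g : ℕ → ℕ) : Prop where
  hprime : ∀ i < 8, ∀ p ∈ W i, p.Prime
  hle : ∀ i < 8, ∀ p ∈ W i, p ≤ 2 ^ s
  hdvd : ∀ i < 8, ∀ p ∈ W i, p ∣ N
  hg : ∀ i < 8, g i ∈ W i
  hcard : ∀ i < 8, (W i).card = nb + 1
  hdisj : ∀ i < 8, ∀ j < 8, i ≠ j → Disjoint (W i) (W j)

lemma BlocksR.pair_dvd {N s nb : ℕ} {W : ℕ → Finset ℕ} {g : ℕ → ℕ}
    (hB : BlocksR N s nb W g) {i j w : ℕ} (hi : i < 8) (hj : j < 8) (hij : i ≠ j)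
    {x y : ℕ} (hx : x ∈ famw (W i) (g i) w) (hy : y ∈ famw (W j) (g j) w) :
    x * y ∣ N := by
  classical
  have h1 : x * y ∣ (∏ p ∈ W i, p) * ∏ p ∈ W j, p :=
    Nat.mul_dvd_mul (famw_dvd _ _ _ (hB.hg i hi) x hx) (famw_dvd _ _ _ (hB.hg j hj) y hy)
  rw [← Finset.prod_union (hB.hdisj i hi j hj hij)] at h1
  refine h1.trans (Finset.prod_primes_dvd N ?_ ?_)
  · intro p hp
    rcases Finset.mem_union.mp hp with hp | hp
    · exact (hB.hprime i hi p hp).prime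
    · exact (hB.hprime j hj p hp).prime
  · intro p hp
    rcases Finset.mem_union.mp hp with hp | hp
    · exact hB.hdvd i hi p hp
    · exact hB.hdvd j hj p hp

lemma BlocksR.pair_le {N s nb : ℕ} {W : ℕ → Finset ℕ} {g : ℕ → ℕ}
    (hB : BlocksR N s nb W g) {i j w : ℕ} (hi : i < 8) (hj : j < 8)
    {x y : ℕ} (hx : x ∈ famw (W i) (g i) w) (hy : y ∈ famw (W j) (g j) w) :
    x * y ≤ (2 ^ (s * (w + 1))) ^ 2 := by
  have h1 := famw_le _ _ w (2 ^ s) (hB.hg i hi) (hB.hle i hi) x hx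
  have h2 := famw_le _ _ w (2 ^ s) (hB.hg j hj) (hB.hle j hj) y hy
  rw [← pow_mul] at h1 h2
  rw [sq]
  exact Nat.mul_le_mul h1 h2

lemma BlocksR.pair_ne {N s nb : ℕ} {W : ℕ → Finset ℕ} {g : ℕ → ℕ}
    (hB : BlocksR N s nb W g) {i i' j' w : ℕ} (hi : i < 8) (hi' : i' < 8) (hj' : j' < 8)
    (hii' : i ≠ i') (hij' : i ≠ j')
    {x y x' y' : ℕ} (hx : x ∈ famw (W i) (g i) w)
    (hx' : x' ∈ famw (W i') (g i') w) (hy' : y' ∈ famw (W j') (g j') w) :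
    x * y ≠ x' * y' := by
  intro heq
  have hgi : g i ∈ W i := hB.hg i hi
  have hgp : (g i).Prime := hB.hprime i hi _ hgi
  have h1 : g i ∣ x' * y' := by
    rw [← heq]
    exact (dvd_of_famw _ _ _ _ hx).trans (Nat.dvd_mul_right _ _)
  rcases (Nat.Prime.dvd_mul hgp).mp h1 with h2 | h2
  · have h3 := h2.trans (famw_dvd _ _ _ (hB.hg i' hi') x' hx')
    have h4 := mem_of_prime_dvd_prod _ (hB.hprime i' hi') _ hgp h3
    exact (Finset.disjoint_left.mp (hB.hdisj i hi i' hi' hii')) hgi h4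
  · have h3 := h2.trans (famw_dvd _ _ _ (hB.hg j' hj') y' hy')
    have h4 := mem_of_prime_dvd_prod _ (hB.hprime j' hj') _ hgp h3
    exact (Finset.disjoint_left.mp (hB.hdisj i hi j' hj' hij')) hgi h4

/-- From the output of the batch theorem to the covering hypothesis of the level step. -/
lemma cover_of_batchR {N s nb w G : ℕ} {W : ℕ → Finset ℕ} {g : ℕ → ℕ}
    (hB : BlocksR N s nb W g) (P : ℕ) (hterm : 4 * (2 ^ (s * (w + 1))) ^ 2 ≤ G)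
    (hcov : ∀ t : ZMod P, ∃ x₁ ∈ famw (W 0) (g 0) w, ∃ y₁ ∈ famw (W 1) (g 1) w,
      ∃ x₂ ∈ famw (W 2) (g 2) w, ∃ y₂ ∈ famw (W 3) (g 3) w,
      ∃ x₃ ∈ famw (W 4) (g 4) w, ∃ y₃ ∈ famw (W 5) (g 5) w,
      ∃ x₄ ∈ famw (W 6) (g 6) w, ∃ y₄ ∈ famw (W 7) (g 7) w,
      (((x₁ * y₁ + x₂ * y₂ + x₃ * y₃ + x₄ * y₄ : ℕ)) : ZMod P) = t) (t : ℕ) :
    ∃ D : Finset ℕ, D.card ≤ 4 ∧ (∀ d ∈ D, d ∣ N) ∧ ∑ d ∈ D, d ≤ G ∧
      ((∑ d ∈ D, d : ℕ) : ZMod P) = (t : ZMod P) := by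
  classical
  obtain ⟨x₁, hx₁, y₁, hy₁, x₂, hx₂, y₂, hy₂, x₃, hx₃, y₃, hy₃, x₄, hx₄, y₄, hy₄, hsum⟩ :=
    hcov (t : ZMod P)
  have d1 := hB.pair_dvd (i := 0) (j := 1) (by omega) (by omega) (by omega) hx₁ hy₁
  have d2 := hB.pair_dvd (i := 2) (j := 3) (by omega) (by omega) (by omega) hx₂ hy₂
  have d3 := hB.pair_dvd (i := 4) (j := 5) (by omega) (by omega) (by omega) hx₃ hy₃
  have d4 := hB.pair_dvd (i := 6) (j := 7) (by omega) (by omega) (by omega) hx₄ hy₄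
  have l1 := hB.pair_le (i := 0) (j := 1) (by omega) (by omega) hx₁ hy₁
  have l2 := hB.pair_le (i := 2) (j := 3) (by omega) (by omega) hx₂ hy₂
  have l3 := hB.pair_le (i := 4) (j := 5) (by omega) (by omega) hx₃ hy₃
  have l4 := hB.pair_le (i := 6) (j := 7) (by omega) (by omega) hx₄ hy₄
  have n12 : x₁ * y₁ ≠ x₂ * y₂ :=
    hB.pair_ne (i := 0) (i' := 2) (j' := 3) (by omega) (by omega) (by omega) (by omega) (by omega)
      hx₁ hx₂ hy₂
  have n13 : x₁ * y₁ ≠ x₃ * y₃ :=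
    hB.pair_ne (i := 0) (i' := 4) (j' := 5) (by omega) (by omega) (by omega) (by omega) (by omega)
      hx₁ hx₃ hy₃
  have n14 : x₁ * y₁ ≠ x₄ * y₄ :=
    hB.pair_ne (i := 0) (i' := 6) (j' := 7) (by omega) (by omega) (by omega) (by omega) (by omega)
      hx₁ hx₄ hy₄
  have n23 : x₂ * y₂ ≠ x₃ * y₃ :=
    hB.pair_ne (i := 2) (i' := 4) (j' := 5) (by omega) (by omega) (by omega) (by omega) (by omega)
      hx₂ hx₃ hy₃
  have n24 : x₂ * y₂ ≠ x₄ * y₄ :=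
    hB.pair_ne (i := 2) (i' := 6) (j' := 7) (by omega) (by omega) (by omega) (by omega) (by omega)
      hx₂ hx₄ hy₄
  have n34 : x₃ * y₃ ≠ x₄ * y₄ :=
    hB.pair_ne (i := 4) (i' := 6) (j' := 7) (by omega) (by omega) (by omega) (by omega) (by omega)
      hx₃ hx₄ hy₄
  have hsumD : ∑ d ∈ ({x₁ * y₁, x₂ * y₂, x₃ * y₃, x₄ * y₄} : Finset ℕ), d
      = x₁ * y₁ + x₂ * y₂ + x₃ * y₃ + x₄ * y₄ := by
    rw [Finset.sum_insert (by simp [n12, n13, n14]), Finset.sum_insert (by simp [n23, n24]),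
      Finset.sum_insert (by simp [n34]), Finset.sum_singleton]
    ring
  refine ⟨{x₁ * y₁, x₂ * y₂, x₃ * y₃, x₄ * y₄}, Finset.card_le_four, ?_, ?_, ?_⟩
  · intro d hd
    simp only [Finset.mem_insert, Finset.mem_singleton] at hd
    rcases hd with rfl | rfl | rfl | rfl <;> assumption
  · rw [hsumD]
    omega
  · rw [hsumD]
    exact hsum

/-- The generic level lemma with a fixed reservoir. -/
theorem level_res (G N T s h nb w b Gs Lw : ℕ) (W : ℕ → Finset ℕ) (g : ℕ → ℕ)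
    (hB : BlocksR N s nb W g) (hN : 0 < N) (hGood : GoodUpTo G N T)
    (hh : 0 < h) (hsh : s ≤ h) (hterm : 4 * (2 ^ (s * (w + 1))) ^ 2 ≤ G)
    (hb : 0 < b) (hLw : 0 < Lw) (hGs : 0 < Gs)
    (hcard : b + Lw ≤ (pool (2 ^ h) (2 ^ (2 * h)) N).card) (hGω : Gs * (w + 1) * b ≤ Lw)
    (hC1 : 16 * (1 + (2 ^ (2 * h)) ^ 3) ^ b ≤ (nb.choose w) ^ 4)
    (hC2 : 2 ^ 24 * b * (2 ^ (2 * h)) ^ 3 ≤ Gs ^ 4) :
    ∃ B ⊆ pool (2 ^ h) (2 ^ (2 * h)) N, B.card = b ∧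
      GoodUpTo (G * ∏ q ∈ B, q) (N * ∏ q ∈ B, q) (T + 4) := by
  classical
  set F : Fin 8 → Finset ℕ := fun i => famw (W i) (g i) w with hF
  have hFcard : ∀ i, (F i).card = nb.choose w := by
    intro i
    simp only [hF]
    rw [card_famw _ _ _ (hB.hprime i i.2) (hB.hg i i.2), hB.hcard i i.2]
    simp
  set Q := pool (2 ^ h) (2 ^ (2 * h)) N with hQdef
  have hQ1 : ∀ q ∈ Q, q.Prime ∧ q ≤ 2 ^ (2 * h) := fun q hq =>
    ⟨(mem_pool.mp hq).1.2, (mem_pool.mp hq).1.1⟩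
  have hQ2 : ∀ q ∈ Q, q.Prime ∧ 2 ^ h < q := fun q hq =>
    ⟨(mem_pool.mp hq).1.2, (mem_pool.mp hq).2.1⟩
  have hω : ∀ i, ∀ z ∈ F i, ∀ z' ∈ F i, z ≠ z' →
      (Q.filter (fun q => q ∣ gap (z, z'))).card ≤ w + 1 := by
    intro i z hz z' hz' hzz
    have hle : ∀ y ∈ F i, y ≤ 2 ^ (h * (w + 1)) := by
      intro y hy
      have h1 := famw_le _ _ w (2 ^ s) (hB.hg i i.2) (hB.hle i i.2) y hy
      rw [← pow_mul] at h1
      exact h1.trans (Nat.pow_le_pow_right (by norm_num) (Nat.mul_le_mul_right _ hsh))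
    exact card_primes_dvd_le Q h (w + 1) (gap (z, z')) hh hQ2 (gap_ne_zero z z' hzz)
      (gap_le z z' _ (hle z hz) (hle z' hz'))
  obtain ⟨B, hBQ, hBb, hcov⟩ := batch F (nb.choose w) Gs (w + 1) Lw b (2 ^ (2 * h)) Q hFcard hb hLw
    hGs hQ1 hω hcard hGω hC1 hC2
  refine ⟨B, hBQ, hBb, ?_⟩
  have hBprime : ∀ q ∈ B, q.Prime := fun q hq => (hQ1 q (hBQ hq)).1
  have hBndvd : ∀ q ∈ B, ¬ q ∣ N := fun q hq => (mem_pool.mp (hBQ hq)).2.2
  have hP1 : 1 < ∏ q ∈ B, q := by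
    obtain ⟨q, hq⟩ := Finset.card_pos.mp (by rw [hBb]; exact hb : 0 < B.card)
    have h1 : q ∣ ∏ q ∈ B, q := Finset.dvd_prod_of_mem _ hq
    have h2 := Nat.le_of_dvd (prod_primes_pos B hBprime) h1
    have h3 := (hBprime q hq).one_lt
    omega
  have hcop : Nat.Coprime (∏ q ∈ B, q) N := by
    refine Nat.Coprime.prod_left (fun q hq => ?_)
    exact (Nat.Prime.coprime_iff_not_dvd (hBprime q hq)).mpr (hBndvd q hq)
  exact good_stepR G N (∏ q ∈ B, q) T hP1 hcop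
    (cover_of_batchR hB (∏ q ∈ B, q) hterm hcov) hGood

end P012Egypt
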