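import Vale.Agent.P012.Tfam

open Finset

namespace P012Egypt

/-- Every `m ≤ G` gives a fraction `m / N` that is a sum of at most `T` unit fractions. -/
def GoodUF (G N T : ℕ) : Prop := ∀ m ≤ G, UF ((m : ℚ) / N) T

lemma goodUF_of_goodUpTo {G N T : ℕ} (h : GoodUpTo G N T) (hN : 0 < N) : GoodUF G N T := by
  classical
  intro m hm
  obtain ⟨D, h1, h2, h3⟩ := h m hm
  have hq : (N : ℚ) ≠ 0 := by exact_mod_cast hN.ne'
  refine ⟨D.val.map (fun d => N / d), by simpa using h1, ?_, ?_⟩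
  · intro n hn
    obtain ⟨d, hd, rfl⟩ := Multiset.mem_map.mp hn
    have hd' : d ∈ D := hd
    have hdN := h2 d hd'
    exact Nat.div_pos (Nat.le_of_dvd hN hdN) (Nat.pos_of_dvd_of_pos hdN hN)
  · rw [Multiset.map_map, ← h3]
    push_cast
    rw [Finset.sum_div]
    unfold Finset.sum
    refine congrArg Multiset.sum (Multiset.map_congr rfl (fun d hd => ?_))
    have hd' : d ∈ D := hd
    have hdN := h2 d hd'
    obtain ⟨e, he⟩ := hdN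
    have hd0 : 0 < d := Nat.pos_of_mul_pos_right (he ▸ hN)
    have he0 : 0 < e := Nat.pos_of_mul_pos_left (he ▸ hN)
    have hdq : (d : ℚ) ≠ 0 := by exact_mod_cast hd0.ne'
    have heq : (e : ℚ) ≠ 0 := by exact_mod_cast he0.ne'
    simp only [Function.comp_apply]
    rw [he, Nat.mul_div_cancel_left _ hd0]
    push_cast
    field_simp

/-- The level step: a new modulus `P` and elements covering all residues. -/
theorem good_stepUF (G N P T τ : ℕ) (hN : 0 < N) (hP : 0 < P)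
    (cover : ∀ t : ℕ, ∃ e : ℕ, e ≤ G ∧ ((e : ℕ) : ZMod P) = (t : ZMod P) ∧ UF ((e : ℚ) / N) τ)
    (hG : GoodUF G N T) : GoodUF (G * P) (N * P) (T + τ) := by
  intro m hm
  have hNq : (N : ℚ) ≠ 0 := by exact_mod_cast hN.ne'
  have hPq : (P : ℚ) ≠ 0 := by exact_mod_cast hP.ne'
  by_cases hmG : m ≤ G
  · have h1 := (hG m hmG).div_nat P hP
    have e : (m : ℚ) / ((N * P : ℕ) : ℚ) = (m : ℚ) / N / P := by
      push_cast
      rw [div_div]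
    rw [e]
    exact h1.mono (by omega)
  · push Not at hmG
    obtain ⟨e, heG, hcong, huf⟩ := cover m
    have hem : e ≤ m := by omega
    have hdvd : P ∣ m - e :=
      (Nat.modEq_iff_dvd' hem).mp ((ZMod.natCast_eq_natCast_iff _ _ _).mp hcong)
    obtain ⟨m', hm'⟩ := hdvd
    have hm'le : m' ≤ G := by
      have h1 : P * m' ≤ P * G := by
        rw [← hm', mul_comm P G]
        omega
      exact Nat.le_of_mul_le_mul_left h1 hP
    have h1 := hG m' hm'le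
    have h2 := huf.div_nat P hP
    have h3 := h1.add h2
    have hmeq : (m : ℚ) = e + P * m' := by
      have : m = e + P * m' := by omega
      exact_mod_cast this
    have e4 : (m : ℚ) / ((N * P : ℕ) : ℚ) = (m' : ℚ) / N + (e : ℚ) / N / P := by
      push_cast
      rw [hmeq]
      field_simp
      ring
    rw [e4]
    exact h3

lemma numeric_C1E (s e : ℕ) (hs : 1 ≤ s) (he : 16 * s ≤ e) :
    16 * (1 + (2 ^ (2 * (8 * s))) ^ 3) ^ (e / (16 * s)) ≤ (2 ^ e) ^ 4 := by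
  set b := e / (16 * s) with hb
  have hbmul : b * (16 * s) ≤ e := Nat.div_mul_le_self _ _
  have h1 : 1 + (2 ^ (2 * (8 * s))) ^ 3 ≤ 2 ^ (48 * s + 1) := by
    rw [← pow_mul, pow_succ]
    have e' : 2 * (8 * s) * 3 = 48 * s := by ring
    rw [e']
    have : 1 ≤ 2 ^ (48 * s) := Nat.one_le_two_pow
    omega
  have h2 : (1 + (2 ^ (2 * (8 * s))) ^ 3) ^ b ≤ 2 ^ ((48 * s + 1) * b) := by
    calc (1 + (2 ^ (2 * (8 * s))) ^ 3) ^ b ≤ (2 ^ (48 * s + 1)) ^ b := Nat.pow_le_pow_left h1 b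
      _ = 2 ^ ((48 * s + 1) * b) := (pow_mul _ _ _).symm
  have hX : b ≤ s * b := Nat.le_mul_of_pos_left _ (by omega)
  have h3 : 4 + (48 * s + 1) * b ≤ e * 4 := by
    have e1 : (48 * s + 1) * b = 48 * (s * b) + b := by ring
    have e2 : b * (16 * s) = 16 * (s * b) := by ring
    rw [e1]
    rw [e2] at hbmul
    omega
  calc 16 * (1 + (2 ^ (2 * (8 * s))) ^ 3) ^ b ≤ 2 ^ 4 * 2 ^ ((48 * s + 1) * b) :=
        Nat.mul_le_mul (by norm_num) h2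
    _ = 2 ^ (4 + (48 * s + 1) * b) := (pow_add 2 _ _).symm
    _ ≤ 2 ^ (e * 4) := Nat.pow_le_pow_right (by norm_num) h3
    _ = (2 ^ e) ^ 4 := pow_mul 2 e 4

/-- The elements: a product of two lifted primes. -/
lemma UF_elem (N₁ N₂ c G x y : ℕ) (hN₁ : 0 < N₁) (hN₂ : 0 < N₂) (hc : N₁ * N₂ ∣ c) (hc0 : 0 < c)
    (hG0 : 0 < G) (hx : UF ((x : ℚ) / N₁) 4) (hy : UF ((y : ℚ) / N₂) 4) :
    UF (((x * y : ℕ) : ℚ) / ((c * G : ℕ) : ℚ)) 16 := by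
  obtain ⟨d, hd⟩ := hc
  have hd0 : 0 < d := by
    rw [hd] at hc0
    exact Nat.pos_of_mul_pos_left hc0
  have h := (hx.mul hy).div_nat (d * G) (Nat.mul_pos hd0 hG0)
  have e : ((x * y : ℕ) : ℚ) / ((c * G : ℕ) : ℚ) =
      (x : ℚ) / N₁ * ((y : ℚ) / N₂) / ((d * G : ℕ) : ℚ) := by
    have h1 : (N₁ : ℚ) ≠ 0 := by exact_mod_cast hN₁.ne'
    have h2 : (N₂ : ℚ) ≠ 0 := by exact_mod_cast hN₂.ne'
    have h3 : (d : ℚ) ≠ 0 := by exact_mod_cast hd0.ne'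
    have h4 : (G : ℚ) ≠ 0 := by exact_mod_cast hG0.ne'
    rw [hd]
    push_cast
    field_simp
  rw [e]
  exact h

/-- One level at scale `k`, using the two families of lifted primes. -/
theorem level_T (s k c N₁ N₂ G T : ℕ) (T₁ T₂ : Finset ℕ) (ex : ℕ)
    (hs : 10 ≤ s) (hkle : k + 1 ≤ s) (hex : 16 * s ≤ ex) (hexk : ex ≤ 2 ^ k)
    (hT₁card : T₁.card = 2 ^ ex) (hT₂card : T₂.card = 2 ^ ex)
    (hT₁le : ∀ t ∈ T₁, t ≤ 2 ^ (2 ^ k)) (hT₂le : ∀ t ∈ T₂, t ≤ 2 ^ (2 ^ k))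
    (hT₁uf : ∀ t ∈ T₁, UF ((t : ℚ) / N₁) 4) (hT₂uf : ∀ t ∈ T₂, UF ((t : ℚ) / N₂) 4)
    (hN₁ : 0 < N₁) (hN₂ : 0 < N₂) (hc : N₁ * N₂ ∣ c) (hc0 : 0 < c)
    (hG0 : 0 < G) (hgood : GoodUF G (c * G) T) (hGlo : 2 ^ (2 * 2 ^ k + 2) ≤ G) :
    ∃ P : ℕ, 0 < P ∧ 2 ^ (8 * s * (ex / (16 * s))) ≤ P ∧ GoodUF (G * P) (c * (G * P)) (T + 64) := by
  classical
  set b := ex / (16 * s) with hb
  have hbpos : 0 < b := Nat.div_pos hex (by omega)
  have hbex : b ≤ ex := Nat.div_le_self _ _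
  have hbles : b ≤ 2 ^ s :=
    (hbex.trans hexk).trans (Nat.pow_le_pow_right (by norm_num) (by omega))
  set F : Fin 8 → Finset ℕ := fun i => if i.val % 2 = 0 then T₁ else T₂ with hF
  have hFcard : ∀ i, (F i).card = 2 ^ ex := by
    intro i
    simp only [hF]
    split_ifs
    · exact hT₁card
    · exact hT₂card
  have hFle : ∀ i, ∀ t ∈ F i, t ≤ 2 ^ (2 ^ k) := by
    intro i t ht
    simp only [hF] at ht
    split_ifs at ht
    · exact hT₁le t ht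
    · exact hT₂le t ht
  set Q := pool (2 ^ (8 * s)) (2 ^ (2 * (8 * s))) 1 with hQdef
  have hQ1 : ∀ q ∈ Q, q.Prime ∧ q ≤ 2 ^ (2 * (8 * s)) := fun q hq =>
    ⟨(mem_pool.mp hq).1.2, (mem_pool.mp hq).1.1⟩
  have hQ2 : ∀ q ∈ Q, q.Prime ∧ 2 ^ (8 * s) < q := fun q hq =>
    ⟨(mem_pool.mp hq).1.2, (mem_pool.mp hq).2.1⟩
  have hω : ∀ i, ∀ z ∈ F i, ∀ z' ∈ F i, z ≠ z' →
      (Q.filter (fun q => q ∣ gap (z, z'))).card ≤ 2 ^ k + 1 := by
    intro i z hz z' hz' hzz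
    have hle : ∀ y ∈ F i, y ≤ 2 ^ (8 * s * (2 ^ k + 1)) := by
      intro y hy
      refine (hFle i y hy).trans (Nat.pow_le_pow_right (by norm_num) ?_)
      nlinarith [Nat.one_le_two_pow (n := k)]
    exact card_primes_dvd_le Q (8 * s) (2 ^ k + 1) (gap (z, z')) (by omega) hQ2
      (gap_ne_zero z z' hzz) (gap_le z z' _ (hle z hz) (hle z' hz'))
  have hpool := pool_large s 1 hs one_ne_zero (by simp)
  have hw : 2 ^ k + 1 ≤ 2 ^ s := by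
    have h1 : 2 ^ k < 2 ^ s := Nat.pow_lt_pow_right (by norm_num) (by omega)
    omega
  set Lw := 2 ^ (13 * s) * (2 ^ k + 1) * b with hLw
  have hLwpos : 0 < Lw := by
    rw [hLw]
    exact Nat.mul_pos (Nat.mul_pos (by positivity) (Nat.succ_pos _)) hbpos
  have hLwle : Lw ≤ 2 ^ (15 * s) := by
    calc Lw ≤ 2 ^ (13 * s) * 2 ^ s * 2 ^ s := by
          rw [hLw]
          exact Nat.mul_le_mul (Nat.mul_le_mul le_rfl hw) hbles
      _ = 2 ^ (15 * s) := by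
          rw [← pow_add, ← pow_add]
          congr 1
          ring
  have hcard : b + Lw ≤ Q.card := by
    refine le_trans ?_ hpool
    have e : 2 ^ (15 * s + 1) = 2 * 2 ^ (15 * s) := by rw [pow_succ]; ring
    have h1 : 2 ^ s ≤ 2 ^ (15 * s) := Nat.pow_le_pow_right (by norm_num) (by omega)
    omega
  obtain ⟨B, hBQ, hBb, hcov⟩ := batch F (2 ^ ex) (2 ^ (13 * s)) (2 ^ k + 1) Lw b
    (2 ^ (2 * (8 * s))) Q hFcard hbpos hLwpos (by positivity) hQ1 hω hcard le_rfl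
    (numeric_C1E s ex (by omega) hex) (numeric_C2R s b (by omega) hbles)
  have hBprime : ∀ q ∈ B, q.Prime := fun q hq => (hQ1 q (hBQ hq)).1
  set P := ∏ q ∈ B, q with hPdef
  have hP0 : 0 < P := prod_primes_pos B hBprime
  have hPlow : 2 ^ (8 * s * b) ≤ P := by
    have h1 : (2 ^ (8 * s)) ^ B.card ≤ ∏ q ∈ B, q :=
      Finset.pow_card_le_prod _ _ _ (fun q hq => (mem_pool.mp (hBQ hq)).2.1.le)
    rw [hBb, ← pow_mul] at h1
    exact h1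
  refine ⟨P, hP0, hPlow, ?_⟩
  have hNpos : 0 < c * G := Nat.mul_pos hc0 hG0
  have hstep := good_stepUF G (c * G) P T 64 hNpos hP0 ?_ hgood
  · have e : c * (G * P) = c * G * P := by ring
    rw [e]
    exact hstep
  · intro t
    obtain ⟨x₁, hx₁, y₁, hy₁, x₂, hx₂, y₂, hy₂, x₃, hx₃, y₃, hy₃, x₄, hx₄, y₄, hy₄, hsum⟩ :=
      hcov (t : ZMod P)
    have hF0 : F 0 = T₁ := by simp [hF]
    have hF1 : F 1 = T₂ := by simp [hF]
    have hF2 : F 2 = T₁ := by simp [hF]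
    have hF3 : F 3 = T₂ := by simp [hF]
    have hF4 : F 4 = T₁ := by simp [hF]
    have hF5 : F 5 = T₂ := by simp [hF]
    have hF6 : F 6 = T₁ := by simp [hF]
    have hF7 : F 7 = T₂ := by simp [hF]
    rw [hF0] at hx₁
    rw [hF1] at hy₁
    rw [hF2] at hx₂
    rw [hF3] at hy₂
    rw [hF4] at hx₃
    rw [hF5] at hy₃
    rw [hF6] at hx₄
    rw [hF7] at hy₄
    refine ⟨x₁ * y₁ + x₂ * y₂ + x₃ * y₃ + x₄ * y₄, ?_, hsum, ?_⟩
    · have hsq : ∀ x ∈ T₁, ∀ y ∈ T₂, x * y ≤ 2 ^ (2 * 2 ^ k) := by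
        intro x hx y hy
        calc x * y ≤ 2 ^ (2 ^ k) * 2 ^ (2 ^ k) := Nat.mul_le_mul (hT₁le x hx) (hT₂le y hy)
          _ = 2 ^ (2 * 2 ^ k) := by rw [← pow_add]; congr 1; ring
      have h1 := hsq x₁ hx₁ y₁ hy₁
      have h2 := hsq x₂ hx₂ y₂ hy₂
      have h3 := hsq x₃ hx₃ y₃ hy₃
      have h4 := hsq x₄ hx₄ y₄ hy₄
      have e : 2 ^ (2 * 2 ^ k + 2) = 4 * 2 ^ (2 * 2 ^ k) := by rw [pow_add]; ring
      omega
    · have u1 := UF_elem N₁ N₂ c G x₁ y₁ hN₁ hN₂ hc hc0 hG0 (hT₁uf _ hx₁) (hT₂uf _ hy₁)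
      have u2 := UF_elem N₁ N₂ c G x₂ y₂ hN₁ hN₂ hc hc0 hG0 (hT₁uf _ hx₂) (hT₂uf _ hy₂)
      have u3 := UF_elem N₁ N₂ c G x₃ y₃ hN₁ hN₂ hc hc0 hG0 (hT₁uf _ hx₃) (hT₂uf _ hy₃)
      have u4 := UF_elem N₁ N₂ c G x₄ y₄ hN₁ hN₂ hc hc0 hG0 (hT₁uf _ hx₄) (hT₂uf _ hy₄)
      have h := ((u1.add u2).add u3).add u4
      have e : ((x₁ * y₁ + x₂ * y₂ + x₃ * y₃ + x₄ * y₄ : ℕ) : ℚ) / ((c * G : ℕ) : ℚ)
          = ((x₁ * y₁ : ℕ) : ℚ) / ((c * G : ℕ) : ℚ) + ((x₂ * y₂ : ℕ) : ℚ) / ((c * G : ℕ) : ℚ)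
            + ((x₃ * y₃ : ℕ) : ℚ) / ((c * G : ℕ) : ℚ) + ((x₄ * y₄ : ℕ) : ℚ) / ((c * G : ℕ) : ℚ) := by
        push_cast
        ring
      rw [e]
      exact h

end P012Egypt
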