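import Vale.Agent.P012.Chain3

open Finset

namespace P012Egypt

/-- `x` is a sum of at most `k` unit fractions, repetitions allowed. -/
def UF (x : ℚ) (k : ℕ) : Prop :=
  ∃ M : Multiset ℕ, M.card ≤ k ∧ (∀ n ∈ M, 0 < n) ∧ (M.map (fun n : ℕ => (1 : ℚ) / n)).sum = x

lemma UF.mono {x : ℚ} {k l : ℕ} (h : UF x k) (hkl : k ≤ l) : UF x l := by
  obtain ⟨M, h1, h2, h3⟩ := h
  exact ⟨M, h1.trans hkl, h2, h3⟩

lemma UF.zero (k : ℕ) : UF 0 k := ⟨0, by simp, by simp, by simp⟩

lemma UF.single (n : ℕ) (hn : 0 < n) : UF ((1 : ℚ) / n) 1 :=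
  ⟨{n}, by simp, by simpa using hn, by simp⟩

lemma UF.add {x y : ℚ} {k l : ℕ} (hx : UF x k) (hy : UF y l) : UF (x + y) (k + l) := by
  obtain ⟨M, h1, h2, h3⟩ := hx
  obtain ⟨M', h1', h2', h3'⟩ := hy
  refine ⟨M + M', ?_, ?_, ?_⟩
  · rw [Multiset.card_add]
    omega
  · intro n hn
    rcases Multiset.mem_add.mp hn with hn | hn
    · exact h2 n hn
    · exact h2' n hn
  · rw [Multiset.map_add, Multiset.sum_add, h3, h3']

lemma sum_map_scale (M : Multiset ℕ) (n : ℕ) :
    ((M.map (fun m => m * n)).map (fun m : ℕ => (1 : ℚ) / m)).sum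
      = (M.map (fun m : ℕ => (1 : ℚ) / m)).sum / n := by
  rw [Multiset.map_map, div_eq_mul_inv, ← Multiset.sum_map_mul_right]
  congr 1
  refine Multiset.map_congr rfl (fun m _ => ?_)
  simp only [Function.comp_apply]
  push_cast
  rw [one_div, mul_inv, one_div]

lemma UF.div_nat {x : ℚ} {k : ℕ} (hx : UF x k) (n : ℕ) (hn : 0 < n) : UF (x / n) k := by
  obtain ⟨M, h1, h2, h3⟩ := hx
  refine ⟨M.map (fun m => m * n), by simpa using h1, ?_, ?_⟩
  · intro m hm
    obtain ⟨a, ha, rfl⟩ := Multiset.mem_map.mp hm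
    exact Nat.mul_pos (h2 a ha) hn
  · rw [sum_map_scale, h3]

lemma UF.mul {x y : ℚ} {k l : ℕ} (hx : UF x k) (hy : UF y l) : UF (x * y) (k * l) := by
  obtain ⟨M, h1, h2, h3⟩ := hx
  have key : ∀ M : Multiset ℕ, (∀ n ∈ M, 0 < n) →
      UF ((M.map (fun n : ℕ => (1 : ℚ) / n)).sum * y) (M.card * l) := by
    intro M
    induction M using Multiset.induction_on with
    | empty =>
      intro _
      simpa using UF.zero 0
    | cons a s ih =>
      intro h
      have h1 := ih (fun n hn => h n (Multiset.mem_cons_of_mem hn))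
      have ha : 0 < a := h a (Multiset.mem_cons_self a s)
      have h2 := hy.div_nat a ha
      have h3 := h2.add h1
      have e : (1 : ℚ) / a * y + (s.map (fun n : ℕ => (1 : ℚ) / n)).sum * y
          = (((a ::ₘ s).map (fun n : ℕ => (1 : ℚ) / n)).sum) * y := by
        simp only [Multiset.map_cons, Multiset.sum_cons]
        ring
      have e2 : y / a = (1 : ℚ) / a * y := by ring
      rw [e2, e] at h3
      refine h3.mono ?_
      simp only [Multiset.card_cons]
      have : (s.card + 1) * l = l + s.card * l := by ring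
      omega
  rw [← h3]
  exact (key M h2).mono (Nat.mul_le_mul_right _ h1)

/-- Removing repetitions from a sum of unit fractions whose denominators are divisible by a large
power of two. -/
lemma merge_multiset (τ : ℕ) : ∀ (M : Multiset ℕ), M.card ≤ τ → (∀ n ∈ M, 0 < n ∧ 2 ^ τ ∣ n) →
    ∃ S : Finset ℕ, S.card ≤ M.card ∧ (∀ n ∈ S, 0 < n) ∧
      ∑ n ∈ S, (1 : ℚ) / n = (M.map (fun n : ℕ => (1 : ℚ) / n)).sum := by
  classical
  induction τ with
  | zero =>
    intro M hM _
    have h0 : M = 0 := Multiset.card_eq_zero.mp (by omega)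
    subst h0
    exact ⟨∅, by simp, by simp, by simp⟩
  | succ τ ih =>
    intro M hM hdiv
    by_cases hnd : M.Nodup
    · refine ⟨M.toFinset, ?_, ?_, ?_⟩
      · rw [Multiset.toFinset_card_of_nodup hnd]
      · intro n hn
        exact (hdiv n (Multiset.mem_toFinset.mp hn)).1
      · unfold Finset.sum
        rw [Multiset.toFinset_val, Multiset.dedup_eq_self.mpr hnd]
    · rw [Multiset.nodup_iff_count_le_one] at hnd
      push Not at hnd
      obtain ⟨a, ha⟩ := hnd
      have h2 : Multiset.replicate 2 a ≤ M := Multiset.le_count_iff_replicate_le.mp (by omega)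
      obtain ⟨M', rfl⟩ := Multiset.le_iff_exists_add.mp h2
      have hamem : a ∈ Multiset.replicate 2 a + M' :=
        Multiset.mem_add.mpr (Or.inl (Multiset.mem_replicate.mpr ⟨by norm_num, rfl⟩))
      obtain ⟨ha0, ⟨c, hc⟩⟩ := hdiv a hamem
      have hcard : (Multiset.replicate 2 a + M').card = 2 + M'.card := by
        rw [Multiset.card_add, Multiset.card_replicate]
      have e2 : 2 ^ (τ + 1) = 2 * 2 ^ τ := by rw [pow_succ]; ring
      have hahalf : a = 2 * (2 ^ τ * c) := by rw [hc, e2]; ring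
      set a' := 2 ^ τ * c with ha'
      have ha'pos : 0 < a' := by omega
      obtain ⟨S, h1, h3, h4⟩ := ih (a' ::ₘ M') (by simp; omega) (by
        intro n hn
        rcases Multiset.mem_cons.mp hn with rfl | hn
        · exact ⟨ha'pos, Dvd.intro _ rfl⟩
        · have := hdiv n (Multiset.mem_add.mpr (Or.inr hn))
          refine ⟨this.1, ?_⟩
          refine (?_ : 2 ^ τ ∣ 2 ^ (τ + 1)).trans this.2
          exact Dvd.intro_left 2 (by rw [pow_succ]; ring))
      refine ⟨S, ?_, h3, ?_⟩
      · have e3 : (a' ::ₘ M').card = M'.card + 1 := by simp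
        omega
      · rw [h4]
        have : Multiset.replicate 2 a = a ::ₘ a ::ₘ 0 := by
          simp [Multiset.replicate_succ]
        rw [this]
        simp only [Multiset.map_cons, Multiset.sum_cons, Multiset.cons_add, Multiset.zero_add]
        have hq : (a' : ℚ) ≠ 0 := by exact_mod_cast ha'pos.ne'
        have e4 : (a : ℚ) = 2 * a' := by rw [hahalf]; push_cast; ring
        rw [e4]
        field_simp
        ring

lemma UF_div_of_dvd (N z p : ℕ) (hN : 0 < N) (hp : 0 < p) (hz : z ∣ N) :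
    UF ((z : ℚ) / (N * p)) 1 := by
  obtain ⟨z', rfl⟩ := hz
  have hz0 : 0 < z := Nat.pos_of_mul_pos_right hN
  have hz'0 : 0 < z' := Nat.pos_of_mul_pos_left hN
  have h := UF.single (z' * p) (Nat.mul_pos hz'0 hp)
  convert h using 1
  push_cast
  have h1 : (z : ℚ) ≠ 0 := by exact_mod_cast hz0.ne'
  have h2 : (z' : ℚ) ≠ 0 := by exact_mod_cast hz'0.ne'
  have h3 : (p : ℚ) ≠ 0 := by exact_mod_cast hp.ne'
  field_simp

/-- The key identity: if `t * p` is a sum of four divisors of `N`, then `t / N` is a sum of four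
unit fractions. -/
lemma UF_of_dvd_sum (N t p a b c d : ℕ) (hN : 0 < N) (hp : 0 < p)
    (ha : a ∣ N) (hb : b ∣ N) (hc : c ∣ N) (hd : d ∣ N)
    (hs : a + b + c + d = t * p) : UF ((t : ℚ) / N) 4 := by
  have h := (((UF_div_of_dvd N a p hN hp ha).add (UF_div_of_dvd N b p hN hp hb)).add
    (UF_div_of_dvd N c p hN hp hc)).add (UF_div_of_dvd N d p hN hp hd)
  have hN' : (N : ℚ) ≠ 0 := by exact_mod_cast hN.ne'
  have hp' : (p : ℚ) ≠ 0 := by exact_mod_cast hp.ne'
  have hs' : (a : ℚ) + b + c + d = t * p := by exact_mod_cast hs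
  convert h using 1
  rw [← add_div, ← add_div, ← add_div, hs']
  field_simp

end P012Egypt
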