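import Vale.Agent.P012.Level

open Finset

namespace P012Egypt

lemma eighty_mul_le (ν : ℕ) (hν : 24 ≤ ν) : 80 * ν ≤ 2 ^ ν := by
  induction ν, hν using Nat.le_induction with
  | base => norm_num
  | succ n hn ih =>
    rw [pow_succ]
    omega

/-- Numeric verification for a level in phase `ν`. -/
lemma numeric_C1 (ν : ℕ) (hν : 24 ≤ ν) :
    16 * (1 + (2 ^ (2 * (5 * ν))) ^ 3) ^ (2 ^ ν / (80 * ν)) ≤ (2 ^ (2 ^ (ν - 3) - 1)) ^ 4 := by
  set b := 2 ^ ν / (80 * ν) with hb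
  set n := 2 ^ ν with hn
  set k := 2 ^ (ν - 3) with hk
  have h8k : 8 * k = n := by
    rw [hk, hn]
    have : ν = (ν - 3) + 3 := by omega
    conv_rhs => rw [this, pow_add]
    ring
  have hbmul : b * (80 * ν) ≤ n := Nat.div_mul_le_self _ _
  have hnbig : 2 ^ 24 ≤ n := Nat.pow_le_pow_right (by norm_num) hν
  have h1 : 1 + (2 ^ (2 * (5 * ν))) ^ 3 ≤ 2 ^ (30 * ν + 1) := by
    rw [← pow_mul, pow_succ]
    have e : 2 * (5 * ν) * 3 = 30 * ν := by ring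
    rw [e]
    have : 1 ≤ 2 ^ (30 * ν) := Nat.one_le_two_pow
    omega
  have h2 : (1 + (2 ^ (2 * (5 * ν))) ^ 3) ^ b ≤ 2 ^ ((30 * ν + 1) * b) := by
    calc (1 + (2 ^ (2 * (5 * ν))) ^ 3) ^ b ≤ (2 ^ (30 * ν + 1)) ^ b := Nat.pow_le_pow_left h1 b
      _ = 2 ^ ((30 * ν + 1) * b) := (pow_mul _ _ _).symm
  have hX : ν * b = b * ν := mul_comm _ _
  have hbν : b ≤ ν * b := Nat.le_mul_of_pos_left _ (by omega)
  have h3 : 4 + (30 * ν + 1) * b ≤ (k - 1) * 4 := by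
    have e : (30 * ν + 1) * b = 30 * (ν * b) + b := by ring
    have e2 : b * (80 * ν) = 80 * (ν * b) := by ring
    rw [e]
    rw [e2] at hbmul
    have : 1 ≤ k := Nat.one_le_two_pow
    omega
  calc 16 * (1 + (2 ^ (2 * (5 * ν))) ^ 3) ^ b ≤ 2 ^ 4 * 2 ^ ((30 * ν + 1) * b) := by
        exact Nat.mul_le_mul (by norm_num) h2
    _ = 2 ^ (4 + (30 * ν + 1) * b) := by rw [pow_add]
    _ ≤ 2 ^ ((k - 1) * 4) := Nat.pow_le_pow_right (by norm_num) h3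
    _ = (2 ^ (k - 1)) ^ 4 := by rw [pow_mul]

lemma numeric_C2 (ν : ℕ) (hν : 24 ≤ ν) :
    2 ^ 24 * (2 ^ ν / (80 * ν)) * (2 ^ (2 * (5 * ν))) ^ 3 ≤ (2 ^ (8 * ν)) ^ 4 := by
  have h1 : 2 ^ ν / (80 * ν) ≤ 2 ^ ν := Nat.div_le_self _ _
  calc 2 ^ 24 * (2 ^ ν / (80 * ν)) * (2 ^ (2 * (5 * ν))) ^ 3
      ≤ 2 ^ 24 * 2 ^ ν * (2 ^ (2 * (5 * ν))) ^ 3 := by gcongr
    _ = 2 ^ (24 + ν + 2 * (5 * ν) * 3) := by rw [pow_add, pow_add, pow_mul _ (2 * (5 * ν)) 3]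
    _ ≤ 2 ^ (8 * ν * 4) := Nat.pow_le_pow_right (by norm_num) (by omega)
    _ = (2 ^ (8 * ν)) ^ 4 := by rw [pow_mul]

lemma numeric_card (ν N : ℕ) (hν : 24 ≤ ν) (hN : N ≠ 0) (hhi : N.primeFactors.card ≤ 2 ^ (ν + 7)) :
    2 ^ ν / (80 * ν) + 2 ^ (8 * ν) * (2 * 2 ^ (ν - 3)) * (2 ^ ν / (80 * ν))
      ≤ (pool (2 ^ (5 * ν)) (2 ^ (2 * (5 * ν))) N).card := by
  set b := 2 ^ ν / (80 * ν) with hb
  set k := 2 ^ (ν - 3) with hk
  set G := 2 ^ (8 * ν) with hG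
  set Lw := G * (2 * k) * b with hLw
  set Pc := (pool (2 ^ (5 * ν)) (2 ^ (2 * (5 * ν))) N).card with hPc
  set s := 10 * ν with hs
  have hs1 : 1 ≤ s := by omega
  have hcheb := two_pow_le_primeCounting s hs1
  have hexp : 2 * (5 * ν) = s := by omega
  have hpool := primeCounting_le_pool (2 ^ (5 * ν)) (2 ^ (2 * (5 * ν))) N hN
  rw [hexp] at hpool
  have hPc' : Pc = (pool (2 ^ (5 * ν)) (2 ^ s) N).card := by rw [hPc, hexp]
  rw [← hPc'] at hpool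
  -- main estimate
  have hY' : 2 ^ s = 32 * 2 ^ (s - 5) := by
    have : s = (s - 5) + 5 := by omega
    conv_lhs => rw [this, pow_add]
    ring
  set Y' := 2 ^ (s - 5) with hY'def
  have hbmul : b * (80 * ν) ≤ 2 ^ ν := Nat.div_mul_le_self _ _
  have h8k : 8 * k = 2 ^ ν := by
    rw [hk]
    have : ν = (ν - 3) + 3 := by omega
    conv_rhs => rw [this, pow_add]
    ring
  have hsb : s * b ≤ k := by
    have e : b * (80 * ν) = 8 * (s * b) := by rw [hs]; ring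
    omega
  have hsLw : s * Lw ≤ Y' := by
    have e : s * Lw = (s * b) * (G * (2 * k)) := by rw [hLw]; ring
    rw [e]
    calc (s * b) * (G * (2 * k)) ≤ k * (G * (2 * k)) := Nat.mul_le_mul_right _ hsb
      _ = Y' := by
        rw [hY'def, hk, hG]
        have e1 : 2 ^ (ν - 3) * (2 ^ (8 * ν) * (2 * 2 ^ (ν - 3)))
            = 2 ^ ((ν - 3) + (8 * ν + (1 + (ν - 3)))) := by
          rw [pow_add, pow_add, pow_add]
          ring
        rw [e1]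
        congr 1
        omega
  have hs2 : s ≤ 2 ^ ν := by
    have := eighty_mul_le ν hν
    omega
  have hnY : 2 ^ ν ≤ Y' := Nat.pow_le_pow_right (by norm_num) (by omega)
  have hsL : s * 2 ^ (5 * ν) ≤ Y' := by
    calc s * 2 ^ (5 * ν) ≤ 2 ^ ν * 2 ^ (5 * ν) := Nat.mul_le_mul_right _ hs2
      _ = 2 ^ (ν + 5 * ν) := by rw [pow_add]
      _ ≤ Y' := Nat.pow_le_pow_right (by norm_num) (by omega)
  have hsPF : s * N.primeFactors.card ≤ Y' := by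
    calc s * N.primeFactors.card ≤ 2 ^ ν * 2 ^ (ν + 7) := Nat.mul_le_mul hs2 hhi
      _ = 2 ^ (ν + (ν + 7)) := by rw [pow_add 2 ν (ν + 7)]
      _ ≤ Y' := Nat.pow_le_pow_right (by norm_num) (by omega)
  have hkY : k ≤ Y' := Nat.pow_le_pow_right (by norm_num) (by omega)
  have hone : 1 ≤ Y' := Nat.one_le_two_pow
  by_contra hcon
  push Not at hcon
  have h1 : Pc + 1 ≤ b + Lw := hcon
  have h2 : s * (Pc + 1) ≤ s * (b + Lw) := Nat.mul_le_mul_left _ h1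
  have h3 : s * Nat.primeCounting (2 ^ s) ≤ s * (Pc + 2 ^ (5 * ν) + N.primeFactors.card) :=
    Nat.mul_le_mul_left _ hpool
  have e1 : s * (Pc + 1) = s * Pc + s := by ring
  have e2 : s * (b + Lw) = s * b + s * Lw := by ring
  have e3 : s * (Pc + 2 ^ (5 * ν) + N.primeFactors.card)
      = s * Pc + s * 2 ^ (5 * ν) + s * N.primeFactors.card := by ring
  omega

/-- One level in phase `ν`. -/
theorem level_step (ν N T : ℕ) (hν : 24 ≤ ν) (hN : 0 < N) (h6 : 6 ∣ N) (hGood : Good N T)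
    (hlo : 2 ^ ν + 2 ≤ N.primeFactors.card) (hhi : N.primeFactors.card ≤ 2 ^ (ν + 7))
    (hprimes : ∀ p ∈ N.primeFactors, p ≤ 2 ^ (10 * ν)) :
    ∃ N' : ℕ, 0 < N' ∧ 6 ∣ N' ∧ Good N' (T + 4) ∧
      N'.primeFactors.card = N.primeFactors.card + 2 ^ ν / (80 * ν) ∧
      ∀ p ∈ N'.primeFactors, p ≤ 2 ^ (10 * ν) := by
  classical
  have h80 := eighty_mul_le ν hν
  have hbpos : 0 < 2 ^ ν / (80 * ν) := Nat.div_pos h80 (by omega)
  have hk : 8 * 2 ^ (ν - 3) = 2 ^ ν := by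
    have : ν = (ν - 3) + 3 := by omega
    conv_rhs => rw [this, pow_add]
    ring
  have hkpos : 0 < 2 ^ (ν - 3) := by positivity
  have hGpos : 0 < 2 ^ (8 * ν) := by positivity
  have hexp : 2 * (5 * ν) = 10 * ν := by ring
  obtain ⟨B, hBQ, hBb, hBgood⟩ := level_generic N T (5 * ν) (2 ^ (ν - 3)) (2 ^ ν / (80 * ν))
    (2 ^ (8 * ν)) (2 ^ (8 * ν) * (2 * 2 ^ (ν - 3)) * (2 ^ ν / (80 * ν))) hN h6 hGood (by omega)
    hkpos (by omega) (by rw [hexp]; exact hprimes) hbpos (by positivity) hGpos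
    (numeric_card ν N hν hN.ne' hhi) le_rfl (numeric_C1 ν hν) (numeric_C2 ν hν)
  have hBprime : ∀ q ∈ B, q.Prime := fun q hq => (mem_pool.mp (hBQ hq)).1.2
  have hBle : ∀ q ∈ B, q ≤ 2 ^ (10 * ν) := fun q hq => by
    have := (mem_pool.mp (hBQ hq)).1.1
    rwa [hexp] at this
  have hBndvd : ∀ q ∈ B, ¬ q ∣ N := fun q hq => (mem_pool.mp (hBQ hq)).2.2
  have hPpos : 0 < ∏ q ∈ B, q := prod_primes_pos B hBprime
  have hPF : (N * ∏ q ∈ B, q).primeFactors = N.primeFactors ∪ B := by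
    rw [Nat.primeFactors_mul hN.ne' hPpos.ne', Nat.primeFactors_prod hBprime]
  refine ⟨N * ∏ q ∈ B, q, Nat.mul_pos hN hPpos, h6.trans (Nat.dvd_mul_right _ _), hBgood, ?_, ?_⟩
  · rw [hPF, Finset.card_union_of_disjoint, hBb]
    rw [Finset.disjoint_left]
    intro p hp hpB
    exact hBndvd p hpB (Nat.dvd_of_mem_primeFactors hp)
  · intro p hp
    rw [hPF] at hp
    rcases Finset.mem_union.mp hp with hp | hp
    · exact hprimes p hp
    · exact hBle p hp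

/-- The state at the start of phase `ν`. -/
def Inv (ν N T : ℕ) : Prop :=
  0 < N ∧ 6 ∣ N ∧ Good N T ∧ 2 ^ ν + 2 ≤ N.primeFactors.card ∧
    N.primeFactors.card ≤ 2 ^ (ν + 6) ∧ ∀ p ∈ N.primeFactors, p ≤ 2 ^ (10 * ν)

theorem phase_iter (ν N T : ℕ) (hν : 24 ≤ ν) (hI : Inv ν N T) (m : ℕ) (hm : m ≤ 160 * ν) :
    ∃ N' : ℕ, 0 < N' ∧ 6 ∣ N' ∧ Good N' (T + 4 * m) ∧
      N'.primeFactors.card = N.primeFactors.card + m * (2 ^ ν / (80 * ν)) ∧
      ∀ p ∈ N'.primeFactors, p ≤ 2 ^ (10 * ν) := by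
  obtain ⟨hN, h6, hGood, hlo, hhi, hprimes⟩ := hI
  have hbmul : 2 ^ ν / (80 * ν) * (80 * ν) ≤ 2 ^ ν := Nat.div_mul_le_self _ _
  induction m with
  | zero => exact ⟨N, hN, h6, by simpa using hGood, by simp, hprimes⟩
  | succ m ih =>
    obtain ⟨N', h1, h2, h3, h4, h5⟩ := ih (by omega)
    have hmb : m * (2 ^ ν / (80 * ν)) ≤ 2 * 2 ^ ν := by
      calc m * (2 ^ ν / (80 * ν)) ≤ (160 * ν) * (2 ^ ν / (80 * ν)) :=
            Nat.mul_le_mul_right _ (by omega)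
        _ = 2 * (2 ^ ν / (80 * ν) * (80 * ν)) := by ring
        _ ≤ 2 * 2 ^ ν := Nat.mul_le_mul_left _ hbmul
    have hp7 : 2 ^ (ν + 7) = 2 * 2 ^ (ν + 6) := by rw [pow_succ (2 : ℕ) (ν + 6)]; ring
    have hp6 : 2 ^ (ν + 6) = 64 * 2 ^ ν := by rw [pow_add]; ring
    obtain ⟨N'', g1, g2, g3, g4, g5⟩ := level_step ν N' (T + 4 * m) hν h1 h2 h3
      (by omega) (by omega) h5
    refine ⟨N'', g1, g2, ?_, ?_, g5⟩
    · have e : T + 4 * (m + 1) = T + 4 * m + 4 := by ring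
      rw [e]
      exact g3
    · rw [g4, h4]
      ring

theorem phase_step (ν N T : ℕ) (hν : 24 ≤ ν) (hI : Inv ν N T) :
    ∃ N' : ℕ, Inv (ν + 1) N' (T + 640 * ν) := by
  obtain ⟨N', h1, h2, h3, h4, h5⟩ := phase_iter ν N T hν hI (160 * ν) le_rfl
  obtain ⟨hN, h6, hGood, hlo, hhi, hprimes⟩ := hI
  have h80 := eighty_mul_le ν hν
  have hbpos : 0 < 2 ^ ν / (80 * ν) := Nat.div_pos h80 (by omega)
  have hbmul : 2 ^ ν / (80 * ν) * (80 * ν) ≤ 2 ^ ν := Nat.div_mul_le_self _ _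
  have hdiv := Nat.div_add_mod (2 ^ ν) (80 * ν)
  have hmod : 2 ^ ν % (80 * ν) < 80 * ν := Nat.mod_lt _ (by omega)
  have hb1 : 80 * ν ≤ 80 * ν * (2 ^ ν / (80 * ν)) := Nat.le_mul_of_pos_right _ hbpos
  have e : 160 * ν * (2 ^ ν / (80 * ν)) = 2 * (80 * ν * (2 ^ ν / (80 * ν))) := by ring
  have e' : 2 ^ ν / (80 * ν) * (80 * ν) = 80 * ν * (2 ^ ν / (80 * ν)) := by ring
  have hp1 : 2 ^ (ν + 1) = 2 * 2 ^ ν := by rw [pow_succ]; ring
  have hp6 : 2 ^ (ν + 1 + 6) = 128 * 2 ^ ν := by rw [pow_add, pow_succ]; ring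
  have hp6' : 2 ^ (ν + 6) = 64 * 2 ^ ν := by rw [pow_add]; ring
  have hpow : (1 : ℕ) ≤ 2 ^ ν := Nat.one_le_two_pow
  refine ⟨N', h1, h2, ?_, ?_, ?_, ?_⟩
  · have e2 : T + 640 * ν = T + 4 * (160 * ν) := by ring
    rw [e2]
    exact h3
  · omega
  · omega
  · intro p hp
    exact (h5 p hp).trans (Nat.pow_le_pow_right (by norm_num) (by omega))

/-- The base of the induction. -/
theorem base_inv (x : ℕ) (hx6 : 6 ≤ x) (hxle : x ≤ 2 ^ 30)
    (hπ : 2 ^ 24 + 2 ≤ Nat.primeCounting x) : Inv 24 x.factorial x := by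
  classical
  have hPF : x.factorial.primeFactors = Nat.primesLE x := by
    ext p
    simp only [Nat.mem_primeFactors, Nat.mem_primesLE]
    constructor
    · rintro ⟨hp, hd, _⟩
      exact ⟨(Nat.Prime.dvd_factorial hp).mp hd, hp⟩
    · rintro ⟨hle, hp⟩
      exact ⟨hp, (Nat.Prime.dvd_factorial hp).mpr hle, (Nat.factorial_pos x).ne'⟩
  have hcard : x.factorial.primeFactors.card = Nat.primeCounting x := by
    rw [hPF, Nat.primesLE_card_eq_primeCounting]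
  have hle : Nat.primeCounting x ≤ x := by
    rw [← Nat.primesLE_card_eq_primeCounting]
    have hsub : Nat.primesLE x ⊆ Finset.Icc 1 x := by
      intro p hp
      have := Nat.mem_primesLE.mp hp
      exact Finset.mem_Icc.mpr ⟨this.2.one_lt.le, this.1⟩
    simpa using Finset.card_le_card hsub
  refine ⟨Nat.factorial_pos x, Nat.dvd_factorial (by norm_num) hx6, good_factorial x (by omega),
    ?_, ?_, ?_⟩
  · rw [hcard]
    exact hπ
  · rw [hcard]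
    exact hle.trans hxle
  · intro p hp
    rw [hPF] at hp
    have := (Nat.mem_primesLE.mp hp).1
    exact this.trans (hxle.trans (Nat.pow_le_pow_right (by norm_num) (by norm_num)))

theorem exists_base : ∃ N, Inv 24 N (2 ^ 30) := by
  have h := two_pow_le_primeCounting 30 (by norm_num)
  exact ⟨_, base_inv (2 ^ 30) (by norm_num) le_rfl (by norm_num at h ⊢; omega)⟩

theorem exists_inv (K : ℕ) (hK : 24 ≤ K) : ∃ N, Inv K N (2 ^ 30 + 320 * K ^ 2) := by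
  have hmono : ∀ {ν N T T' : ℕ}, T ≤ T' → Inv ν N T → Inv ν N T' := by
    intro ν N T T' hT hI
    obtain ⟨a1, a2, a3, a4⟩ := hI
    exact ⟨a1, a2, good_mono a3 hT, a4⟩
  induction K, hK using Nat.le_induction with
  | base =>
    obtain ⟨N, hN⟩ := exists_base
    exact ⟨N, hmono (by omega) hN⟩
  | succ K hK ih =>
    obtain ⟨N, hN⟩ := ih
    obtain ⟨N', hN'⟩ := phase_step K N _ hK hN
    refine ⟨N', hmono ?_ hN'⟩
    nlinarith

/-- A number from the sequence beats any given size. -/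
theorem exists_good (K : ℕ) (hK : 24 ≤ K) :
    ∃ N, 2 ^ (2 ^ K) ≤ N ∧ Good N (2 ^ 30 + 320 * K ^ 2) := by
  obtain ⟨N, hN, _, hGood, hlo, _, _⟩ := exists_inv K hK
  refine ⟨N, ?_, hGood⟩
  have h1 : ∏ p ∈ N.primeFactors, p ≤ N :=
    Nat.le_of_dvd hN (Nat.prod_primeFactors_dvd N)
  have h2 : 2 ^ N.primeFactors.card ≤ ∏ p ∈ N.primeFactors, p :=
    Finset.pow_card_le_prod _ _ _ (fun p hp => (Nat.prime_of_mem_primeFactors hp).two_le)
  have h3 : 2 ^ (2 ^ K) ≤ 2 ^ N.primeFactors.card :=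
    Nat.pow_le_pow_right (by norm_num) (by omega)
  exact h3.trans (h2.trans h1)

end P012Egypt
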