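import Vale.Agent.P012.Cover

open Finset

namespace P012Egypt

noncomputable section

/-- The absolute difference of a pair. -/
def gap (p : ℕ × ℕ) : ℕ := ((p.1 : ℤ) - (p.2 : ℤ)).natAbs

/-- Number of off-diagonal pairs of `Z` whose difference is divisible by all of `J`. -/
def off (Z J : Finset ℕ) : ℕ :=
  ((Z ×ˢ Z).filter (fun p => p.1 ≠ p.2 ∧ ∀ q ∈ J, q ∣ gap p)).card

lemma coll_le (Z J : Finset ℕ) : coll (∏ q ∈ J, q) Z ≤ Z.card + off Z J := by
  classical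
  unfold coll off
  have hsub : (Z ×ˢ Z).filter (fun p => (p.1 : ZMod (∏ q ∈ J, q)) = (p.2 : ZMod (∏ q ∈ J, q)))
      ⊆ (Z.image (fun z => (z, z))) ∪
        (Z ×ˢ Z).filter (fun p => p.1 ≠ p.2 ∧ ∀ q ∈ J, q ∣ gap p) := by
    rintro ⟨x, y⟩ hp
    obtain ⟨hp1, hp2⟩ := Finset.mem_filter.mp hp
    obtain ⟨hx, hy⟩ := Finset.mem_product.mp hp1
    simp only at hx hy hp2
    by_cases hxy : x = y
    · subst hxy
      exact Finset.mem_union_left _ (Finset.mem_image.mpr ⟨x, hx, rfl⟩)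
    · refine Finset.mem_union_right _ (Finset.mem_filter.mpr ⟨hp1, hxy, fun q hq => ?_⟩)
      have h1 : ((∏ q ∈ J, q : ℕ) : ℤ) ∣ (y : ℤ) - (x : ℤ) :=
        (Nat.modEq_iff_dvd).mp ((ZMod.natCast_eq_natCast_iff _ _ _).mp hp2)
      have h2 : ((∏ q ∈ J, q : ℕ) : ℤ) ∣ (x : ℤ) - (y : ℤ) := by
        have := (dvd_neg (a := ((∏ q ∈ J, q : ℕ) : ℤ))).mpr h1
        simpa using this
      have h3 : (∏ q ∈ J, q) ∣ ((x : ℤ) - (y : ℤ)).natAbs := Int.natCast_dvd.mp h2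
      exact (Finset.dvd_prod_of_mem _ hq).trans h3
  refine (Finset.card_le_card hsub).trans ((Finset.card_union_le _ _).trans ?_)
  gcongr
  exact Finset.card_image_le

/-- The potential. -/
def Psi (F : Fin 8 → Finset ℕ) (G : ℕ) (B : Finset ℕ) : ℕ :=
  ∑ i, ∑ J ∈ B.powerset, off (F i) J * G ^ J.card

lemma off_insert_sum (Z J Q : Finset ℕ) (ω : ℕ)
    (hω : ∀ z ∈ Z, ∀ z' ∈ Z, z ≠ z' → (Q.filter (fun q => q ∣ gap (z, z'))).card ≤ ω) :
    ∑ q ∈ Q, off Z (insert q J) ≤ ω * off Z J := by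
  classical
  unfold off
  have h1 : ∀ q ∈ Q, ((Z ×ˢ Z).filter (fun p => p.1 ≠ p.2 ∧ ∀ r ∈ insert q J, r ∣ gap p)).card
      = (((Z ×ˢ Z).filter (fun p => p.1 ≠ p.2 ∧ ∀ r ∈ J, r ∣ gap p)).filter
          (fun p => q ∣ gap p)).card := by
    intro q _
    rw [Finset.filter_filter]
    congr 1
    refine Finset.filter_congr (fun p _ => ?_)
    simp only [Finset.mem_insert, forall_eq_or_imp]
    tauto
  rw [Finset.sum_congr rfl h1]
  set S := (Z ×ˢ Z).filter (fun p => p.1 ≠ p.2 ∧ ∀ r ∈ J, r ∣ gap p) with hS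
  calc ∑ q ∈ Q, (S.filter (fun p => q ∣ gap p)).card
      = ∑ p ∈ S, (Q.filter (fun q => q ∣ gap p)).card := by
        simp only [Finset.card_filter]
        rw [Finset.sum_comm]
    _ ≤ ∑ _p ∈ S, ω := by
        refine Finset.sum_le_sum (fun p hp => ?_)
        obtain ⟨hp1, hp2, _⟩ := Finset.mem_filter.mp hp
        obtain ⟨hx, hy⟩ := Finset.mem_product.mp hp1
        exact hω p.1 hx p.2 hy hp2
    _ = ω * S.card := by simp [mul_comm]

lemma Psi_insert (F : Fin 8 → Finset ℕ) (G : ℕ) (B : Finset ℕ) (q : ℕ) (hq : q ∉ B) :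
    Psi F G (insert q B) = Psi F G B
      + ∑ i, ∑ J ∈ B.powerset, off (F i) (insert q J) * G ^ (J.card + 1) := by
  classical
  unfold Psi
  rw [← Finset.sum_add_distrib]
  refine Finset.sum_congr rfl (fun i _ => ?_)
  rw [Finset.sum_powerset_insert hq]
  congr 1
  refine Finset.sum_congr rfl (fun J hJ => ?_)
  have hqJ : q ∉ J := fun h => hq (Finset.mem_powerset.mp hJ h)
  rw [Finset.card_insert_of_notMem hqJ]

lemma Psi_sum_le (F : Fin 8 → Finset ℕ) (G ω : ℕ) (B Q : Finset ℕ) (hQB : ∀ q ∈ Q, q ∉ B)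
    (hω : ∀ i, ∀ z ∈ F i, ∀ z' ∈ F i, z ≠ z' → (Q.filter (fun q => q ∣ gap (z, z'))).card ≤ ω) :
    ∑ q ∈ Q, Psi F G (insert q B) ≤ (Q.card + G * ω) * Psi F G B := by
  classical
  have h1 : ∑ q ∈ Q, Psi F G (insert q B) = Q.card * Psi F G B
      + ∑ q ∈ Q, ∑ i, ∑ J ∈ B.powerset, off (F i) (insert q J) * G ^ (J.card + 1) := by
    rw [Finset.sum_congr rfl (fun q hq => Psi_insert F G B q (hQB q hq))]
    rw [Finset.sum_add_distrib]
    simp
  rw [h1, add_mul]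
  refine Nat.add_le_add_left ?_ _
  rw [Finset.sum_comm]
  unfold Psi
  rw [Finset.mul_sum]
  refine Finset.sum_le_sum (fun i _ => ?_)
  rw [Finset.sum_comm, Finset.mul_sum]
  refine Finset.sum_le_sum (fun J _ => ?_)
  rw [← Finset.sum_mul]
  have h2 := off_insert_sum (F i) J Q ω (hω i)
  calc (∑ q ∈ Q, off (F i) (insert q J)) * G ^ (J.card + 1)
      ≤ (ω * off (F i) J) * G ^ (J.card + 1) := Nat.mul_le_mul_right _ h2
    _ = G * ω * (off (F i) J * G ^ J.card) := by ring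

/-- One greedy step. -/
lemma Psi_step (F : Fin 8 → Finset ℕ) (G ω : ℕ) (B Q : Finset ℕ) (hQ : Q.Nonempty)
    (hQB : ∀ q ∈ Q, q ∉ B)
    (hω : ∀ i, ∀ z ∈ F i, ∀ z' ∈ F i, z ≠ z' → (Q.filter (fun q => q ∣ gap (z, z'))).card ≤ ω) :
    ∃ q ∈ Q, Q.card * Psi F G (insert q B) ≤ (Q.card + G * ω) * Psi F G B := by
  classical
  by_contra hcon
  push Not at hcon
  have h1 := Psi_sum_le F G ω B Q hQB hω
  have h2 : ∑ q ∈ Q, (Q.card + G * ω) * Psi F G B < ∑ q ∈ Q, Q.card * Psi F G (insert q B) :=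
    Finset.sum_lt_sum_of_nonempty hQ hcon
  rw [Finset.sum_const, ← Finset.mul_sum, smul_eq_mul] at h2
  have h3 : Q.card * ∑ q ∈ Q, Psi F G (insert q B) ≤ Q.card * ((Q.card + G * ω) * Psi F G B) :=
    Nat.mul_le_mul_left _ h1
  exact absurd h2 (not_lt.mpr h3)

/-- Iterating the greedy step `k` times. -/
lemma Psi_iter (F : Fin 8 → Finset ℕ) (G ω Lw : ℕ) (Q : Finset ℕ) (hLw : 0 < Lw)
    (hω : ∀ i, ∀ z ∈ F i, ∀ z' ∈ F i, z ≠ z' → (Q.filter (fun q => q ∣ gap (z, z'))).card ≤ ω)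
    (k : ℕ) (hk : k + Lw ≤ Q.card) :
    ∃ B ⊆ Q, B.card = k ∧
      (Psi F G B : ℝ) ≤ (1 + (G : ℝ) * ω / Lw) ^ k * (Psi F G ∅ : ℝ) := by
  classical
  induction k with
  | zero => exact ⟨∅, by simp, by simp, by simp⟩
  | succ k ih =>
    obtain ⟨B, hBQ, hBk, hB⟩ := ih (by omega)
    have hcard : Lw ≤ (Q \ B).card := by
      have := Finset.le_card_sdiff B Q
      omega
    have hne : (Q \ B).Nonempty := by
      rw [← Finset.card_pos]
      omega
    have hω' : ∀ i, ∀ z ∈ F i, ∀ z' ∈ F i, z ≠ z' →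
        ((Q \ B).filter (fun q => q ∣ gap (z, z'))).card ≤ ω := by
      intro i z hz z' hz' hzz
      exact (Finset.card_le_card (Finset.filter_subset_filter _ Finset.sdiff_subset)).trans
        (hω i z hz z' hz' hzz)
    obtain ⟨q, hq, hqle⟩ := Psi_step F G ω B (Q \ B) hne
      (fun q hq => (Finset.mem_sdiff.mp hq).2) hω'
    refine ⟨insert q B, ?_, ?_, ?_⟩
    · exact Finset.insert_subset (Finset.mem_sdiff.mp hq).1 hBQ
    · rw [Finset.card_insert_of_notMem (Finset.mem_sdiff.mp hq).2, hBk]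
    · have hLwr : (0 : ℝ) < Lw := by exact_mod_cast hLw
      have hQr : (Lw : ℝ) ≤ ((Q \ B).card : ℝ) := by exact_mod_cast hcard
      have hQr0 : (0 : ℝ) < ((Q \ B).card : ℝ) := lt_of_lt_of_le hLwr hQr
      have h1 : (((Q \ B).card : ℝ)) * (Psi F G (insert q B) : ℝ)
          ≤ (((Q \ B).card : ℝ) + (G : ℝ) * ω) * (Psi F G B : ℝ) := by exact_mod_cast hqle
      have hP0 : (0 : ℝ) ≤ (Psi F G B : ℝ) := Nat.cast_nonneg _
      have hGω : (0 : ℝ) ≤ (G : ℝ) * ω := by positivity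
      have h2 : (Psi F G (insert q B) : ℝ) ≤ (1 + (G : ℝ) * ω / Lw) * (Psi F G B : ℝ) := by
        have h3 : (Psi F G (insert q B) : ℝ)
            ≤ (1 + (G : ℝ) * ω / ((Q \ B).card : ℝ)) * (Psi F G B : ℝ) := by
          have : (1 + (G : ℝ) * ω / ((Q \ B).card : ℝ)) * (Psi F G B : ℝ)
              = (((Q \ B).card : ℝ) + (G : ℝ) * ω) * (Psi F G B : ℝ) / ((Q \ B).card : ℝ) := by
            field_simp
          rw [this, le_div_iff₀ hQr0]
          linarith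
        refine h3.trans ?_
        gcongr
      calc (Psi F G (insert q B) : ℝ) ≤ (1 + (G : ℝ) * ω / Lw) * (Psi F G B : ℝ) := h2
        _ ≤ (1 + (G : ℝ) * ω / Lw) * ((1 + (G : ℝ) * ω / Lw) ^ k * (Psi F G ∅ : ℝ)) := by
            gcongr
        _ = (1 + (G : ℝ) * ω / Lw) ^ (k + 1) * (Psi F G ∅ : ℝ) := by ring

lemma Psi_empty_le (F : Fin 8 → Finset ℕ) (G A : ℕ) (hF : ∀ i, (F i).card = A) :
    Psi F G ∅ ≤ 8 * A ^ 2 := by
  classical
  unfold Psi
  have h1 : ∀ i : Fin 8, ∑ J ∈ (∅ : Finset ℕ).powerset, off (F i) J * G ^ J.card ≤ A ^ 2 := by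
    intro i
    simp only [Finset.powerset_empty, Finset.sum_singleton, Finset.card_empty, pow_zero, mul_one]
    unfold off
    refine (Finset.card_filter_le _ _).trans ?_
    rw [Finset.card_product, hF i]
    exact le_of_eq (by ring)
  calc ∑ i : Fin 8, ∑ J ∈ (∅ : Finset ℕ).powerset, off (F i) J * G ^ J.card
      ≤ ∑ _i : Fin 8, A ^ 2 := Finset.sum_le_sum (fun i _ => h1 i)
    _ = 8 * A ^ 2 := by simp

/-- The pointwise bound extracted from the potential. -/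
lemma off_le_Psi (F : Fin 8 → Finset ℕ) (G : ℕ) (B J : Finset ℕ) (hJ : J ⊆ B) (i : Fin 8) :
    off (F i) J * G ^ J.card ≤ Psi F G B := by
  classical
  unfold Psi
  have h1 : off (F i) J * G ^ J.card ≤ ∑ J ∈ B.powerset, off (F i) J * G ^ J.card :=
    Finset.single_le_sum (f := fun J => off (F i) J * G ^ J.card) (fun _ _ => Nat.zero_le _)
      (Finset.mem_powerset.mpr hJ)
  exact h1.trans (Finset.single_le_sum (f := fun i => ∑ J ∈ B.powerset, off (F i) J * G ^ J.card)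
    (fun _ _ => Nat.zero_le _) (Finset.mem_univ i))

/-- Selection of a batch with controlled collisions. -/
theorem select_batch (F : Fin 8 → Finset ℕ) (A G ω Lw b : ℕ) (Q : Finset ℕ)
    (hF : ∀ i, (F i).card = A) (hb : 0 < b) (hLw : 0 < Lw)
    (hω : ∀ i, ∀ z ∈ F i, ∀ z' ∈ F i, z ≠ z' → (Q.filter (fun q => q ∣ gap (z, z'))).card ≤ ω)
    (hcard : b + Lw ≤ Q.card) (hGω : G * ω * b ≤ Lw) :
    ∃ B ⊆ Q, B.card = b ∧ ∀ J ⊆ B, ∀ i, off (F i) J * G ^ J.card ≤ 24 * A ^ 2 := by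
  obtain ⟨B, hBQ, hBk, hB⟩ := Psi_iter F G ω Lw Q hLw hω b hcard
  refine ⟨B, hBQ, hBk, fun J hJ i => ?_⟩
  have hLwr : (0 : ℝ) < Lw := by exact_mod_cast hLw
  have hbr : (0 : ℝ) < b := by exact_mod_cast hb
  have h1 : (G : ℝ) * ω / Lw ≤ 1 / b := by
    rw [div_le_div_iff₀ hLwr hbr]
    have : ((G * ω * b : ℕ) : ℝ) ≤ (Lw : ℝ) := by exact_mod_cast hGω
    push_cast at this
    linarith
  have h2 : (1 + (G : ℝ) * ω / Lw) ^ b ≤ 3 := by
    have h3 : 1 + (G : ℝ) * ω / Lw ≤ Real.exp (1 / b) := by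
      have := Real.add_one_le_exp (1 / (b : ℝ))
      linarith
    have h4 : (0 : ℝ) ≤ 1 + (G : ℝ) * ω / Lw := by positivity
    calc (1 + (G : ℝ) * ω / Lw) ^ b ≤ (Real.exp (1 / b)) ^ b := by gcongr
      _ = Real.exp 1 := by
          rw [← Real.exp_nat_mul]
          congr 1
          field_simp
      _ ≤ 3 := by
          have := Real.exp_one_lt_d9
          linarith
  have h3 : (Psi F G B : ℝ) ≤ 3 * (8 * (A : ℝ) ^ 2) := by
    have h4 : (Psi F G ∅ : ℝ) ≤ 8 * (A : ℝ) ^ 2 := by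
      exact_mod_cast Psi_empty_le F G A hF
    have h5 : (0 : ℝ) ≤ (Psi F G ∅ : ℝ) := Nat.cast_nonneg _
    calc (Psi F G B : ℝ) ≤ (1 + (G : ℝ) * ω / Lw) ^ b * (Psi F G ∅ : ℝ) := hB
      _ ≤ 3 * (8 * (A : ℝ) ^ 2) := by gcongr
  have h4 : Psi F G B ≤ 24 * A ^ 2 := by
    have : (Psi F G B : ℝ) ≤ ((24 * A ^ 2 : ℕ) : ℝ) := by
      push_cast
      linarith
    exact_mod_cast this
  exact (off_le_Psi F G B J hJ i).trans h4

end

end P012Egypt
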