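import Vale.Agent.P012.Lift

open Finset

namespace P012Egypt

lemma k_add_two_le (k : ℕ) (hk : 4 ≤ k) : k + 2 ≤ 2 ^ (k - 1) := by
  induction k, hk using Nat.le_induction with
  | base => norm_num
  | succ n hn ih =>
    have e : n + 1 - 1 = (n - 1) + 1 := by omega
    rw [e, pow_succ]
    omega

lemma eight_k_lt (k : ℕ) (hk : 6 ≤ k) : 8 * k + 4 < 2 ^ k := by
  induction k, hk using Nat.le_induction with
  | base => norm_num
  | succ n hn ih =>
    rw [pow_succ]
    omega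

lemma off_le_sq (Z J : Finset ℕ) : off Z J ≤ Z.card ^ 2 := by
  unfold off
  refine (Finset.card_filter_le _ _).trans (le_of_eq ?_)
  rw [Finset.card_product, sq]

/-- Lower bound for the number of primes in a dyadic-like range. -/
lemma pool_card_lower (k : ℕ) (hk : 6 ≤ k) :
    2 ^ (2 ^ k - k - 1) ≤ (pool (2 ^ (2 ^ (k - 1))) (2 ^ (2 ^ k)) 1).card := by
  set h := 2 ^ (k - 1) with hh
  have hl : 2 ^ k = 2 * h := by
    rw [hh, ← pow_succ']
    congr 1
    omega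
  have hh2 := k_add_two_le k (by omega)
  rw [← hh] at hh2
  set l := 2 ^ k with hldef
  have hcheb := two_pow_le_primeCounting l (by omega)
  have hpool := primeCounting_le_pool (2 ^ h) (2 ^ l) 1 one_ne_zero
  simp only [Nat.primeFactors_one, Finset.card_empty, add_zero] at hpool
  set D := (pool (2 ^ h) (2 ^ l) 1).card with hD
  by_contra hcon
  push Not at hcon
  set E := 2 ^ (l - k - 1) with hE
  have h1 : Nat.primeCounting (2 ^ l) ≤ E + 2 ^ h := by omega
  have h2 : l * Nat.primeCounting (2 ^ l) ≤ l * (E + 2 ^ h) := Nat.mul_le_mul_left _ h1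
  have e1 : 2 ^ l = 2 * (l * E) := by
    rw [hE, hldef, ← pow_add, ← pow_succ']
    congr 1
    omega
  have e2 : l * 2 ^ h = 2 ^ (k + h) := by
    rw [hldef, pow_add]
  have h3 : 2 ^ (k + h + 1) ≤ l * E := by
    rw [hE, hldef, ← pow_add]
    refine Nat.pow_le_pow_right (by norm_num) ?_
    omega
  have e3 : 2 ^ (k + h + 1) = 2 * 2 ^ (k + h) := by rw [pow_succ]; ring
  have h4 : l + 1 < 2 ^ (k + h) := by
    have h5 : 2 ^ k * 2 ^ 1 ≤ 2 ^ k * 2 ^ h :=
      Nat.mul_le_mul_left _ (Nat.pow_le_pow_right (by norm_num) (by omega))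
    rw [← pow_add] at h5
    have h6 : 2 ^ k * 2 ^ 1 = 2 * l := by rw [hldef]; ring
    have h7 : 1 ≤ l := by omega
    have h8 : 2 ^ (k + h) = 2 ^ k * 2 ^ h := pow_add _ _ _
    rw [h8]
    have h9 : 2 < l := by
      have : 2 ^ 2 ≤ 2 ^ k := Nat.pow_le_pow_right (by norm_num) (by omega)
      omega
    nlinarith
  have e4 : l * (E + 2 ^ h) = l * E + l * 2 ^ h := by ring
  omega

/-- A real inequality used for the single prime covering. -/
lemma real_key (t U A D X y : ℝ) (ht0 : 0 ≤ t) (htX : t ≤ X) (hA : 0 < A) (hD : 0 < D) (hy : 0 < y)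
    (hU0 : 0 ≤ U) (hU : U ≤ y * A ^ 2 / D) (hXD : X ≤ 2 * y * D) (hX : 16 * y ^ 8 < X) :
    t ^ 3 * U ^ 4 < A ^ 8 := by
  have hX0 : 0 < X := lt_of_le_of_lt (by positivity) hX
  have h1 : t ^ 3 ≤ X ^ 3 := by gcongr
  have h2 : U ^ 4 ≤ (y * A ^ 2 / D) ^ 4 := by gcongr
  have h3 : X ^ 4 ≤ (2 * y * D) ^ 4 := by gcongr
  have h4 : X ^ 3 * y ^ 4 < D ^ 4 := by
    have h5 : 16 * y ^ 8 * X ^ 3 < X * X ^ 3 := by
      have : 0 < X ^ 3 := by positivity
      exact mul_lt_mul_of_pos_right hX this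
    have h6 : X * X ^ 3 = X ^ 4 := by ring
    have h7 : (2 * y * D) ^ 4 = 16 * y ^ 4 * D ^ 4 := by ring
    have h8 : 16 * y ^ 4 * (X ^ 3 * y ^ 4) < 16 * y ^ 4 * D ^ 4 := by
      calc 16 * y ^ 4 * (X ^ 3 * y ^ 4) = 16 * y ^ 8 * X ^ 3 := by ring
        _ < X ^ 4 := by rw [← h6]; exact h5
        _ ≤ 16 * y ^ 4 * D ^ 4 := by rw [← h7]; exact h3
    exact lt_of_mul_lt_mul_left h8 (by positivity)
  calc t ^ 3 * U ^ 4 ≤ X ^ 3 * (y * A ^ 2 / D) ^ 4 := by gcongr
    _ = (X ^ 3 * y ^ 4) * (A ^ 8 / D ^ 4) := by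
        rw [div_pow, mul_pow]
        ring
    _ < D ^ 4 * (A ^ 8 / D ^ 4) := by
        have : 0 < A ^ 8 / D ^ 4 := by positivity
        exact mul_lt_mul_of_pos_right h4 this
    _ = A ^ 8 := by
        field_simp

/-- Most primes `t` up to `2 ^ 2 ^ k` have the property that `t / N₁` is a sum of four unit
fractions. -/
theorem exists_Tfam (N₁ s nb w k ω : ℕ) (W : ℕ → Finset ℕ) (g : ℕ → ℕ)
    (hB : BlocksR N₁ s nb W g) (hN₁ : 0 < N₁)
    (hk : 6 ≤ k) (hA : 2 ^ (2 ^ k) ≤ nb.choose w)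
    (hω1 : 1 ≤ ω) (hω2 : 17 * ω ≤ 2 ^ k)
    (hsw : s * (w + 1) ≤ 2 ^ (k - 1) * ω) :
    ∃ T : Finset ℕ, T.card = 2 ^ (2 ^ k - k - 2) ∧ (∀ t ∈ T, t ≤ 2 ^ (2 ^ k)) ∧
      ∀ t ∈ T, UF ((t : ℚ) / N₁) 4 := by
  classical
  set F : Fin 8 → Finset ℕ := fun i => famw (W i) (g i) w with hF
  set A := nb.choose w with hAdef
  have hFcard : ∀ i, (F i).card = A := by
    intro i
    simp only [hF]
    rw [card_famw _ _ _ (hB.hprime i i.2) (hB.hg i i.2), hB.hcard i i.2]
    simp [hAdef]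
  set h := 2 ^ (k - 1) with hh
  have hhpos : 0 < h := by positivity
  have hl : 2 ^ k = 2 * h := by
    rw [hh, ← pow_succ']
    congr 1
    omega
  set l := 2 ^ k with hldef
  have hh2 := k_add_two_le k (by omega)
  rw [← hh] at hh2
  set Q := pool (2 ^ h) (2 ^ l) 1 with hQ
  have hQprime : ∀ q ∈ Q, q.Prime ∧ 2 ^ h < q := fun q hq =>
    ⟨(mem_pool.mp hq).1.2, (mem_pool.mp hq).2.1⟩
  have hQle : ∀ q ∈ Q, q ≤ 2 ^ l := fun q hq => (mem_pool.mp hq).1.1
  set D := Q.card with hD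
  have hDlow : 2 ^ (l - k - 1) ≤ D := pool_card_lower k hk
  have hDpos : 0 < D := lt_of_lt_of_le (by positivity) hDlow
  have hDup : D ≤ 2 ^ l := by
    have hsub : Q ⊆ Finset.Ioc 0 (2 ^ l) := fun q hq =>
      Finset.mem_Ioc.mpr ⟨(hQprime q hq).1.pos, hQle q hq⟩
    simpa using Finset.card_le_card hsub
  have hApos : 0 < A := lt_of_lt_of_le (by positivity) hA
  have hω : ∀ i, ∀ z ∈ F i, ∀ z' ∈ F i, z ≠ z' →
      (Q.filter (fun q => q ∣ gap (z, z'))).card ≤ ω := by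
    intro i z hz z' hz' hzz
    have hle : ∀ y ∈ F i, y ≤ 2 ^ (h * ω) := by
      intro y hy
      have h1 := famw_le _ _ w (2 ^ s) (hB.hg i i.2) (hB.hle i i.2) y hy
      rw [← pow_mul] at h1
      exact h1.trans (Nat.pow_le_pow_right (by norm_num) hsw)
    exact card_primes_dvd_le Q h ω (gap (z, z')) hhpos hQprime (gap_ne_zero z z' hzz)
      (gap_le z z' _ (hle z hz) (hle z' hz'))
  -- the bad primes
  set Bad : Fin 8 → Finset ℕ := fun i =>
    Q.filter (fun q => 16 * ω * A ^ 2 < off (F i) (insert q ∅) * D) with hBad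
  have hBadcard : ∀ i, (Bad i).card * 16 ≤ D := by
    intro i
    have h1 := off_insert_sum (F i) ∅ Q ω (hω i)
    have h2 : off (F i) ∅ ≤ A ^ 2 := by
      have := off_le_sq (F i) ∅
      rwa [hFcard i] at this
    have h3 : ∑ q ∈ Q, off (F i) (insert q ∅) ≤ ω * A ^ 2 :=
      h1.trans (Nat.mul_le_mul_left _ h2)
    have h4 : ∑ q ∈ Bad i, off (F i) (insert q ∅) ≤ ∑ q ∈ Q, off (F i) (insert q ∅) :=
      Finset.sum_le_sum_of_subset (Finset.filter_subset _ _)
    have h5 : (Bad i).card * (16 * ω * A ^ 2) ≤ (∑ q ∈ Bad i, off (F i) (insert q ∅)) * D := by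
      rw [Finset.sum_mul, ← smul_eq_mul, ← Finset.sum_const]
      refine Finset.sum_le_sum (fun q hq => ?_)
      exact (Finset.mem_filter.mp hq).2.le
    have h6 : (Bad i).card * (16 * ω * A ^ 2) ≤ D * (ω * A ^ 2) := by
      calc (Bad i).card * (16 * ω * A ^ 2) ≤ (∑ q ∈ Bad i, off (F i) (insert q ∅)) * D := h5
        _ ≤ (ω * A ^ 2) * D := Nat.mul_le_mul_right _ (h4.trans h3)
        _ = D * (ω * A ^ 2) := by ring
    have h7 : 0 < ω * A ^ 2 := by positivity
    have h8 : ((Bad i).card * 16) * (ω * A ^ 2) ≤ D * (ω * A ^ 2) := by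
      calc ((Bad i).card * 16) * (ω * A ^ 2) = (Bad i).card * (16 * ω * A ^ 2) := by ring
        _ ≤ D * (ω * A ^ 2) := h6
    exact Nat.le_of_mul_le_mul_right h8 h7
  set Gd := Q.filter (fun q => ∀ i, q ∉ Bad i) with hGd
  have hGdcard : D ≤ Gd.card * 2 := by
    have hsub : Q ⊆ Gd ∪ (Finset.univ : Finset (Fin 8)).biUnion Bad := by
      intro q hq
      by_cases hall : ∀ i, q ∉ Bad i
      · exact Finset.mem_union_left _ (Finset.mem_filter.mpr ⟨hq, hall⟩)
      · push Not at hall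
        obtain ⟨i, hi⟩ := hall
        exact Finset.mem_union_right _ (Finset.mem_biUnion.mpr ⟨i, Finset.mem_univ i, hi⟩)
    have h1 := Finset.card_le_card hsub
    have h2 := Finset.card_union_le Gd ((Finset.univ : Finset (Fin 8)).biUnion Bad)
    have h3 : ((Finset.univ : Finset (Fin 8)).biUnion Bad).card ≤ ∑ i, (Bad i).card :=
      Finset.card_biUnion_le
    have h4 : (∑ i, (Bad i).card) * 16 ≤ ∑ _i : Fin 8, D := by
      rw [Finset.sum_mul]
      exact Finset.sum_le_sum (fun i _ => hBadcard i)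
    simp only [Finset.sum_const, Finset.card_univ, Fintype.card_fin, smul_eq_mul] at h4
    omega
  have hsize : 2 ^ (l - k - 2) ≤ Gd.card := by
    have e : 2 ^ (l - k - 1) = 2 * 2 ^ (l - k - 2) := by
      rw [← pow_succ']
      congr 1
      omega
    omega
  obtain ⟨T, hTsub, hTcard⟩ := Finset.exists_subset_card_eq hsize
  refine ⟨T, hTcard, fun t ht => hQle t (Finset.mem_filter.mp (hTsub ht)).1, ?_⟩
  intro t ht
  obtain ⟨htQ, htgood⟩ := Finset.mem_filter.mp (hTsub ht)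
  have htp := (hQprime t htQ).1
  -- the covering modulo the single prime `t`
  set U : ℝ := (A : ℝ) + 16 * ω * (A : ℝ) ^ 2 / D with hUdef
  have hDr : (0 : ℝ) < D := by exact_mod_cast hDpos
  have hAr : (0 : ℝ) < A := by exact_mod_cast hApos
  have hU0 : (0 : ℝ) ≤ U := by positivity
  have hoff : ∀ i, (off (F i) (insert t ∅) : ℝ) ≤ 16 * ω * (A : ℝ) ^ 2 / D := by
    intro i
    have h1 : ¬ (16 * ω * A ^ 2 < off (F i) (insert t ∅) * D) := by
      intro hlt
      exact htgood i (Finset.mem_filter.mpr ⟨htQ, hlt⟩)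
    push Not at h1
    have h2 : (off (F i) (insert t ∅) : ℝ) * D ≤ 16 * ω * (A : ℝ) ^ 2 := by exact_mod_cast h1
    rw [le_div_iff₀ hDr]
    exact h2
  have hfil : ({t} : Finset ℕ).powerset.filter Finset.Nonempty = {{t}} := by
    ext J
    simp only [Finset.mem_filter, Finset.mem_powerset, Finset.mem_singleton,
      Finset.subset_singleton_iff]
    constructor
    · rintro ⟨h1 | h1, h2⟩
      · subst h1
        simp at h2
      · exact h1
    · rintro rfl
      exact ⟨Or.inr rfl, Finset.singleton_nonempty t⟩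
  have hU : ∀ J ∈ ({t} : Finset ℕ).powerset, J.Nonempty → ∀ i,
      (coll (∏ q ∈ J, q) (F i) : ℝ) ≤ (fun _ : ℕ => U) J.card := by
    intro J hJ hJne i
    have hJ' : J = {t} := by
      have h1 := Finset.mem_filter.mpr ⟨hJ, hJne⟩
      rw [hfil] at h1
      exact Finset.mem_singleton.mp h1
    subst hJ'
    have h1 := coll_le (F i) {t}
    rw [hFcard i] at h1
    have h2 : (coll (∏ q ∈ ({t} : Finset ℕ), q) (F i) : ℝ) ≤ (A : ℝ) + (off (F i) {t} : ℝ) := by
      exact_mod_cast h1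
    have h3 := hoff i
    simp only [insert_empty_eq] at h3
    simp only [hUdef]
    linarith
  have hlt : ∑ J ∈ ({t} : Finset ℕ).powerset.filter Finset.Nonempty,
      ((∏ q ∈ J, q : ℕ) : ℝ) ^ 3 * ((fun _ : ℕ => U) J.card) ^ 4
      < ∏ i, ((F i).card : ℝ) := by
    rw [hfil, Finset.sum_singleton, Finset.prod_singleton]
    simp only [hFcard, Finset.prod_const, Finset.card_univ, Fintype.card_fin]
    have hy : (0 : ℝ) < (2 : ℝ) ^ k := by positivity
    have hXeq : ((2 : ℝ) ^ l) = ((2 ^ l : ℕ) : ℝ) := by push_cast; rfl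
    refine real_key (t : ℝ) U A D ((2 : ℝ) ^ l) ((2 : ℝ) ^ k) (Nat.cast_nonneg _) ?_ hAr hDr hy hU0
      ?_ ?_ ?_
    · rw [hXeq]
      exact_mod_cast hQle t htQ
    · -- bound for `U`
      have h1 : (A : ℝ) ≤ (A : ℝ) ^ 2 / D := by
        rw [le_div_iff₀ hDr, sq]
        have : (D : ℝ) ≤ A := by
          have : D ≤ A := hDup.trans hA
          exact_mod_cast this
        gcongr
      have h2 : (17 : ℝ) * ω ≤ (2 : ℝ) ^ k := by exact_mod_cast hω2
      have h3 : (1 : ℝ) ≤ ω := by exact_mod_cast hω1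
      have h4 : 0 ≤ (A : ℝ) ^ 2 / D := by positivity
      have e : 16 * (ω : ℝ) * (A : ℝ) ^ 2 / D = 16 * ω * ((A : ℝ) ^ 2 / D) := by ring
      have e2 : (2 : ℝ) ^ k * (A : ℝ) ^ 2 / D = (2 : ℝ) ^ k * ((A : ℝ) ^ 2 / D) := by ring
      simp only [hUdef]
      rw [e, e2]
      nlinarith
    · -- size of `D`
      have h1 : 2 ^ l ≤ 2 * 2 ^ k * D := by
        calc 2 ^ l = 2 * 2 ^ k * 2 ^ (l - k - 1) := by
              rw [← pow_succ', ← pow_add]
              congr 1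
              omega
          _ ≤ 2 * 2 ^ k * D := Nat.mul_le_mul_left _ hDlow
      have h2 : (((2 ^ l : ℕ) : ℝ)) ≤ ((2 * 2 ^ k * D : ℕ) : ℝ) := by exact_mod_cast h1
      rw [hXeq]
      push_cast at h2 ⊢
      exact h2
    · have h1 := eight_k_lt k hk
      have h2 : 16 * (2 ^ k) ^ 8 < 2 ^ l := by
        calc 16 * (2 ^ k) ^ 8 = 2 ^ (8 * k + 4) := by
              rw [← pow_mul, show (16 : ℕ) = 2 ^ 4 by norm_num, ← pow_add]
              congr 1
              ring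
          _ < 2 ^ l := Nat.pow_lt_pow_right (by norm_num) h1
      have h3 : ((16 * (2 ^ k) ^ 8 : ℕ) : ℝ) < ((2 ^ l : ℕ) : ℝ) := by exact_mod_cast h2
      push_cast at h3
      exact h3
  have hcov := cover_main {t} (by simpa using htp) F (fun _ => U) (fun _ => hU0) hU hlt
    ((0 : ℕ) : ZMod (∏ q ∈ ({t} : Finset ℕ), q))
  obtain ⟨x₁, hx₁, y₁, hy₁, x₂, hx₂, y₂, hy₂, x₃, hx₃, y₃, hy₃, x₄, hx₄, y₄, hy₄, hsum⟩ := hcov
  have hdvd : t ∣ x₁ * y₁ + x₂ * y₂ + x₃ * y₃ + x₄ * y₄ := by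
    have h1 : (((x₁ * y₁ + x₂ * y₂ + x₃ * y₃ + x₄ * y₄ : ℕ)) : ZMod t) = 0 := by
      have h2 := hsum
      rw [Finset.prod_singleton] at h2
      simpa using h2
    exact (ZMod.natCast_eq_zero_iff _ _).mp h1
  have d1 := hB.pair_dvd (i := 0) (j := 1) (by omega) (by omega) (by omega) hx₁ hy₁
  have d2 := hB.pair_dvd (i := 2) (j := 3) (by omega) (by omega) (by omega) hx₂ hy₂
  have d3 := hB.pair_dvd (i := 4) (j := 5) (by omega) (by omega) (by omega) hx₃ hy₃
  have d4 := hB.pair_dvd (i := 6) (j := 7) (by omega) (by omega) (by omega) hx₄ hy₄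
  have p1 : 0 < x₁ * y₁ := Nat.pos_of_dvd_of_pos d1 hN₁
  obtain ⟨p, hp⟩ := hdvd
  have hppos : 0 < p := by
    rcases Nat.eq_zero_or_pos p with h0 | h0
    · subst h0
      rw [Nat.mul_zero] at hp
      omega
    · exact h0
  exact UF_of_dvd_sum N₁ t p _ _ _ _ hN₁ hppos d1 d2 d3 d4 hp

end P012Egypt
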