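import Vale.Agent.P012.Chain3

open Finset

namespace P012Egypt

/-- `x` is a sum of at most `T` unit fractions, with repetitions allowed. -/
def UFq (x : ℚ) (T : ℕ) : Prop :=
  ∃ M : Multiset ℕ, Multiset.card M ≤ T ∧ (∀ n ∈ M, 0 < n) ∧
    (M.map (fun n : ℕ => (1 : ℚ) / (n : ℚ))).sum = x

lemma UFq.mono {x : ℚ} {T T' : ℕ} (h : UFq x T) (hT : T ≤ T') : UFq x T' := by
  obtain ⟨M, h1, h2, h3⟩ := h
  exact ⟨M, h1.trans hT, h2, h3⟩

lemma UFq.zero : UFq 0 0 := ⟨0, by simp, by simp, by simp⟩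

lemma UFq.unit {n : ℕ} (hn : 0 < n) : UFq ((1 : ℚ) / (n : ℚ)) 1 :=
  ⟨{n}, by simp, by simpa using hn, by simp⟩

lemma UFq.add {x y : ℚ} {T U : ℕ} (hx : UFq x T) (hy : UFq y U) : UFq (x + y) (T + U) := by
  obtain ⟨M, h1, h2, h3⟩ := hx
  obtain ⟨M', h1', h2', h3'⟩ := hy
  refine ⟨M + M', ?_, ?_, ?_⟩
  · rw [Multiset.card_add]; omega
  · intro n hn
    rcases Multiset.mem_add.mp hn with h | h
    · exact h2 n h
    · exact h2' n h
  · rw [Multiset.map_add, Multiset.sum_add, h3, h3']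

lemma sum_scale (M : Multiset ℕ) (k : ℕ) :
    ((M.map (fun n : ℕ => k * n)).map (fun n : ℕ => (1 : ℚ) / (n : ℚ))).sum
      = (M.map (fun n : ℕ => (1 : ℚ) / (n : ℚ))).sum * (1 / (k : ℚ)) := by
  induction M using Multiset.induction_on with
  | empty => simp
  | cons n M ih =>
    simp only [Multiset.map_cons, Multiset.sum_cons, ih]
    push_cast
    ring

/-- Scaling with explicit divisibility. -/
lemma UFq.scale_dvd {x : ℚ} {T k : ℕ} (h : UFq x T) (hk : 0 < k) :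
    ∃ M : Multiset ℕ, Multiset.card M ≤ T ∧ (∀ n ∈ M, 0 < n ∧ k ∣ n) ∧
      (M.map (fun n : ℕ => (1 : ℚ) / (n : ℚ))).sum = x * (1 / (k : ℚ)) := by
  obtain ⟨M, h1, h2, h3⟩ := h
  refine ⟨M.map (fun n : ℕ => k * n), by simpa using h1, ?_, ?_⟩
  · intro n hn
    obtain ⟨m, hm, rfl⟩ := Multiset.mem_map.mp hn
    exact ⟨Nat.mul_pos hk (h2 m hm), Nat.dvd_mul_right _ _⟩
  · rw [sum_scale, h3]

lemma UFq.scale {x : ℚ} {T k : ℕ} (h : UFq x T) (hk : 0 < k) : UFq (x * (1 / (k : ℚ))) T := by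
  obtain ⟨M, h1, h2, h3⟩ := h.scale_dvd hk
  exact ⟨M, h1, fun n hn => (h2 n hn).1, h3⟩

lemma UFq.mul {x y : ℚ} {T U : ℕ} (hx : UFq x T) (hy : UFq y U) : UFq (x * y) (T * U) := by
  obtain ⟨M, h1, h2, h3⟩ := hx
  subst h3
  have key : ∀ M : Multiset ℕ, (∀ n ∈ M, 0 < n) →
      UFq ((M.map (fun n : ℕ => (1 : ℚ) / (n : ℚ))).sum * y) (Multiset.card M * U) := by
    intro M
    induction M using Multiset.induction_on with
    | empty =>
      intro _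
      simpa using UFq.zero
    | cons n M ih =>
      intro hM
      have hn : 0 < n := hM n (Multiset.mem_cons_self n M)
      have hM' : ∀ m ∈ M, 0 < m := fun m hm => hM m (Multiset.mem_cons_of_mem hm)
      have h4 := (hy.scale hn).add (ih hM')
      simp only [Multiset.map_cons, Multiset.sum_cons, Multiset.card_cons]
      have e : (1 / (n : ℚ) + (M.map (fun n : ℕ => (1 : ℚ) / (n : ℚ))).sum) * y
          = y * (1 / (n : ℚ)) + (M.map (fun n : ℕ => (1 : ℚ) / (n : ℚ))).sum * y := by ring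
      rw [e]
      refine h4.mono (le_of_eq ?_)
      ring
  exact (key M h2).mono (Nat.mul_le_mul_right _ h1)

/-- The `2`-adic weight of a multiset. -/
noncomputable def phi (M : Multiset ℕ) : ℚ :=
  (M.map (fun n : ℕ => (1 : ℚ) / 2 ^ (padicValNat 2 n))).sum

lemma phi_cons (n : ℕ) (M : Multiset ℕ) :
    phi (n ::ₘ M) = (1 : ℚ) / 2 ^ (padicValNat 2 n) + phi M := by
  simp [phi]

lemma phi_nonneg (M : Multiset ℕ) : 0 ≤ phi M := by
  induction M using Multiset.induction_on with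
  | empty => simp [phi]
  | cons n M ih =>
    rw [phi_cons]
    exact add_nonneg (by positivity) ih

lemma weight_le (M : Multiset ℕ) (n : ℕ) (hn : n ∈ M) :
    (1 : ℚ) / 2 ^ (padicValNat 2 n) ≤ phi M := by
  induction M using Multiset.induction_on with
  | empty => simp at hn
  | cons m M ih =>
    rw [phi_cons]
    rcases Multiset.mem_cons.mp hn with rfl | h
    · exact le_add_of_nonneg_right (phi_nonneg M)
    · exact le_add_of_nonneg_left (by positivity) |>.trans' (ih h)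

/-- Merging repeated unit fractions while the `2`-adic weight stays below one. -/
theorem merge_aux (m : ℕ) : ∀ M : Multiset ℕ, Multiset.card M = m → (∀ n ∈ M, 0 < n) → phi M < 1 →
    ∃ S : Finset ℕ, S.card ≤ Multiset.card M ∧ (∀ n ∈ S, 2 ≤ n) ∧
      ∑ n ∈ S, (1 : ℚ) / (n : ℚ) = (M.map (fun n : ℕ => (1 : ℚ) / (n : ℚ))).sum := by
  induction m using Nat.strong_induction_on with
  | _ m ih =>
    intro M hm hpos hphi
    classical
    have hv : ∀ n ∈ M, 1 ≤ padicValNat 2 n := by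
      intro n hn
      by_contra hcon
      have h0 : padicValNat 2 n = 0 := by omega
      have h1 := weight_le M n hn
      rw [h0] at h1
      norm_num at h1
      linarith
    by_cases hnd : M.Nodup
    · refine ⟨M.toFinset, ?_, ?_, ?_⟩
      · rw [Multiset.toFinset_card_of_nodup hnd]
      · intro n hn
        have hn' := Multiset.mem_toFinset.mp hn
        have h2 : 2 ∣ n := dvd_of_one_le_padicValNat (hv n hn')
        have h3 := hpos n hn'
        omega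
      · rw [Finset.sum_eq_multiset_sum, Multiset.toFinset_val, hnd.dedup]
    · obtain ⟨n, hn⟩ : ∃ n, 2 ≤ Multiset.count n M := by
        by_contra hcon
        push Not at hcon
        exact hnd (Multiset.nodup_iff_count_le_one.mpr (fun a => by have := hcon a; omega))
      have hle : Multiset.replicate 2 n ≤ M := Multiset.le_count_iff_replicate_le.mp hn
      obtain ⟨M', hM'⟩ := Multiset.le_iff_exists_add.mp hle
      have e : M = n ::ₘ n ::ₘ M' := by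
        rw [hM']
        simp [Multiset.replicate_succ]
      subst e
      have hmem : n ∈ n ::ₘ n ::ₘ M' := Multiset.mem_cons_self _ _
      obtain ⟨n', rfl⟩ := dvd_of_one_le_padicValNat (hv n hmem)
      have h2n : 0 < 2 * n' := hpos _ hmem
      have hn'0 : 0 < n' := by omega
      have hval : padicValNat 2 (2 * n') = padicValNat 2 n' + 1 := by
        rw [padicValNat.mul (by norm_num) hn'0.ne', padicValNat.self (by norm_num)]
        omega
      have hphi' : phi (n' ::ₘ M') = phi ((2 * n') ::ₘ (2 * n') ::ₘ M') := by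
        rw [phi_cons, phi_cons, phi_cons, hval, pow_succ]
        have : ((2 : ℚ) ^ padicValNat 2 n') ≠ 0 := by positivity
        field_simp
        ring
      have hcard : Multiset.card (n' ::ₘ M') < m := by
        rw [← hm]
        simp
      obtain ⟨S, h1, h2, h3⟩ := ih _ hcard (n' ::ₘ M') rfl (by
        intro k hk
        rcases Multiset.mem_cons.mp hk with rfl | hk
        · exact hn'0
        · exact hpos k (Multiset.mem_cons_of_mem (Multiset.mem_cons_of_mem hk))) (by rw [hphi']; exact hphi)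
      refine ⟨S, ?_, h2, ?_⟩
      · refine h1.trans ?_
        simp
      · rw [h3]
        simp only [Multiset.map_cons, Multiset.sum_cons]
        have hq : (n' : ℚ) ≠ 0 := by exact_mod_cast hn'0.ne'
        push_cast
        field_simp
        ring

theorem merge_of_dvd (M : Multiset ℕ) (E : ℕ) (hpos : ∀ n ∈ M, 0 < n ∧ 2 ^ E ∣ n)
    (hcard : Multiset.card M < 2 ^ E) :
    ∃ S : Finset ℕ, S.card ≤ Multiset.card M ∧ (∀ n ∈ S, 2 ≤ n) ∧
      ∑ n ∈ S, (1 : ℚ) / (n : ℚ) = (M.map (fun n : ℕ => (1 : ℚ) / (n : ℚ))).sum := by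
  refine merge_aux _ M rfl (fun n hn => (hpos n hn).1) ?_
  have h1 : ∀ M : Multiset ℕ, (∀ n ∈ M, 0 < n ∧ 2 ^ E ∣ n) →
      phi M ≤ (Multiset.card M : ℚ) * (1 / 2 ^ E) := by
    intro M
    induction M using Multiset.induction_on with
    | empty => simp [phi]
    | cons n M ih =>
      intro hM
      rw [phi_cons, Multiset.card_cons]
      have h2 := ih (fun k hk => hM k (Multiset.mem_cons_of_mem hk))
      obtain ⟨h3, h4⟩ := hM n (Multiset.mem_cons_self n M)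
      have h5 : E ≤ padicValNat 2 n := (padicValNat_dvd_iff_le h3.ne').mp h4
      have h6 : (1 : ℚ) / 2 ^ (padicValNat 2 n) ≤ 1 / 2 ^ E :=
        one_div_le_one_div_of_le (by positivity) (pow_le_pow_right₀ (by norm_num) h5)
      push_cast
      linarith
  have h2 := h1 M hpos
  have h3 : (Multiset.card M : ℚ) < 2 ^ E := by exact_mod_cast hcard
  refine lt_of_le_of_lt h2 ?_
  rw [mul_one_div, div_lt_one (by positivity)]
  exact h3

/-- Every `m ≤ G` has `m / N` a sum of at most `T` unit fractions. -/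
def UFG (G N T : ℕ) : Prop := ∀ m ≤ G, UFq ((m : ℚ) / (N : ℚ)) T

lemma ufg_base (R : ℕ) (hR : 0 < R) (t : ℕ) : UFG (2 ^ t) (2 ^ t * R) (t + 1) := by
  have hRq : (R : ℚ) ≠ 0 := by exact_mod_cast hR.ne'
  induction t with
  | zero =>
    intro m hm
    simp only [pow_zero] at hm
    interval_cases m
    · simpa using UFq.zero.mono (Nat.zero_le 1)
    · have := UFq.unit hR
      simpa using this
  | succ t ih =>
    intro m hm
    have hpow : 2 ^ (t + 1) = 2 * 2 ^ t := by rw [pow_succ]; ring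
    have h2m : m / 2 ≤ 2 ^ t := by omega
    have h1 := ih (m / 2) h2m
    have hmeq : m = 2 * (m / 2) + m % 2 := (Nat.div_add_mod m 2).symm
    have hr : m % 2 = 0 ∨ m % 2 = 1 := by omega
    have h2t : ((2 : ℚ) ^ t) ≠ 0 := by positivity
    have hmq : (m : ℚ) = 2 * ((m / 2 : ℕ) : ℚ) + ((m % 2 : ℕ) : ℚ) := by exact_mod_cast hmeq
    rcases hr with hr | hr
    · have e : (m : ℚ) / ((2 ^ (t + 1) * R : ℕ) : ℚ) =
          ((m / 2 : ℕ) : ℚ) / ((2 ^ t * R : ℕ) : ℚ) := by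
        rw [hmq, hr]
        push_cast
        rw [pow_succ]
        field_simp
        try ring
      rw [e]
      exact h1.mono (by omega)
    · have hR2 : 0 < 2 ^ (t + 1) * R := by positivity
      have e : (m : ℚ) / ((2 ^ (t + 1) * R : ℕ) : ℚ) =
          ((m / 2 : ℕ) : ℚ) / ((2 ^ t * R : ℕ) : ℚ) + (1 : ℚ) / ((2 ^ (t + 1) * R : ℕ) : ℚ) := by
        rw [hmq, hr]
        push_cast
        rw [pow_succ]
        field_simp
        try ring
      rw [e]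
      exact h1.add (UFq.unit hR2)

/-- The abstract level step. -/
theorem ufg_level (G N T c N' P L : ℕ) (F : Finset ℕ) (hN : N = c * c * N') (hc : 0 < c)
    (hN' : 0 < N') (hP : 0 < P) (hG : UFG G N T)
    (hF : ∀ x ∈ F, UFq ((x : ℚ) / (c : ℚ)) 4) (hFle : ∀ x ∈ F, x ≤ 2 ^ L)
    (hterm : 4 * (2 ^ L) ^ 2 ≤ G)
    (hcov : ∀ t : ZMod P, ∃ x₁ ∈ F, ∃ y₁ ∈ F, ∃ x₂ ∈ F, ∃ y₂ ∈ F, ∃ x₃ ∈ F, ∃ y₃ ∈ F,
      ∃ x₄ ∈ F, ∃ y₄ ∈ F, (((x₁ * y₁ + x₂ * y₂ + x₃ * y₃ + x₄ * y₄ : ℕ)) : ZMod P) = t) :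
    UFG (G * P) (N * P) (T + 64) := by
  intro m hm
  have hcq : (c : ℚ) ≠ 0 := by exact_mod_cast hc.ne'
  have hN'q : (N' : ℚ) ≠ 0 := by exact_mod_cast hN'.ne'
  have hPq : (P : ℚ) ≠ 0 := by exact_mod_cast hP.ne'
  by_cases hmG : m ≤ G
  · have h1 := (hG m hmG).scale hP
    have e : (m : ℚ) / ((N * P : ℕ) : ℚ) = (m : ℚ) / (N : ℚ) * (1 / (P : ℚ)) := by
      push_cast
      rw [div_mul_div_comm, mul_one]
    rw [e]
    exact h1.mono (by omega)
  · push Not at hmG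
    obtain ⟨x₁, hx₁, y₁, hy₁, x₂, hx₂, y₂, hy₂, x₃, hx₃, y₃, hy₃, x₄, hx₄, y₄, hy₄, hsum⟩ :=
      hcov (m : ZMod P)
    have hle : ∀ x ∈ F, ∀ y ∈ F, x * y ≤ (2 ^ L) ^ 2 := by
      intro x hx y hy
      rw [sq]
      exact Nat.mul_le_mul (hFle x hx) (hFle y hy)
    have hSG : x₁ * y₁ + x₂ * y₂ + x₃ * y₃ + x₄ * y₄ ≤ G := by
      have h1 := hle x₁ hx₁ y₁ hy₁
      have h2 := hle x₂ hx₂ y₂ hy₂
      have h3 := hle x₃ hx₃ y₃ hy₃
      have h4 := hle x₄ hx₄ y₄ hy₄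
      omega
    have hSm : x₁ * y₁ + x₂ * y₂ + x₃ * y₃ + x₄ * y₄ ≤ m := by omega
    have hdvd : P ∣ m - (x₁ * y₁ + x₂ * y₂ + x₃ * y₃ + x₄ * y₄) :=
      (Nat.modEq_iff_dvd' hSm).mp ((ZMod.natCast_eq_natCast_iff _ _ _).mp hsum)
    obtain ⟨m', hm'⟩ := hdvd
    have hm'G : m' ≤ G := by
      have h1 : P * m' ≤ P * G := by
        rw [← hm', mul_comm P G]
        omega
      exact Nat.le_of_mul_le_mul_left h1 hP
    have hmeq : m = P * m' + (x₁ * y₁ + x₂ * y₂ + x₃ * y₃ + x₄ * y₄) := by omega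
    have hmq : (m : ℚ) = (P : ℚ) * (m' : ℚ) + ((x₁ : ℚ) * y₁ + x₂ * y₂ + x₃ * y₃ + x₄ * y₄) := by
      exact_mod_cast hmeq
    have e : (m : ℚ) / ((N * P : ℕ) : ℚ) = (m' : ℚ) / (N : ℚ)
        + ((x₁ : ℚ) / c * ((y₁ : ℚ) / c)) * (1 / ((N' * P : ℕ) : ℚ))
        + ((x₂ : ℚ) / c * ((y₂ : ℚ) / c)) * (1 / ((N' * P : ℕ) : ℚ))
        + ((x₃ : ℚ) / c * ((y₃ : ℚ) / c)) * (1 / ((N' * P : ℕ) : ℚ))
        + ((x₄ : ℚ) / c * ((y₄ : ℚ) / c)) * (1 / ((N' * P : ℕ) : ℚ)) := by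
      rw [hmq, hN]
      push_cast
      field_simp
      try ring
    rw [e]
    have hN'P : 0 < N' * P := Nat.mul_pos hN' hP
    have t1 := hG m' hm'G
    have pr : ∀ x ∈ F, ∀ y ∈ F,
        UFq (((x : ℚ) / c * ((y : ℚ) / c)) * (1 / ((N' * P : ℕ) : ℚ))) 16 := by
      intro x hx y hy
      exact ((hF x hx).mul (hF y hy)).scale hN'P
    exact ((((t1.add (pr x₁ hx₁ y₁ hy₁)).add (pr x₂ hx₂ y₂ hy₂)).add (pr x₃ hx₃ y₃ hy₃)).add
      (pr x₄ hx₄ y₄ hy₄)).mono (by omega)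

/-- A number dividing a sum of four divisors of `c` is virtually a divisor of `c`. -/
lemma virt_of_dvd (c q d₁ d₂ d₃ d₄ : ℕ) (hc : 0 < c) (hq : 0 < q) (h1 : d₁ ∣ c) (h2 : d₂ ∣ c)
    (h3 : d₃ ∣ c) (h4 : d₄ ∣ c) (hdvd : q ∣ d₁ + d₂ + d₃ + d₄) :
    UFq ((q : ℚ) / (c : ℚ)) 4 := by
  obtain ⟨e₁, he₁⟩ := h1
  obtain ⟨e₂, he₂⟩ := h2
  obtain ⟨e₃, he₃⟩ := h3
  obtain ⟨e₄, he₄⟩ := h4
  obtain ⟨p, hp⟩ := hdvd
  have pos : ∀ d e : ℕ, c = d * e → 0 < d ∧ 0 < e := by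
    intro d e h
    have h0 : 0 < d * e := h ▸ hc
    constructor
    · exact Nat.pos_of_ne_zero (by rintro rfl; simp at h0)
    · exact Nat.pos_of_ne_zero (by rintro rfl; simp at h0)
  obtain ⟨p1, q1⟩ := pos _ _ he₁
  obtain ⟨p2, q2⟩ := pos _ _ he₂
  obtain ⟨p3, q3⟩ := pos _ _ he₃
  obtain ⟨p4, q4⟩ := pos _ _ he₄
  have hp0 : 0 < p := Nat.pos_of_ne_zero (by
    rintro rfl
    rw [mul_zero] at hp
    omega)
  have hpq : (p : ℚ) ≠ 0 := by exact_mod_cast hp0.ne'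
  have hcq : (c : ℚ) ≠ 0 := by exact_mod_cast hc.ne'
  have hqq : (d₁ : ℚ) + d₂ + d₃ + d₄ = q * p := by exact_mod_cast hp
  have a : ∀ d e : ℕ, 0 < d → 0 < e → c = d * e →
      (1 : ℚ) / ((p * e : ℕ) : ℚ) = (d : ℚ) / ((p : ℚ) * c) := by
    intro d e hd he h
    have hdq : (d : ℚ) ≠ 0 := by exact_mod_cast hd.ne'
    have heq : (e : ℚ) ≠ 0 := by exact_mod_cast he.ne'
    have hc' : (c : ℚ) = d * e := by exact_mod_cast h
    rw [hc']
    push_cast
    field_simp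
  have key : (q : ℚ) / (c : ℚ) = (1 : ℚ) / ((p * e₁ : ℕ) : ℚ) + (1 : ℚ) / ((p * e₂ : ℕ) : ℚ)
      + (1 : ℚ) / ((p * e₃ : ℕ) : ℚ) + (1 : ℚ) / ((p * e₄ : ℕ) : ℚ) := by
    rw [a _ _ p1 q1 he₁, a _ _ p2 q2 he₂, a _ _ p3 q3 he₃, a _ _ p4 q4 he₄]
    rw [← add_div, ← add_div, ← add_div, hqq]
    field_simp
  rw [key]
  exact ((UFq.unit (Nat.mul_pos hp0 q1)).add (UFq.unit (Nat.mul_pos hp0 q2))).add
    (UFq.unit (Nat.mul_pos hp0 q3)) |>.add (UFq.unit (Nat.mul_pos hp0 q4))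

/-- The reservoir of primes. -/
theorem reservoir (s K : ℕ) (hP : Params s K) :
    ∃ (c : ℕ) (W : ℕ → Finset ℕ) (g : ℕ → ℕ), 2 ≤ c ∧ c ≤ 2 ^ (2 ^ (s + 1)) ∧
      BlocksR c s (2 ^ (K + 2)) W g := by
  classical
  have hs := hP.hs
  set R := Nat.primesLE (2 ^ s) with hR
  have hcheb := two_pow_le_primeCounting s (by omega)
  have hRcard : Nat.primeCounting (2 ^ s) = R.card := by
    rw [hR, Nat.primesLE_card_eq_primeCounting]
  have hRlarge : 8 * (2 ^ (K + 2) + 1) ≤ R.card := by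
    by_contra hcon
    push Not at hcon
    have h1 := hP.h1
    have e : 2 ^ (K + 7) = 32 * 2 ^ (K + 2) := by
      rw [show K + 7 = K + 2 + 5 by ring, pow_add]
      ring
    rw [e] at h1
    have h3 : Nat.primeCounting (2 ^ s) ≤ 8 * 2 ^ (K + 2) + 8 := by omega
    have h4 : s * Nat.primeCounting (2 ^ s) ≤ s * (8 * 2 ^ (K + 2) + 8) :=
      Nat.mul_le_mul_left _ h3
    have e2 : s * (8 * 2 ^ (K + 2) + 8) = 8 * (s * 2 ^ (K + 2)) + 8 * s := by ring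
    have e4 : 32 * 2 ^ (K + 2) * s = 32 * (s * 2 ^ (K + 2)) := by ring
    have h5 : s ≤ s * 2 ^ (K + 2) := Nat.le_mul_of_pos_right _ (by positivity)
    omega
  obtain ⟨W, hW1, hW2⟩ := exists_blocks R (2 ^ (K + 2) + 1) 8 hRlarge
  have hWne : ∀ i, ∃ p, i < 8 → p ∈ W i := by
    intro i
    by_cases hi : i < 8
    · have h1 := (hW1 i hi).2
      have h2 : (W i).Nonempty := by
        rw [← Finset.card_pos, h1]
        exact Nat.succ_pos _
      obtain ⟨p, hp⟩ := h2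
      exact ⟨p, fun _ => hp⟩
    · exact ⟨0, fun h => absurd h hi⟩
  choose g hg using hWne
  have hRprime : ∀ p ∈ R, p.Prime := fun p hp => (Nat.mem_primesLE.mp hp).2
  have hRle : ∀ p ∈ R, p ≤ 2 ^ s := fun p hp => (Nat.mem_primesLE.mp hp).1
  set c := ∏ p ∈ R, p with hc
  have hcpos : 0 < c := prod_primes_pos R hRprime
  have hRne : R.Nonempty := by
    rw [← Finset.card_pos]
    have h0 : 0 < 8 * (2 ^ (K + 2) + 1) := by positivity
    exact lt_of_lt_of_le h0 hRlarge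
  have hc2 : 2 ≤ c := by
    obtain ⟨p, hp⟩ := hRne
    have h1 : p ∣ c := Finset.dvd_prod_of_mem _ hp
    exact (hRprime p hp).two_le.trans (Nat.le_of_dvd hcpos h1)
  have hcle : c ≤ 2 ^ (2 ^ (s + 1)) := by
    have hprim := primorial_le_four_pow (2 ^ s)
    have hsub : R ⊆ Finset.filter Nat.Prime (Finset.range (2 ^ s + 1)) := by
      intro p hp
      exact Finset.mem_filter.mpr ⟨Finset.mem_range.mpr (by have := hRle p hp; omega),
        hRprime p hp⟩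
    have h1 : c ∣ primorial (2 ^ s) := by
      unfold primorial
      exact Finset.prod_dvd_prod_of_subset _ _ _ hsub
    have h2 : 0 < primorial (2 ^ s) := primorial_pos _
    refine (Nat.le_of_dvd h2 h1).trans (hprim.trans (le_of_eq ?_))
    rw [show (4 : ℕ) = 2 ^ 2 by norm_num, ← pow_mul, pow_succ]
    congr 1
    ring
  refine ⟨c, W, g, hc2, hcle, ⟨?_, ?_, ?_, fun i hi => hg i hi, fun i hi => (hW1 i hi).2, hW2⟩⟩
  · exact fun i hi p hp => hRprime p ((hW1 i hi).1 hp)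
  · exact fun i hi p hp => hRle p ((hW1 i hi).1 hp)
  · intro i hi p hp
    exact Finset.dvd_prod_of_mem _ ((hW1 i hi).1 hp)

/-- Most primes of size about `2 ^ (16 * s')` are virtually divisors of the reservoir. -/
theorem virtual_large (s K s' c : ℕ) (W : ℕ → Finset ℕ) (g : ℕ → ℕ)
    (hB : BlocksR c s (2 ^ (K + 2)) W g) (hc : 0 < c) (hss : s ≤ s') (hs' : 10 ≤ s')
    (hKs : K + 1 ≤ s') (h13 : 13 * s' ≤ 2 ^ K) :
    ∃ V : Finset ℕ, 2 ^ (15 * s') ≤ V.card ∧ (∀ q ∈ V, q ≤ 2 ^ (16 * s')) ∧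
      ∀ q ∈ V, UFq ((q : ℚ) / (c : ℚ)) 4 := by
  classical
  set Q₀ := pool (2 ^ (8 * s')) (2 ^ (2 * (8 * s'))) 1 with hQ₀
  have hQ₀card : 2 ^ (15 * s' + 1) ≤ Q₀.card :=
    pool_large s' 1 hs' one_ne_zero (by simp)
  set V := Q₀.filter (fun q : ℕ => UFq ((q : ℚ) / (c : ℚ)) 4) with hV
  set Qb := Q₀.filter (fun q : ℕ => ¬ UFq ((q : ℚ) / (c : ℚ)) 4) with hQb
  have hsum : V.card + Qb.card = Q₀.card :=
    Finset.card_filter_add_card_filter_not (s := Q₀) (fun q : ℕ => UFq ((q : ℚ) / (c : ℚ)) 4)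
  have hbad : Qb.card ≤ 2 ^ (13 * s') * (2 ^ K + 1) := by
    by_contra hcon
    push Not at hcon
    have hQmem : ∀ q ∈ Qb, q ∈ Q₀ := fun q hq => (Finset.mem_filter.mp hq).1
    have hQprime : ∀ q ∈ Qb, q.Prime ∧ q ≤ 2 ^ (2 * (8 * s')) := fun q hq =>
      ⟨(mem_pool.mp (hQmem q hq)).1.2, (mem_pool.mp (hQmem q hq)).1.1⟩
    have hQlarge : ∀ q ∈ Qb, q.Prime ∧ 2 ^ (8 * s') < q := fun q hq =>
      ⟨(mem_pool.mp (hQmem q hq)).1.2, (mem_pool.mp (hQmem q hq)).2.1⟩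
    set F : Fin 8 → Finset ℕ := fun i => famw (W i) (g i) (2 ^ K) with hF
    have hFcard : ∀ i, (F i).card = (2 ^ (K + 2)).choose (2 ^ K) := by
      intro i
      simp only [hF]
      rw [card_famw _ _ _ (hB.hprime i i.2) (hB.hg i i.2), hB.hcard i i.2]
      simp
    have hω : ∀ i, ∀ z ∈ F i, ∀ z' ∈ F i, z ≠ z' →
        (Qb.filter (fun q => q ∣ gap (z, z'))).card ≤ 2 ^ K + 1 := by
      intro i z hz z' hz' hzz
      have hle : ∀ y ∈ F i, y ≤ 2 ^ ((8 * s') * (2 ^ K + 1)) := by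
        intro y hy
        have h1 := famw_le _ _ (2 ^ K) (2 ^ s) (hB.hg i i.2) (hB.hle i i.2) y hy
        rw [← pow_mul] at h1
        exact h1.trans (Nat.pow_le_pow_right (by norm_num) (Nat.mul_le_mul_right _ (by omega)))
      exact card_primes_dvd_le Qb (8 * s') (2 ^ K + 1) (gap (z, z')) (by omega) hQlarge
        (gap_ne_zero z z' hzz) (gap_le z z' _ (hle z hz) (hle z' hz'))
    have hC1 : 16 * (1 + (2 ^ (2 * (8 * s'))) ^ 3) ^ 1 ≤ ((2 ^ (K + 2)).choose (2 ^ K)) ^ 4 := by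
      have h1 := two_pow_ee_le_choose K K le_rfl
      have hee : ee K K = 2 ^ K := by
        unfold ee
        rw [show K + 1 - K = 1 by omega, mul_one]
      rw [hee] at h1
      refine le_trans ?_ (Nat.pow_le_pow_left h1 4)
      rw [pow_one, ← pow_mul, ← pow_mul]
      have h2 : 1 + 2 ^ (2 * (8 * s') * 3) ≤ 2 ^ (48 * s' + 1) := by
        rw [show 2 * (8 * s') * 3 = 48 * s' by ring, pow_succ]
        have : 1 ≤ 2 ^ (48 * s') := Nat.one_le_two_pow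
        omega
      calc 16 * (1 + 2 ^ (2 * (8 * s') * 3)) ≤ 2 ^ 4 * 2 ^ (48 * s' + 1) :=
            Nat.mul_le_mul (by norm_num) h2
        _ = 2 ^ (4 + (48 * s' + 1)) := (pow_add _ _ _).symm
        _ ≤ 2 ^ (2 ^ K * 4) := Nat.pow_le_pow_right (by norm_num) (by omega)
    have hC2 := numeric_C2R s' 1 (by omega) Nat.one_le_two_pow
    have hLwpos : 0 < 2 ^ (13 * s') * (2 ^ K + 1) := by positivity
    obtain ⟨B, hBQ, hBb, hcov⟩ := batch F ((2 ^ (K + 2)).choose (2 ^ K)) (2 ^ (13 * s')) (2 ^ K + 1)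
      (2 ^ (13 * s') * (2 ^ K + 1)) 1 (2 ^ (2 * (8 * s'))) Qb hFcard (by norm_num) hLwpos
      (by positivity) hQprime hω (by omega) (by rw [mul_one]) hC1 hC2
    obtain ⟨q, rfl⟩ := Finset.card_eq_one.mp hBb
    have hq := hBQ (Finset.mem_singleton_self q)
    rw [Finset.prod_singleton] at hcov
    obtain ⟨x₁, hx₁, y₁, hy₁, x₂, hx₂, y₂, hy₂, x₃, hx₃, y₃, hy₃, x₄, hx₄, y₄, hy₄, hs⟩ := hcov 0
    have hdvd : q ∣ x₁ * y₁ + x₂ * y₂ + x₃ * y₃ + x₄ * y₄ := (ZMod.natCast_eq_zero_iff _ _).mp hs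
    have d1 := hB.pair_dvd (i := 0) (j := 1) (w := 2 ^ K) (by omega) (by omega) (by omega) hx₁ hy₁
    have d2 := hB.pair_dvd (i := 2) (j := 3) (w := 2 ^ K) (by omega) (by omega) (by omega) hx₂ hy₂
    have d3 := hB.pair_dvd (i := 4) (j := 5) (w := 2 ^ K) (by omega) (by omega) (by omega) hx₃ hy₃
    have d4 := hB.pair_dvd (i := 6) (j := 7) (w := 2 ^ K) (by omega) (by omega) (by omega) hx₄ hy₄
    have hqpos : 0 < q := (hQprime q hq).1.pos
    exact (Finset.mem_filter.mp hq).2 (virt_of_dvd c q _ _ _ _ hc hqpos d1 d2 d3 d4 hdvd)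
  refine ⟨V, ?_, ?_, ?_⟩
  · have hLwle : 2 ^ (13 * s') * (2 ^ K + 1) ≤ 2 ^ (15 * s') := by
      have h1 : 2 ^ K + 1 ≤ 2 ^ (2 * s') := by
        have h2 : 2 ^ K < 2 ^ (2 * s') := Nat.pow_lt_pow_right (by norm_num) (by omega)
        omega
      calc 2 ^ (13 * s') * (2 ^ K + 1) ≤ 2 ^ (13 * s') * 2 ^ (2 * s') := Nat.mul_le_mul_left _ h1
        _ = 2 ^ (15 * s') := by
          rw [← pow_add]
          congr 1
          ring
    have e : 2 ^ (15 * s' + 1) = 2 * 2 ^ (15 * s') := by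
      rw [pow_succ]
      ring
    omega
  · intro q hq
    have h1 := (mem_pool.mp (Finset.mem_filter.mp hq).1).1.1
    rwa [show 2 * (8 * s') = 16 * s' by ring] at h1
  · exact fun q hq => (Finset.mem_filter.mp hq).2

/-- One level, using virtual primes. -/
theorem level_virt (s K b c : ℕ) (W : ℕ → Finset ℕ) (g : ℕ → ℕ)
    (hB : BlocksR c s (2 ^ (K + 2)) W g) (hc : 0 < c) (hs : 10 ≤ s) (hKs : K + 1 ≤ s)
    (hb : 1 ≤ b) (h13 : 13 * (s * b) ≤ 2 ^ K)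
    (G T : ℕ) (hG0 : 0 < G) (hG : UFG G (c * c * G) T) (hterm : 2 ^ (32 * (s * b) + 2) ≤ G) :
    ∃ P : ℕ, 2 ^ (8 * s * b) ≤ P ∧ UFG (G * P) (c * c * (G * P)) (T + 64) := by
  classical
  obtain ⟨X, hX⟩ : ∃ X, X = s * b := ⟨_, rfl⟩
  rw [← hX] at h13 hterm
  have hbX : 10 * b ≤ X := by
    rw [hX]
    exact Nat.mul_le_mul_right _ hs
  have hsX : s ≤ X := by
    rw [hX]
    exact Nat.le_mul_of_pos_right _ hb
  obtain ⟨V, hV1, hV2, hV3⟩ := virtual_large s K X c W g hB hc hsX (by omega) (by omega) h13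
  set Q := pool (2 ^ (8 * s)) (2 ^ (2 * (8 * s))) 1 with hQdef
  have hQcard : 2 ^ (15 * s + 1) ≤ Q.card := pool_large s 1 hs one_ne_zero (by simp)
  have hQ1 : ∀ q ∈ Q, q.Prime ∧ q ≤ 2 ^ (2 * (8 * s)) := fun q hq =>
    ⟨(mem_pool.mp hq).1.2, (mem_pool.mp hq).1.1⟩
  have hQ2 : ∀ q ∈ Q, q.Prime ∧ 2 ^ (8 * s) < q := fun q hq =>
    ⟨(mem_pool.mp hq).1.2, (mem_pool.mp hq).2.1⟩
  have hbK : b ≤ 2 ^ K := by omega
  have hK2 : 2 * 2 ^ K ≤ 2 ^ s := by
    have h1 : 2 ^ (K + 1) ≤ 2 ^ s := Nat.pow_le_pow_right (by norm_num) hKs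
    rw [pow_succ] at h1
    omega
  have hbs : b ≤ 2 ^ s := by omega
  have hω : ∀ i : Fin 8, ∀ z ∈ (fun _ : Fin 8 => V) i, ∀ z' ∈ (fun _ : Fin 8 => V) i, z ≠ z' →
      (Q.filter (fun q => q ∣ gap (z, z'))).card ≤ 2 * b := by
    intro i z hz z' hz' hzz
    have hle : ∀ y ∈ V, y ≤ 2 ^ ((8 * s) * (2 * b)) := by
      intro y hy
      have h1 := hV2 y hy
      rwa [show 16 * X = 8 * s * (2 * b) by rw [hX]; ring] at h1
    exact card_primes_dvd_le Q (8 * s) (2 * b) (gap (z, z')) (by omega) hQ2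
      (gap_ne_zero z z' hzz) (gap_le z z' _ (hle z hz) (hle z' hz'))
  have hcard : b + 2 ^ (13 * s) * (2 * b) * b ≤ Q.card := by
    have h1 : (2 * b) * b ≤ 2 ^ s * 2 ^ s :=
      Nat.mul_le_mul (by omega) hbs
    have h2 : 2 ^ (13 * s) * (2 * b) * b ≤ 2 ^ (15 * s) := by
      calc 2 ^ (13 * s) * (2 * b) * b = 2 ^ (13 * s) * ((2 * b) * b) := by ring
        _ ≤ 2 ^ (13 * s) * (2 ^ s * 2 ^ s) := Nat.mul_le_mul_left _ h1
        _ = 2 ^ (15 * s) := by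
          rw [← pow_add, ← pow_add]
          congr 1
          ring
    have h3 : 2 ^ s ≤ 2 ^ (15 * s) := Nat.pow_le_pow_right (by norm_num) (by omega)
    have e : 2 ^ (15 * s + 1) = 2 * 2 ^ (15 * s) := by
      rw [pow_succ]
      ring
    omega
  have hC1 : 16 * (1 + (2 ^ (2 * (8 * s))) ^ 3) ^ b ≤ V.card ^ 4 := by
    have h1 : 1 + (2 ^ (2 * (8 * s))) ^ 3 ≤ 2 ^ (48 * s + 1) := by
      rw [← pow_mul, show 2 * (8 * s) * 3 = 48 * s by ring, pow_succ]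
      have : 1 ≤ 2 ^ (48 * s) := Nat.one_le_two_pow
      omega
    have h2 : (1 + (2 ^ (2 * (8 * s))) ^ 3) ^ b ≤ 2 ^ ((48 * s + 1) * b) := by
      calc (1 + (2 ^ (2 * (8 * s))) ^ 3) ^ b ≤ (2 ^ (48 * s + 1)) ^ b := Nat.pow_le_pow_left h1 b
        _ = 2 ^ ((48 * s + 1) * b) := (pow_mul _ _ _).symm
    have h3 : (48 * s + 1) * b = 48 * X + b := by
      rw [hX]
      ring
    calc 16 * (1 + (2 ^ (2 * (8 * s))) ^ 3) ^ b ≤ 2 ^ 4 * 2 ^ ((48 * s + 1) * b) :=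
          Nat.mul_le_mul (by norm_num) h2
      _ = 2 ^ (4 + (48 * s + 1) * b) := (pow_add _ _ _).symm
      _ ≤ 2 ^ (15 * X * 4) := Nat.pow_le_pow_right (by norm_num) (by rw [h3]; omega)
      _ = (2 ^ (15 * X)) ^ 4 := pow_mul _ _ _
      _ ≤ V.card ^ 4 := Nat.pow_le_pow_left hV1 4
  have hC2 := numeric_C2R s b (by omega) hbs
  have hLwpos : 0 < 2 ^ (13 * s) * (2 * b) * b := by
    have : 0 < b := by omega
    positivity
  obtain ⟨B, hBQ, hBb, hcov⟩ := batch (fun _ => V) V.card (2 ^ (13 * s)) (2 * b)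
    (2 ^ (13 * s) * (2 * b) * b) b (2 ^ (2 * (8 * s))) Q (fun _ => rfl) (by omega) hLwpos
    (by positivity) hQ1 hω hcard le_rfl hC1 hC2
  have hBprime : ∀ q ∈ B, q.Prime := fun q hq => (hQ1 q (hBQ hq)).1
  refine ⟨∏ q ∈ B, q, ?_, ?_⟩
  · have h1 : (2 ^ (8 * s)) ^ B.card ≤ ∏ q ∈ B, q :=
      Finset.pow_card_le_prod _ _ _ (fun q hq => (hQ2 q (hBQ hq)).2.le)
    rw [hBb, ← pow_mul] at h1
    exact h1
  · have hPpos := prod_primes_pos B hBprime
    have hterm' : 4 * (2 ^ (16 * X)) ^ 2 ≤ G := by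
      refine le_trans (le_of_eq ?_) hterm
      rw [← pow_mul, pow_add, show 16 * X * 2 = 32 * X by ring]
      norm_num
      ring
    have h1 := ufg_level G (c * c * G) T c G (∏ q ∈ B, q) (16 * X) V rfl hc hG0 hPpos hG hV3 hV2
      hterm' hcov
    rwa [mul_assoc (c * c) G] at h1

/-- Running `L` levels with a fixed batch size. -/
theorem run_b (s K b c : ℕ) (W : ℕ → Finset ℕ) (g : ℕ → ℕ)
    (hB : BlocksR c s (2 ^ (K + 2)) W g) (hc : 0 < c) (hs : 10 ≤ s) (hKs : K + 1 ≤ s)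
    (hb : 1 ≤ b) (h13 : 13 * (s * b) ≤ 2 ^ K) (tb L : ℕ) :
    ∀ (t G T : ℕ), 0 < G → UFG G (c * c * G) T → 2 ^ t ≤ G → 32 * (s * b) + 2 ≤ t →
      tb ≤ t + L * (8 * s * b) →
      ∃ G' T', 0 < G' ∧ UFG G' (c * c * G') T' ∧ 2 ^ tb ≤ G' ∧ T' ≤ T + 64 * L := by
  induction L with
  | zero =>
    intro t G T hG0 hG ht hlo htb
    refine ⟨G, T, hG0, hG, le_trans (Nat.pow_le_pow_right (by norm_num) ?_) ht, by omega⟩
    simpa using htb
  | succ L ih =>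
    intro t G T hG0 hG ht hlo htb
    obtain ⟨P, hP, hG'⟩ := level_virt s K b c W g hB hc hs hKs hb h13 G T hG0 hG
      (le_trans (Nat.pow_le_pow_right (by norm_num) hlo) ht)
    have hPpos : 0 < P := lt_of_lt_of_le (by positivity) hP
    have h1 : 2 ^ (t + 8 * s * b) ≤ G * P := by
      rw [pow_add]
      exact Nat.mul_le_mul ht hP
    obtain ⟨G', T', h3, h4, h5, h6⟩ := ih (t + 8 * s * b) (G * P) (T + 64)
      (Nat.mul_pos hG0 hPpos) hG' h1 (by omega) (by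
        have e : (L + 1) * (8 * s * b) = L * (8 * s * b) + 8 * s * b := by ring
        omega)
    exact ⟨G', T', h3, h4, h5, by omega⟩

/-- The bit length at phase `j`. -/
def tj (s j : ℕ) : ℕ := 32 * (s * 2 ^ j) + 2

/-- The phases with batch sizes `2 ^ j`. -/
theorem phases_uf (s K c J : ℕ) (W : ℕ → Finset ℕ) (g : ℕ → ℕ)
    (hB : BlocksR c s (2 ^ (K + 2)) W g) (hc : 0 < c) (hs : 10 ≤ s) (hKs : K + 1 ≤ s)
    (hJ : 13 * (s * 2 ^ J) ≤ 2 ^ K) (j : ℕ) (hj : j ≤ J) :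
    ∃ G T, 0 < G ∧ UFG G (c * c * G) T ∧ 2 ^ tj s j ≤ G ∧ T ≤ tj s 0 + 1 + 64 * (4 * j) := by
  induction j with
  | zero =>
    refine ⟨2 ^ tj s 0, tj s 0 + 1, by positivity, ?_, le_rfl, by omega⟩
    have h := ufg_base (c * c) (Nat.mul_pos hc hc) (tj s 0)
    rwa [mul_comm (2 ^ tj s 0) (c * c)] at h
  | succ j ih =>
    obtain ⟨G, T, hG0, hG, ht, hT⟩ := ih (by omega)
    have hbj : 13 * (s * 2 ^ j) ≤ 2 ^ K :=
      le_trans (Nat.mul_le_mul_left _ (Nat.mul_le_mul_left _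
        (Nat.pow_le_pow_right (by norm_num) (by omega)))) hJ
    have e1 : s * 2 ^ (j + 1) = 2 * (s * 2 ^ j) := by
      rw [pow_succ]
      ring
    have e2 : 8 * s * 2 ^ j = 8 * (s * 2 ^ j) := by ring
    obtain ⟨G', T', h1, h2, h3, h4⟩ := run_b s K (2 ^ j) c W g hB hc hs hKs Nat.one_le_two_pow hbj
      (tj s (j + 1)) 4 (tj s j) G T hG0 hG ht (by unfold tj; omega) (by
        unfold tj
        rw [e1, e2]
        omega)
    have e3 : 64 * (4 * (j + 1)) = 64 * (4 * j) + 64 * 4 := by ring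
    exact ⟨G', T', h1, h2, h3, by rw [e3]; linarith⟩

/-- The final state of the construction. -/
theorem final_uf (s K c J : ℕ) (W : ℕ → Finset ℕ) (g : ℕ → ℕ)
    (hB : BlocksR c s (2 ^ (K + 2)) W g) (hc : 0 < c) (hs : 10 ≤ s) (hKs : K + 1 ≤ s)
    (hJ : 13 * (s * 2 ^ J) ≤ 2 ^ K) (hJ2 : 2 ^ K ≤ 32 * (s * 2 ^ J)) :
    ∃ G T, 0 < G ∧ UFG G (c * c * G) T ∧ 2 ^ (2 ^ (s + 5)) ≤ G ∧
      T ≤ tj s 0 + 1 + 64 * (4 * J) + 64 * (4 * 2 ^ (s + 5 - K)) := by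
  obtain ⟨G, T, hG0, hG, ht, hT⟩ := phases_uf s K c J W g hB hc hs hKs hJ J le_rfl
  have hgoal : 2 ^ (s + 5) ≤ tj s J + (4 * 2 ^ (s + 5 - K)) * (8 * s * 2 ^ J) := by
    have e : 2 ^ (s + 5) = 2 ^ (s + 5 - K) * 2 ^ K := by
      rw [← pow_add]
      congr 1
      omega
    have h1 : 2 ^ (s + 5) ≤ 2 ^ (s + 5 - K) * (32 * (s * 2 ^ J)) := by
      rw [e]
      exact Nat.mul_le_mul_left _ hJ2
    have e2 : (4 * 2 ^ (s + 5 - K)) * (8 * s * 2 ^ J) = 2 ^ (s + 5 - K) * (32 * (s * 2 ^ J)) := by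
      ring
    rw [e2]
    omega
  obtain ⟨G', T', h1, h2, h3, h4⟩ := run_b s K (2 ^ J) c W g hB hc hs hKs Nat.one_le_two_pow hJ
    (2 ^ (s + 5)) (4 * 2 ^ (s + 5 - K)) (tj s J) G T hG0 hG ht (by unfold tj; omega) hgoal
  exact ⟨G', T', h1, h2, h3, by omega⟩

lemma fifty_two_mul_le (K : ℕ) (hK : 9 ≤ K) : 52 * K ≤ 2 ^ K := by
  induction K, hK using Nat.le_induction with
  | base => norm_num
  | succ n hn ih =>
    rw [pow_succ]
    omega

lemma exists_J (s K : ℕ) (hs : 0 < s) (h : 13 * s ≤ 2 ^ K) :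
    ∃ J, 13 * (s * 2 ^ J) ≤ 2 ^ K ∧ 2 ^ K ≤ 32 * (s * 2 ^ J) := by
  have h13 : 0 < 13 * s := by omega
  set D := 2 ^ K / (13 * s) with hD
  have hD0 : D ≠ 0 := by
    have : 0 < D := Nat.div_pos h h13
    omega
  refine ⟨Nat.log 2 D, ?_, ?_⟩
  · have h1 : 2 ^ Nat.log 2 D ≤ D := Nat.pow_log_le_self 2 hD0
    have h2 : 13 * s * D ≤ 2 ^ K := Nat.mul_div_le _ _
    calc 13 * (s * 2 ^ Nat.log 2 D) = 13 * s * 2 ^ Nat.log 2 D := by ring
      _ ≤ 13 * s * D := Nat.mul_le_mul_left _ h1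
      _ ≤ 2 ^ K := h2
  · have h1 : D < 2 ^ (Nat.log 2 D + 1) := Nat.lt_pow_succ_log_self (by norm_num) D
    have h2 : 2 ^ K < 13 * s * (D + 1) := Nat.lt_mul_div_succ _ h13
    have h3 : D + 1 ≤ 2 * 2 ^ Nat.log 2 D := by
      rw [pow_succ] at h1
      omega
    calc 2 ^ K ≤ 13 * s * (D + 1) := h2.le
      _ ≤ 13 * s * (2 * 2 ^ Nat.log 2 D) := Nat.mul_le_mul_left _ h3
      _ = 26 * (s * 2 ^ Nat.log 2 D) := by ring
      _ ≤ 32 * (s * 2 ^ Nat.log 2 D) := Nat.mul_le_mul_right _ (by norm_num)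

lemma large_two_pow (s : ℕ) (hs : 64 ≤ s) : 2 ^ 24 * s ≤ 2 ^ s := by
  induction s, hs using Nat.le_induction with
  | base => norm_num
  | succ n hn ih =>
    rw [pow_succ 2 n]
    have h1 : 2 ^ 24 * (n + 1) = 2 ^ 24 * n + 2 ^ 24 := by ring
    have h2 : 2 ^ 24 ≤ 2 ^ 24 * n := Nat.le_mul_of_pos_right _ (by omega)
    omega

/-- The Egyptian fraction statement with an explicit count. -/
theorem egypt_uf (s K a b : ℕ) (hP : Params s K) (hK2 : 2 ^ (s + 5 - K) ≤ 8192 * s)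
    (ha : 1 ≤ a) (hab : a < b) (hb : b ≤ 2 ^ (2 ^ s)) :
    ∃ S : Finset ℕ, (∀ n ∈ S, 2 ≤ n) ∧ (∑ n ∈ S, (1 : ℚ) / (n : ℚ)) = (a : ℚ) / (b : ℚ) ∧
      S.card ≤ 2 ^ 23 * s := by
  classical
  have hs := hP.hs
  have hKs := hP.hKs
  obtain ⟨c, W, g, hc2, hcle, hB⟩ := reservoir s K hP
  have hc : 0 < c := by omega
  have hK9 : 9 ≤ K := by
    have := hP.h2
    omega
  have h13 : 13 * s ≤ 2 ^ K := by
    have h1 := fifty_two_mul_le K hK9
    have h2 := hP.h2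
    omega
  obtain ⟨J, hJ1, hJ2⟩ := exists_J s K (by omega) h13
  have hJK : J ≤ s := by
    have h1 : 2 ^ J ≤ 2 ^ K := by
      have h2 : 2 ^ J ≤ s * 2 ^ J := Nat.le_mul_of_pos_left _ (by omega)
      omega
    have h2 := (Nat.pow_le_pow_iff_right (by norm_num : 1 < 2)).mp h1
    omega
  obtain ⟨G, T, hG0, hG, hGlarge, hT⟩ := final_uf s K c J W g hB hc (by omega) hKs hJ1 hJ2
  have ht0 : tj s 0 = 32 * s + 2 := by
    unfold tj
    simp
  rw [ht0] at hT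
  have hTs : T ≤ 3145728 * s := by
    have h1 : 64 * (4 * J) ≤ 64 * (4 * s) := by omega
    have h2 : 64 * (4 * 2 ^ (s + 5 - K)) ≤ 64 * (4 * (8192 * s)) := by omega
    omega
  set Z := 2 ^ (2 ^ (s + 3)) with hZ
  have hZ2 : 2 ≤ Z := by
    have h1 : 1 ≤ 2 ^ (s + 3) := Nat.one_le_two_pow
    calc 2 = 2 ^ 1 := by norm_num
      _ ≤ 2 ^ (2 ^ (s + 3)) := Nat.pow_le_pow_right (by norm_num) h1
  obtain ⟨S₀, u, v, h1, h2, hv0, h3, h4, h5, h6⟩ := peel Z a b (s + 3) hZ2 le_rfl ha hab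
  have hs2 : s + 4 + 2 * (3145728 * s) ≤ 2 ^ 23 * s := by
    norm_num
    omega
  by_cases hu : u = 0
  · refine ⟨S₀, h2, ?_, ?_⟩
    · rw [← h3, hu]
      simp
    · omega
  have hupos : 0 < u := Nat.pos_of_ne_zero hu
  have hcZ : 2 ^ s * (c * c) ≤ Z := by
    calc 2 ^ s * (c * c) ≤ 2 ^ s * (2 ^ (2 ^ (s + 1)) * 2 ^ (2 ^ (s + 1))) :=
          Nat.mul_le_mul_left _ (Nat.mul_le_mul hcle hcle)
      _ = 2 ^ (s + (2 ^ (s + 1) + 2 ^ (s + 1))) := by rw [← pow_add, ← pow_add]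
      _ ≤ Z := by
        refine Nat.pow_le_pow_right (by norm_num) ?_
        have e1 : 2 ^ (s + 3) = 8 * 2 ^ s := by rw [pow_add]; ring
        have e2 : 2 ^ (s + 1) = 2 * 2 ^ s := by rw [pow_add]; ring
        have e3 : s < 2 ^ s := Nat.lt_two_pow_self
        omega
  obtain ⟨X, hX⟩ : ∃ X, X = 2 ^ s * (c * c * G) := ⟨_, rfl⟩
  obtain ⟨q, hq⟩ : ∃ q, q = u * X / v := ⟨_, rfl⟩
  obtain ⟨r, hr⟩ : ∃ r, r = u * X % v := ⟨_, rfl⟩
  have hqr : v * q + r = u * X := by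
    rw [hq, hr]
    exact Nat.div_add_mod _ _
  have hrv : r < v := by
    rw [hr]
    exact Nat.mod_lt _ hv0
  have hqG : q ≤ G := by
    rw [hq]
    refine Nat.div_le_of_le_mul ?_
    calc u * X = u * (2 ^ s * (c * c)) * G := by rw [hX]; ring
      _ ≤ u * Z * G := Nat.mul_le_mul_right _ (Nat.mul_le_mul_left _ hcZ)
      _ ≤ v * G := Nat.mul_le_mul_right _ h4.le
  have hvG : v ≤ G := by
    refine le_trans ?_ hGlarge
    calc v ≤ b * Z ^ 2 := h5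
      _ ≤ 2 ^ (2 ^ s) * (2 ^ (2 ^ (s + 3))) ^ 2 := Nat.mul_le_mul hb (le_of_eq rfl)
      _ = 2 ^ (2 ^ s + 2 ^ (s + 3) * 2) := by rw [← pow_mul, ← pow_add]
      _ ≤ 2 ^ (2 ^ (s + 5)) := by
        refine Nat.pow_le_pow_right (by norm_num) ?_
        have e1 : 2 ^ (s + 5) = 32 * 2 ^ s := by rw [pow_add]; ring
        have e2 : 2 ^ (s + 3) = 8 * 2 ^ s := by rw [pow_add]; ring
        omega
  obtain ⟨M₁, c1, p1, s1⟩ := (hG q hqG).scale_dvd (k := 2 ^ s) (by positivity)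
  obtain ⟨M₂, c2, p2, s2⟩ := (hG r (by omega)).scale_dvd (k := 2 ^ s * v) (by positivity)
  have hlarge := large_two_pow s hs
  obtain ⟨S₁, h7, h8, h9⟩ := merge_of_dvd (M₁ + M₂) s (by
      intro n hn
      rcases Multiset.mem_add.mp hn with h | h
      · exact p1 n h
      · exact ⟨(p2 n h).1, (Nat.dvd_mul_right _ _).trans (p2 n h).2⟩) (by
      rw [Multiset.card_add]
      norm_num at hlarge
      omega)
  have hval : ∑ n ∈ S₁, (1 : ℚ) / (n : ℚ) = (u : ℚ) / (v : ℚ) := by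
    rw [h9, Multiset.map_add, Multiset.sum_add, s1, s2]
    have hvq : (v : ℚ) ≠ 0 := by exact_mod_cast hv0.ne'
    have hGq : (G : ℚ) ≠ 0 := by exact_mod_cast hG0.ne'
    have hcq : (c : ℚ) ≠ 0 := by exact_mod_cast hc.ne'
    have hqrq : (v : ℚ) * q + r = u * (2 ^ s * (c * c * G)) := by
      have h10 : v * q + r = u * (2 ^ s * (c * c * G)) := by rw [hqr, hX]
      exact_mod_cast h10
    push_cast
    have h2s : ((2 : ℚ) ^ s) ≠ 0 := by positivity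
    have e : (q : ℚ) / (c * c * G) * (1 / 2 ^ s) + (r : ℚ) / (c * c * G) * (1 / (2 ^ s * v))
        = ((v : ℚ) * q + r) / (v * (2 ^ s * (c * c * G))) := by
      field_simp
    rw [e, hqrq]
    field_simp
  have hunit : ∀ n ∈ S₁, v ≤ u * n := by
    intro n hn
    have hnpos : 0 < n := by
      have := h8 n hn
      omega
    have h10 : (1 : ℚ) / n ≤ (u : ℚ) / v := by
      rw [← hval]
      exact Finset.single_le_sum (f := fun n : ℕ => (1 : ℚ) / n)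
        (fun i _ => by positivity) hn
    have hnq : (0 : ℚ) < n := by exact_mod_cast hnpos
    have hvq : (0 : ℚ) < v := by exact_mod_cast hv0
    rw [div_le_div_iff₀ hnq hvq] at h10
    have h11 : (v : ℚ) ≤ (u * n : ℕ) := by
      push_cast
      linarith
    exact_mod_cast h11
  have hdisj : Disjoint S₀ S₁ := by
    rw [Finset.disjoint_left]
    intro n hn hn'
    have h10 := h6 n hn
    have h11 := hunit n hn'
    omega
  refine ⟨S₀ ∪ S₁, ?_, ?_, ?_⟩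
  · intro n hn
    rcases Finset.mem_union.mp hn with hn | hn
    · exact h2 n hn
    · exact h8 n hn
  · rw [Finset.sum_union hdisj, hval, h3]
  · have h10 := Finset.card_union_le S₀ S₁
    rw [Multiset.card_add] at h7
    omega

/-- The count in terms of the scale only. -/
theorem egypt_s (s a b : ℕ) (hs : 64 ≤ s) (ha : 1 ≤ a) (hab : a < b) (hb : b ≤ 2 ^ (2 ^ s)) :
    ∃ S : Finset ℕ, (∀ n ∈ S, 2 ≤ n) ∧ (∑ n ∈ S, (1 : ℚ) / (n : ℚ)) = (a : ℚ) / (b : ℚ) ∧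
      S.card ≤ 2 ^ 23 * s := by
  obtain ⟨K, hP, hK2⟩ := exists_params s hs
  exact egypt_uf s K a b hP hK2 ha hab hb

end P012Egypt
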